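import Crest.Agent.N111.Lib.BM

/-! # Row 111: linear geometry of `SL₃` (API; fill the proofs IN PLACE). -/

set_option autoImplicit false
set_option linter.unusedVariables false
set_option maxHeartbeats 400000

namespace Crest.Agent.N111

open MeasureTheory Topology Filter Matrix

@[simp] theorem ac_one (a : V) : ac 1 a = a := by simp [ac]
theorem ac_mul (g h : G) (a : V) : ac (g * h) a = ac g (ac h a) := by simp [ac]
@[simp] theorem ac_inv_ac (g : G) (a : V) : ac g⁻¹ (ac g a) = a := by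
  rw [← ac_mul, inv_mul_cancel, ac_one]
@[simp] theorem ac_ac_inv (g : G) (a : V) : ac g (ac g⁻¹ a) = a := by
  rw [← ac_mul, mul_inv_cancel, ac_one]
theorem ac_add (g : G) (a b : V) : ac g (a + b) = ac g a + ac g b := mulVec_add _ _ _
theorem ac_sub (g : G) (a b : V) : ac g (a - b) = ac g a - ac g b := mulVec_sub _ _ _
theorem ac_smul (g : G) (z : ℝ) (a : V) : ac g (z • a) = z • ac g a := mulVec_smul _ _ _
theorem ac_neg (g : G) (a : V) : ac g (-a) = -ac g a := mulVec_neg _ _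
@[simp] theorem ac_zero (g : G) : ac g 0 = 0 := mulVec_zero _
theorem ac_ne_zero (g : G) {a : V} (h : a ≠ 0) : ac g a ≠ 0 := fun h' =>
  h (by rw [← ac_inv_ac g a, h', ac_zero])
theorem ac_apply (g : G) (a : V) (i : Fin 3) :
    ac g a i = g i 0 * a 0 + g i 1 * a 1 + g i 2 * a 2 := by
  simp only [ac, mulVec, dotProduct, Fin.sum_univ_three]
theorem ac_ev (g : G) (k i : Fin 3) : ac g (ev k) i = g i k := by
  rw [ac_apply]; fin_cases k <;> simp [ev]
@[fun_prop] theorem continuous_ac (g : G) : Continuous (ac g) := continuous_pi fun i => by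
  simp only [ac_apply]; fun_prop
@[fun_prop] theorem measurable_ac (g : G) : Measurable (ac g) := (continuous_ac g).measurable
theorem continuous_ac₂ : Continuous fun p : G × V => ac p.1 p.2 := continuous_pi fun i => by
  simp only [ac_apply]; fun_prop
theorem ev_ne_zero (i : Fin 3) : ev i ≠ 0 := fun h => by simpa [ev] using congrFun h i
theorem norm_ev (i : Fin 3) : ‖ev i‖ = 1 := by simp [ev, Pi.norm_single]
theorem ev_dot_ev (i k : Fin 3) : ev i ⬝ᵥ ev k = if i = k then 1 else 0 := by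
  simp [ev, Pi.single_apply, eq_comm]
theorem ev_dot (i : Fin 3) (a : V) : ev i ⬝ᵥ a = a i := by simp [ev]
theorem ac_tv {i k : Fin 3} (h : i ≠ k) (b : ℝ) (a : V) :
    ac (tv h b) a = a + (b * a k) • ev i := by
  funext l
  rw [ac_apply]
  simp only [tv_apply]
  fin_cases i <;> fin_cases k <;> fin_cases l <;> simp [ev] at h ⊢ <;> ring
theorem ac_dg (a b : ℝ) (v : V) (i : Fin 3) : ac (dg a b) v i = Real.exp (dgl a b i) * v i := by
  rw [ac_apply]
  simp only [dg_apply]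
  fin_cases i <;> simp
theorem ac_al_ev0 (s : ℝ) : ac (al s) (ev 0) = Real.exp (-2 * s) • ev 0 := by
  funext i
  rw [al, ac_dg]
  fin_cases i <;> simp [ev, dgl]
theorem ac_al_of (s : ℝ) {a : V} (h : a 0 = 0) : ac (al s) a = Real.exp s • a := by
  funext i
  have e : -(-2 * s) - s = s := by ring
  rw [al, ac_dg, dgl, e]
  fin_cases i <;> simp [h]
theorem al_add (s t : ℝ) : al (s + t) = al s * al t := by
  rw [al, al, al, ← dg_add, mul_add]
theorem al_neg (s : ℝ) : al (-s) = (al s)⁻¹ := by rw [al, al, dg_inv, mul_neg]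
@[simp] theorem al_zero : al 0 = 1 := by rw [al, mul_zero, dg_zero]

@[simp] theorem dl_dl {R : Type} [CommRing R] (g : Matrix.SpecialLinearGroup (Fin 3) R) :
    dl (dl g) = g := by
  ext i k
  have h : ∀ (g : Matrix.SpecialLinearGroup (Fin 3) R) (i k : Fin 3), dl g i k = g⁻¹ k i :=
    fun _ _ _ => rfl
  rw [h, ← map_inv, h, inv_inv]
theorem dl_apply {R : Type} [CommRing R] (g : Matrix.SpecialLinearGroup (Fin 3) R) (i k : Fin 3) :
    dl g i k = g⁻¹ k i := rfl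
theorem ι_dl (μ : Γ) : ι (dl μ) = dl (ι μ) := by
  ext i k
  rw [dl_apply, ← map_inv, ι_apply, ι_apply, dl_apply]
theorem dl_tv {i k : Fin 3} (h : i ≠ k) (b : ℝ) : dl (tv h b) = tv h.symm (-b) := by
  ext p q
  rw [dl_apply, tv_inv, tv_apply, tv_apply]
  simp only [eq_comm (a := q), and_comm]
theorem dl_dg (a b : ℝ) : dl (dg a b) = dg (-a) (-b) := by
  ext p q
  rw [dl_apply, dg_inv, dg_apply, dg_apply]
  by_cases h : p = q
  · rw [h]
  · rw [if_neg h, if_neg (Ne.symm h)]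
theorem dl_al (s : ℝ) : dl (al s) = al (-s) := by rw [al, al, dl_dg, mul_neg]
theorem continuous_dl : Continuous (dl : G → G) := continuous_G fun i k =>
  (continuous_entry k i).comp continuous_inv
theorem ac_dot_ac_dl (g : G) (a b : V) : ac g a ⬝ᵥ ac (dl g) b = a ⬝ᵥ b := by
  have h : ac (dl g) b = b ᵥ* ((g⁻¹ : G) : Matrix (Fin 3) (Fin 3) ℝ) := mulVec_transpose _ _
  rw [h, dotProduct_comm, ← dotProduct_mulVec, dotProduct_comm]
  exact congrArg (· ⬝ᵥ b) (ac_inv_ac g a)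
theorem inv_entry_adj (g : G) (i k : Fin 3) :
    g⁻¹ i k = adjugate (g : Matrix (Fin 3) (Fin 3) ℝ) i k := rfl
theorem ac_cross (g : G) (a b : V) : ac g a ⨯₃ ac g b = ac (dl g) (a ⨯₃ b) := by
  funext i
  rw [ac_apply]
  simp only [dl_apply, inv_entry_adj, adjugate_fin_three]
  fin_cases i <;> simp [cross_apply, ac_apply] <;> ring
theorem ac_det (g : G) (a b c : V) : ac g a ⬝ᵥ (ac g b ⨯₃ ac g c) = a ⬝ᵥ (b ⨯₃ c) := by
  rw [ac_cross, ac_dot_ac_dl]

theorem abs_le_nm (g : G) (i k : Fin 3) : |g i k| ≤ nm g :=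
  (norm_le_pi_norm (fun j => g i j) k).trans
    (norm_le_pi_norm (fun i j => g i j : Fin 3 → Fin 3 → ℝ) i)
theorem nm_le_iff {g : G} {R : ℝ} (hR : 0 ≤ R) : nm g ≤ R ↔ g ∈ box R := by
  simp only [nm, pi_norm_le_iff_of_nonneg hR, Real.norm_eq_abs, box, Set.mem_ofPred_eq]
theorem exists_entry_ne_zero (g : G) : ∃ i k, g i k ≠ 0 := by
  by_contra! h
  simpa [h] using det_entry g
theorem nm_pos (g : G) : 0 < nm g := by
  obtain ⟨i, k, h⟩ := exists_entry_ne_zero g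
  exact (abs_pos.2 h).trans_le (abs_le_nm g i k)
theorem one_le_nm (μ : Γ) : 1 ≤ nm (ι μ) := by
  obtain ⟨i, k, h⟩ := exists_entry_ne_zero (ι μ)
  refine le_trans ?_ (abs_le_nm _ i k)
  rw [ι_apply] at h ⊢
  exact_mod_cast Int.one_le_abs (by exact_mod_cast h)
theorem nm_mul_le (g h : G) : nm (g * h) ≤ 3 * nm g * nm h := by
  have hg := nm_pos g
  have hh := nm_pos h
  refine (nm_le_iff (by positivity)).2 fun i k => ?_
  have b : ∀ l, |g i l * h l k| ≤ nm g * nm h := fun l => by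
    rw [abs_mul]; exact mul_le_mul (abs_le_nm _ _ _) (abs_le_nm _ _ _) (abs_nonneg _) hg.le
  rw [mul_entry]
  linarith [abs_add_three (g i 0 * h 0 k) (g i 1 * h 1 k) (g i 2 * h 2 k), b 0, b 1, b 2]
theorem nm_dl (g : G) : nm (dl g) = nm g⁻¹ :=
  le_antisymm ((nm_le_iff (nm_pos _).le).2 fun i k => abs_le_nm g⁻¹ k i)
    ((nm_le_iff (nm_pos _).le).2 fun i k => abs_le_nm (dl g) k i)
theorem nm_inv_le (g : G) : nm g⁻¹ ≤ 2 * nm g ^ 2 := by
  have hg := nm_pos g
  have b : ∀ i k l m p q r s, |g i k * g l m - g p q * g r s| ≤ 2 * nm g ^ 2 :=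
    fun i k l m p q r s => by
      have h1 := mul_le_mul (abs_le_nm g i k) (abs_le_nm g l m) (abs_nonneg _) hg.le
      have h2 := mul_le_mul (abs_le_nm g p q) (abs_le_nm g r s) (abs_nonneg _) hg.le
      rw [← abs_mul] at h1 h2
      linarith [abs_sub (g i k * g l m) (g p q * g r s)]
  refine (nm_le_iff (by positivity)).2 fun i k => ?_
  rw [inv_entry_adj, adjugate_fin_three]
  fin_cases i <;> fin_cases k <;> simp only [neg_add_eq_sub] <;> exact b _ _ _ _ _ _ _ _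
theorem norm_ac_le (g : G) (a : V) : ‖ac g a‖ ≤ 3 * nm g * ‖a‖ := by
  have hg := nm_pos g
  refine (pi_norm_le_iff_of_nonneg (by positivity)).2 fun i => ?_
  have b : ∀ l, |g i l * a l| ≤ nm g * ‖a‖ := fun l => by
    rw [abs_mul]; exact mul_le_mul (abs_le_nm _ _ _) (norm_le_pi_norm a l) (abs_nonneg _) hg.le
  rw [ac_apply, Real.norm_eq_abs]
  linarith [abs_add_three (g i 0 * a 0) (g i 1 * a 1) (g i 2 * a 2), b 0, b 1, b 2]
theorem norm_ac_ev_le (g : G) (k : Fin 3) : ‖ac g (ev k)‖ ≤ nm g :=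
  (pi_norm_le_iff_of_nonneg (nm_pos g).le).2 fun i => by rw [ac_ev]; exact abs_le_nm g i k
theorem nm_le_of_forall {g : G} {C : ℝ} (h : ∀ a, ‖ac g a‖ ≤ C * ‖a‖) : nm g ≤ C := by
  have b : ∀ k, ‖ac g (ev k)‖ ≤ C := fun k => by simpa only [norm_ev, mul_one] using h (ev k)
  refine (nm_le_iff ((norm_nonneg _).trans (b 0))).2 fun i k => ?_
  rw [← ac_ev]
  exact (norm_le_pi_norm (ac g (ev k)) i).trans (b k)
theorem continuous_nm : Continuous nm :=
  continuous_norm.comp (continuous_pi fun i => continuous_pi fun k => continuous_entry i k)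
theorem finite_nm_le (R : ℝ) : {μ : Γ | nm (ι μ) ≤ R}.Finite :=
  (finite_box R).subset fun μ h i k => (abs_le_nm _ i k).trans h
theorem finite_Sh (L R : ℝ) : (Sh L R).Finite :=
  (finite_nm_le (Real.exp (2 * L + R))).subset fun μ h =>
    (Real.log_le_iff_le_exp (nm_pos _)).1 (by linarith [(abs_le.1 h.1).2])
theorem norm_pt (μ : Γ) : ‖pt μ‖ = nm (ι μ) := by
  refine le_antisymm (norm_ac_ev_le _ _) ((nm_le_iff (norm_nonneg _)).2 fun i k => ?_)
  rw [← ac_ev]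
  exact (norm_le_pi_norm (ac (ι μ) (ev k)) i).trans
    ((Finite.exists_max fun j : Fin 3 => ‖ac (ι μ) (ev j)‖).choose_spec k)
theorem pt_ne_zero (μ : Γ) : pt μ ≠ 0 := ac_ne_zero _ (ev_ne_zero _)
theorem abs_log_nm_mul_sub_le (g h : G) :
    |Real.log (nm (g * h)) - Real.log (nm g)| ≤ Real.log (3 * max (nm h) (nm h⁻¹)) ∧
    |Real.log (nm (h * g)) - Real.log (nm g)| ≤ Real.log (3 * max (nm h) (nm h⁻¹)) := by
  have hM : 0 < 3 * max (nm h) (nm h⁻¹) := by have := nm_pos h; positivity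
  have key : ∀ x y : G, nm x ≤ 3 * max (nm h) (nm h⁻¹) * nm y →
      Real.log (nm x) - Real.log (nm y) ≤ Real.log (3 * max (nm h) (nm h⁻¹)) := fun x y e => by
    have := Real.log_le_log (nm_pos x) e
    rw [Real.log_mul hM.ne' (nm_pos y).ne'] at this
    linarith
  have b1 : ∀ y : G, 3 * nm h * nm y ≤ 3 * max (nm h) (nm h⁻¹) * nm y := fun y => by
    have := nm_pos y
    gcongr
    exact le_max_left _ _
  have b2 : ∀ y : G, 3 * nm h⁻¹ * nm y ≤ 3 * max (nm h) (nm h⁻¹) * nm y := fun y => by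
    have := nm_pos y
    gcongr
    exact le_max_right _ _
  have c1 := nm_mul_le (g * h) h⁻¹
  have c2 := nm_mul_le h⁻¹ (h * g)
  rw [mul_inv_cancel_right] at c1
  rw [inv_mul_cancel_left] at c2
  refine ⟨abs_sub_le_iff.2 ⟨key _ _ ?_, key _ _ ?_⟩, abs_sub_le_iff.2 ⟨key _ _ ?_, key _ _ ?_⟩⟩
  · linarith [nm_mul_le g h, b1 g]
  · linarith [b2 (g * h)]
  · linarith [nm_mul_le h g, b1 g]
  · linarith [b2 (h * g)]

theorem abs_mul_le_norm (a b : V) (i k : Fin 3) : |a i * b k| ≤ ‖a‖ * ‖b‖ := by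
  rw [abs_mul]
  exact mul_le_mul (norm_le_pi_norm a i) (norm_le_pi_norm b k) (abs_nonneg _) (norm_nonneg _)
theorem exists_abs_eq_norm (a : V) : ∃ i, |a i| = ‖a‖ := by
  obtain ⟨i, hi⟩ := Finite.exists_max fun i => |a i|
  exact ⟨i, le_antisymm (norm_le_pi_norm a i) ((pi_norm_le_iff_of_nonneg (abs_nonneg _)).2 hi)⟩
theorem abs_minor_le (a b : V) (i k : Fin 3) : |a i * b k - a k * b i| ≤ ‖a ⨯₃ b‖ := by
  have h0 : |a 1 * b 2 - a 2 * b 1| ≤ ‖a ⨯₃ b‖ := norm_le_pi_norm (a ⨯₃ b) 0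
  have h1 : |a 2 * b 0 - a 0 * b 2| ≤ ‖a ⨯₃ b‖ := norm_le_pi_norm (a ⨯₃ b) 1
  have h2 : |a 0 * b 1 - a 1 * b 0| ≤ ‖a ⨯₃ b‖ := norm_le_pi_norm (a ⨯₃ b) 2
  fin_cases i <;> fin_cases k <;>
    first | assumption | (rw [abs_sub_comm]; assumption) | simp
theorem abs_dot_le (a b : V) : |a ⬝ᵥ b| ≤ 3 * ‖a‖ * ‖b‖ := by
  rw [dotProduct, Fin.sum_univ_three]
  linarith [abs_add_three (a 0 * b 0) (a 1 * b 1) (a 2 * b 2), abs_mul_le_norm a b 0 0,
    abs_mul_le_norm a b 1 1, abs_mul_le_norm a b 2 2]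
theorem norm_sq_le_dot (a : V) : ‖a‖ ^ 2 ≤ a ⬝ᵥ a := by
  obtain ⟨i, hi⟩ := exists_abs_eq_norm a
  rw [← hi, sq_abs, sq]
  exact Finset.single_le_sum (f := fun i => a i * a i) (fun _ _ => mul_self_nonneg _)
    (Finset.mem_univ i)
theorem norm_cross_le (a b : V) : ‖a ⨯₃ b‖ ≤ 2 * ‖a‖ * ‖b‖ := by
  have b : ∀ i k, |a i * b k - a k * b i| ≤ 2 * ‖a‖ * ‖b‖ := fun i k => by
    linarith [abs_sub (a i * b k) (a k * b i), abs_mul_le_norm a b i k, abs_mul_le_norm a b k i]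
  refine (pi_norm_le_iff_of_nonneg (by positivity)).2 fun i => ?_
  rw [cross_apply]
  fin_cases i <;> exact b _ _
/-- decomposition along `a` with a remainder controlled by the cross product -/
theorem exists_decomp {a : V} (ha : a ≠ 0) (w : V) :
    ∃ (κ : ℝ) (r : V), w = κ • a + r ∧ |κ| * ‖a‖ ≤ 3 * ‖w‖ ∧ ‖r‖ * ‖a‖ ≤ 2 * ‖w ⨯₃ a‖ := by
  obtain ⟨i, hi⟩ := exists_abs_eq_norm a
  have hn : 0 < ‖a‖ := norm_pos_iff.2 ha
  have hi0 : a i ≠ 0 := abs_pos.1 (hi ▸ hn)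
  refine ⟨w i / a i, w - (w i / a i) • a, by abel, ?_, ?_⟩
  · rw [← hi, ← abs_mul, div_mul_cancel₀ _ hi0]
    have : |w i| ≤ ‖w‖ := norm_le_pi_norm w i
    linarith [norm_nonneg w]
  · rw [← le_div_iff₀ hn]
    refine (pi_norm_le_iff_of_nonneg (by positivity)).2 fun k => ?_
    have e : (w - (w i / a i) • a) k * a i = w k * a i - w i * a k := by
      simp only [Pi.sub_apply, Pi.smul_apply, smul_eq_mul]
      field_simp
    rw [le_div_iff₀ hn, ← hi, Real.norm_eq_abs, ← abs_mul, e]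
    linarith [abs_minor_le w a k i, norm_nonneg (w ⨯₃ a)]
theorem exists_smul_of_cross_eq_zero {a b : V} (ha : a ≠ 0) (h : a ⨯₃ b = 0) :
    ∃ z : ℝ, b = z • a := by
  obtain ⟨κ, r, h1, -, h2⟩ := exists_decomp ha b
  rw [← cross_anticomm, h, neg_zero, norm_zero, mul_zero] at h2
  have hr : ‖r‖ ≤ 0 := nonpos_of_mul_nonpos_left h2 (norm_pos_iff.2 ha)
  exact ⟨κ, by rw [h1, norm_le_zero_iff.1 hr, add_zero]⟩
/-- unit vectors with a small cross product are close up to sign -/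
theorem nrm_close {a b : V} (ha : a ≠ 0) (hb : b ≠ 0) :
    ‖nrm a - nrm b‖ ≤ 8 * ‖a ⨯₃ b‖ / (‖a‖ * ‖b‖) ∨ ‖nrm a + nrm b‖ ≤ 8 * ‖a ⨯₃ b‖ / (‖a‖ * ‖b‖) := by
  have h1 : ‖nrm a‖ = 1 := norm_smul_inv_norm ha
  have h2 : ‖nrm b‖ = 1 := norm_smul_inv_norm hb
  have hc : ‖nrm a ⨯₃ nrm b‖ = ‖a ⨯₃ b‖ / (‖a‖ * ‖b‖) := by
    simp only [nrm, map_smul, LinearMap.smul_apply, norm_smul, norm_inv, norm_norm]
    field_simp
  obtain ⟨κ, r, e, -, hr⟩ := exists_decomp (norm_ne_zero_iff.1 (h2 ▸ one_ne_zero)) (nrm a)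
  rw [h2, mul_one] at hr
  have hκ : |1 - (|κ|)| ≤ ‖r‖ := by
    have := abs_norm_sub_norm_le (nrm a) (κ • nrm b)
    rwa [h1, norm_smul, h2, mul_one, Real.norm_eq_abs, e, add_sub_cancel_left] at this
  have key : ∀ t : ℝ, |t| = |1 - (|κ|)| → ‖t • nrm b + r‖ ≤ 8 * ‖a ⨯₃ b‖ / (‖a‖ * ‖b‖) :=
    fun t ht => by
      have := norm_add_le (t • nrm b) r
      rw [norm_smul, h2, mul_one, Real.norm_eq_abs, ht] at this
      rw [mul_div_assoc, ← hc]
      linarith [norm_nonneg (nrm a ⨯₃ nrm b)]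
  rcases le_total 0 κ with h | h
  · refine Or.inl (le_of_eq_of_le ?_ (key (κ - 1) (by rw [abs_of_nonneg h, abs_sub_comm])))
    rw [sub_smul, one_smul, sub_add_eq_add_sub, ← e]
  · refine Or.inr (le_of_eq_of_le ?_ (key (κ + 1) (by
      rw [abs_of_nonpos h, sub_neg_eq_add, add_comm])))
    rw [add_smul, one_smul, add_right_comm, ← e]

@[fun_prop] theorem measurable_nrm : Measurable nrm := measurable_norm.inv.smul measurable_id
theorem continuousOn_nrm : ContinuousOn nrm {0}ᶜ :=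
  (continuous_norm.continuousOn.inv₀ fun a ha => norm_ne_zero_iff.2 ha).smul continuousOn_id
theorem norm_nrm {a : V} (h : a ≠ 0) : ‖nrm a‖ = 1 := norm_smul_inv_norm h
@[simp] theorem nrm_zero : nrm 0 = 0 := smul_zero _
theorem nrm_neg (a : V) : nrm (-a) = -nrm a := by rw [nrm, nrm, norm_neg, smul_neg]
theorem nrm_smul {z : ℝ} (hz : 0 < z) (a : V) : nrm (z • a) = nrm a := by
  rw [nrm, nrm, norm_smul, Real.norm_of_nonneg hz.le, smul_smul, _root_.mul_inv_rev,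
    inv_mul_cancel_right₀ hz.ne']
@[simp] theorem nrm_nrm (a : V) : nrm (nrm a) = nrm a := by
  by_cases h : a = 0
  · rw [h, nrm_zero, nrm_zero]
  · exact nrm_smul (inv_pos.2 (norm_pos_iff.2 h)) a
@[fun_prop] theorem measurable_sg : Measurable sg := by
  have h : ∀ i, MeasurableSet {a : V | 0 < a i} := fun i =>
    measurableSet_lt measurable_const (measurable_pi_apply i)
  have h' : ∀ i, MeasurableSet {a : V | a i = 0} := fun i =>
    measurableSet_eq_fun (measurable_pi_apply i) measurable_const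
  exact Measurable.ite ((h 0).union (((h' 0).inter (h 1)).union
    ((h' 0).inter ((h' 1).inter (h 2))))) measurable_id measurable_neg
theorem sg_eq (a : V) : sg a = a ∨ sg a = -a := by
  unfold sg
  split_ifs
  exacts [Or.inl rfl, Or.inr rfl]
theorem sg_neg (a : V) : sg (-a) = sg a := by
  unfold sg
  split_ifs with h1 h2 h2
  · simp only [LexPos, Pi.neg_apply, neg_eq_zero, Left.neg_pos_iff] at h1 h2
    exfalso
    rcases h1 with h1 | h1 | h1 <;> rcases h2 with h2 | h2 | h2 <;> linarith [h1, h2]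
  · rfl
  · exact neg_neg a
  · simp only [LexPos, Pi.neg_apply, neg_eq_zero, Left.neg_pos_iff, not_or, not_and,
      not_lt] at h1 h2
    have e0 := le_antisymm h2.1 h1.1
    have e1 := le_antisymm (h2.2.1 e0) (h1.2.1 e0)
    have e2 := le_antisymm (h2.2.2 e0 e1) (h1.2.2 e0 e1)
    funext i
    fin_cases i <;> simp [e0, e1, e2]
@[simp] theorem sg_sg (a : V) : sg (sg a) = sg a := by
  rcases sg_eq a with h | h
  · rw [h, h]
  · rw [h, sg_neg, h]
theorem sg_smul {z : ℝ} (hz : 0 < z) (a : V) : sg (z • a) = z • sg a := by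
  have h : LexPos (z • a) ↔ LexPos a := by
    simp only [LexPos, Pi.smul_apply, smul_eq_mul, mul_pos_iff_of_pos_left hz, mul_eq_zero, hz.ne',
      false_or]
  unfold sg
  by_cases ha : LexPos a
  · rw [if_pos ha, if_pos (h.2 ha)]
  · rw [if_neg ha, if_neg (mt h.1 ha), smul_neg]
theorem Ev.sg {f : V → ℂ} (hf : Ev f) (a : V) : f (sg a) = f a := by
  rcases sg_eq a with h | h
  · rw [h]
  · rw [h, hf]
theorem Hom0.ev {f : V → ℂ} (hf : Hom0 f) : Ev f := fun a => by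
  simpa using hf (-1) (by norm_num) a
theorem Hom0.nrm {f : V → ℂ} (hf : Hom0 f) (a : V) : f (nrm a) = f a := by
  by_cases h : a = 0
  · rw [h, nrm_zero]
  · exact hf _ (inv_ne_zero (norm_ne_zero_iff.2 h)) a
theorem Hom0.ac {f : V → ℂ} (hf : Hom0 f) (g : G) : Hom0 fun a => f (ac g a) :=
  fun z hz a => by simp only [ac_smul, hf z hz]
theorem Ev.ac {f : V → ℂ} (hf : Ev f) (g : G) : Ev fun a => f (ac g a) := fun a => by
  simp only [ac_neg, hf _]
theorem Ev.hom0_nrm' {f : V → ℂ} (hf : Ev f) : Hom0 fun a => f (nrm a) := fun z hz a => by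
  rcases hz.lt_or_gt with h | h
  · simp only [← nrm_smul (neg_pos.2 h) a, neg_smul, nrm_neg, hf _]
  · simp only [nrm_smul h]
theorem hom0_sg_nrm (f : V → ℂ) : Hom0 fun a => f (sg (nrm a)) :=
  Ev.hom0_nrm' (f := fun a => f (sg a)) fun a => by simp only [sg_neg]
theorem Ev.hom0_nrm {f : V → ℂ} (hf : Ev f) : Hom0 fun a => f (nrm a) := hf.hom0_nrm'
/-- uniform continuity of projective functions -/
theorem Hom0.unif {f : V → ℂ} (hf : Hom0 f) (hc : ContinuousOn f {0}ᶜ) {ε : ℝ} (hε : 0 < ε) :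
    ∃ δ > (0 : ℝ), ∀ a b : V, a ≠ 0 → b ≠ 0 → ‖a ⨯₃ b‖ ≤ δ * (‖a‖ * ‖b‖) → ‖f a - f b‖ ≤ ε := by
  have hu := (isCompact_sphere (0 : V) 1).uniformContinuousOn_of_continuous
    (hc.mono fun a ha h => by simp [Set.mem_singleton_iff.1 h] at ha)
  obtain ⟨δ, hδ, h⟩ := Metric.uniformContinuousOn_iff_le.1 hu ε hε
  refine ⟨δ / 8, by positivity, fun a b ha hb hab => ?_⟩
  have hp : 0 < ‖a‖ * ‖b‖ := mul_pos (norm_pos_iff.2 ha) (norm_pos_iff.2 hb)
  have hle : 8 * ‖a ⨯₃ b‖ / (‖a‖ * ‖b‖) ≤ δ := by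
    rw [div_le_iff₀ hp]
    linarith
  have h1 : N111.nrm a ∈ Metric.sphere (0 : V) 1 := by simp [norm_nrm ha]
  have h2 : N111.nrm b ∈ Metric.sphere (0 : V) 1 := by simp [norm_nrm hb]
  have h3 : -N111.nrm b ∈ Metric.sphere (0 : V) 1 := by simp [norm_nrm hb]
  rw [← hf.nrm a, ← hf.nrm b, ← dist_eq_norm]
  rcases nrm_close ha hb with e | e
  · exact h _ h1 _ h2 (by rw [dist_eq_norm]; exact e.trans hle)
  · rw [← hf.ev (N111.nrm b)]
    exact h _ h1 _ h3 (by rw [dist_eq_norm, sub_neg_eq_add]; exact e.trans hle)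

end Crest.Agent.N111
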