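import Crest.Agent.N111.Lib.Geo

/-! # Row 111: linear geometry of `SL₃`: transitivity, stabiliser, flow conjugation. -/

set_option autoImplicit false
set_option linter.unusedVariables false

namespace Crest.Agent.N111

open MeasureTheory Topology Filter Matrix

namespace Geo2

theorem triple {x x' x'' : V} (h : x ⬝ᵥ (x' ⨯₃ x'') = 1) :
    ∃ g : G, ac g (ev 0) = x ∧ ac g (ev 1) = x' ∧ ac g (ev 2) = x'' :=
  ⟨⟨(Matrix.of ![x, x', x''])ᵀ, by
      rw [det_transpose]; exact (triple_product_eq_det x x' x'').symm.trans h⟩,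
    funext fun i => ac_ev _ 0 i, funext fun i => ac_ev _ 1 i, funext fun i => ac_ev _ 2 i⟩

theorem third {x x' : V} (h : x ⨯₃ x' ≠ 0) : ∃ x'' : V, x'' ⬝ᵥ (x ⨯₃ x') = 1 :=
  ⟨((x ⨯₃ x') ⬝ᵥ (x ⨯₃ x'))⁻¹ • (x ⨯₃ x'), by
    rw [smul_dotProduct, smul_eq_mul, inv_mul_cancel₀ (dotProduct_self_eq_zero.not.2 h)]⟩

theorem second {x : V} (hx : x ≠ 0) : ∃ x' : V, x ⨯₃ x' ≠ 0 := by
  by_contra! h
  have h0 := h (ev 0)
  have h1 := h (ev 1)
  simp only [cross_apply, ev, funext_iff, Fin.forall_fin_succ] at h0 h1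
  simp at h0 h1
  refine hx (funext fun i => ?_)
  fin_cases i <;> simp [h0, h1]

theorem ev01 : ev 0 ⨯₃ ev 1 = ev 2 := by
  funext i; fin_cases i <;> simp [cross_apply, ev]

theorem ev12 : ev 1 ⨯₃ ev 2 = ev 0 := by
  funext i; fin_cases i <;> simp [cross_apply, ev]

end Geo2

/-! transitivity -/
theorem exists_ac_ev {x : V} (hx : x ≠ 0) (i : Fin 3) : ∃ g : G, ac g (ev i) = x := by
  obtain ⟨x', h⟩ := Geo2.second hx
  obtain ⟨x'', h1⟩ := Geo2.third h
  have h0 := (triple_product_permutation _ _ _).symm.trans h1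
  have h2 := (triple_product_permutation _ _ _).symm.trans h0
  fin_cases i
  · exact (Geo2.triple h0).imp fun _ h => h.1
  · exact (Geo2.triple h1).imp fun _ h => h.2.1
  · exact (Geo2.triple h2).imp fun _ h => h.2.2
theorem exists_ac_pair {x x' : V} (h : x ⨯₃ x' ≠ 0) :
    ∃ g : G, ac g (ev 0) = x ∧ ac g (ev 1) = x' := by
  obtain ⟨x'', h1⟩ := Geo2.third h
  exact (Geo2.triple ((triple_product_permutation _ _ _).symm.trans h1)).imp fun _ h => ⟨h.1, h.2.1⟩
theorem exists_ac_triple {x x' x'' : V} (h : x ⬝ᵥ (x' ⨯₃ x'') = 1) :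
    ∃ g : G, ac g (ev 0) = x ∧ ac g (ev 1) = x' ∧ ac g (ev 2) = x'' := Geo2.triple h
theorem exists_ac_flag {x y : V} (hx : x ≠ 0) (hy : y ≠ 0) (h : x ⬝ᵥ y = 0) :
    ∃ g : G, ac g (ev 0) = x ∧ ac (dl g) (ev 2) = y := by
  have e : x ⨯₃ ((x ⬝ᵥ x)⁻¹ • (y ⨯₃ x)) = y := by
    rw [map_smul, cross_cross_eq_smul_sub_smul', dotProduct_comm y x, h, zero_smul, sub_zero,
      smul_smul, inv_mul_cancel₀ (dotProduct_self_eq_zero.not.2 hx), one_smul]
  obtain ⟨g, h0, h1⟩ := exists_ac_pair (e.trans_ne hy)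
  exact ⟨g, h0, by rw [← Geo2.ev01, ← ac_cross, h0, h1, e]⟩
theorem exists_ac_opp {x y : V} (h : x ⬝ᵥ y = 1) :
    ∃ g : G, ac g (ev 0) = x ∧ ac (dl g) (ev 0) = y := by
  obtain ⟨k, hk⟩ := exists_ac_ev (x := y) (by rintro rfl; simp at h) 0
  have e : ac (dl k) (ev 1) ⨯₃ ac (dl k) (ev 2) = y := by rw [ac_cross, dl_dl, Geo2.ev12, hk]
  obtain ⟨g, h0, h1, h2⟩ := exists_ac_triple (e ▸ h)
  exact ⟨g, h0, by rw [← Geo2.ev12, ← ac_cross, h1, h2, e]⟩
/-- the stabiliser of the vector `ev 0` is generated by four root groups -/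
theorem stab_induction (P : G → Prop) (h1 : P 1) (hmul : ∀ g h, P g → P h → P (g * h))
    (htv : ∀ (i k : Fin 3) (h : i ≠ k) (b : ℝ), k ≠ 0 → P (tv h b)) {g : G}
    (hg : ac g (ev 0) = ev 0) : P g := by
  have n12 : (1 : Fin 3) ≠ 2 := by decide
  have n01 : (0 : Fin 3) ≠ 1 := by decide
  have n02 : (0 : Fin 3) ≠ 2 := by decide
  have key : ∀ g : G, g 0 0 = 1 → g 1 0 = 0 → g 2 0 = 0 → g 2 1 ≠ 0 → P g := fun g a b c d => by
    have hd := det_entry g
    rw [a, b, c] at hd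
    have e : g = tv n12 ((g 1 1 - 1) / g 2 1) * tv n12.symm (g 2 1) * tv n12 ((g 2 2 - 1) / g 2 1) *
        tv n01 (g 0 1) * tv n02 (g 0 2) := by
      ext i j
      simp only [mul_tv_apply, tv_apply]
      fin_cases i <;> fin_cases j <;> simp [a, b, c] <;> field_simp <;> linarith
    rw [e]
    exact hmul _ _ (hmul _ _ (hmul _ _ (hmul _ _ (htv _ _ _ _ n02.symm) (htv _ _ _ _ n01.symm))
      (htv _ _ _ _ n02.symm)) (htv _ _ _ _ n01.symm)) (htv _ _ _ _ n02.symm)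
  have a : g 0 0 = 1 := by simpa [ac_ev, ev] using (ac_ev g 0 0).symm.trans (congrFun hg 0)
  have b : g 1 0 = 0 := by simpa [ac_ev, ev] using (ac_ev g 0 1).symm.trans (congrFun hg 1)
  have c : g 2 0 = 0 := by simpa [ac_ev, ev] using (ac_ev g 0 2).symm.trans (congrFun hg 2)
  by_cases d : g 2 1 = 0
  · have hd := det_entry g
    rw [a, b, c, d] at hd
    rw [← inv_mul_cancel_left (tv n12.symm 1) g, tv_inv]
    refine hmul _ _ (htv _ _ _ _ n01.symm) (key _ ?_ ?_ ?_ ?_) <;>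
      simp only [tv_mul_apply] <;> simp [a, b, c, d]
    rintro h0
    simp [h0] at hd
  · exact key g a b c d
/-- conjugation of the parabolic by the flow converges -/
theorem exists_tendsto_al_conj {q : G} {z : ℝ} (hq : ac q (ev 0) = z • ev 0) :
    ∃ q' : G, Tendsto (fun k : ℕ => al k * q * (al k)⁻¹) atTop (𝓝 q') := by
  have b : q 1 0 = 0 := by simpa [ac_ev, ev] using (ac_ev q 0 1).symm.trans (congrFun hq 1)
  have c : q 2 0 = 0 := by simpa [ac_ev, ev] using (ac_ev q 0 2).symm.trans (congrFun hq 2)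
  have hd := det_entry q
  rw [b, c] at hd
  refine ⟨⟨!![q 0 0, 0, 0; 0, q 1 1, q 1 2; 0, q 2 1, q 2 2], by
    rw [det_fin_three]; simp; linarith⟩, tendsto_G fun i j => ?_⟩
  have e : ∀ k : ℕ, (al k * q * (al k)⁻¹) i j =
      Real.exp (dgl (-2 * k) k i + dgl (-2 * -k) (-k) j) * q i j := fun k => by
    rw [← al_neg, al, al, mul_dg_apply, dg_mul_apply, Real.exp_add]; ring
  have h0 : ∀ a : ℝ, Tendsto (fun k : ℕ => Real.exp (-(3 * (k : ℝ))) * a) atTop (𝓝 0) := fun a => by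
    simpa using (Real.tendsto_exp_neg_atTop_nhds_zero.comp
      (tendsto_natCast_atTop_atTop.const_mul_atTop (by norm_num : (0 : ℝ) < 3))).mul_const a
  simp only [e]
  fin_cases i <;> fin_cases j <;> simp [dgl, b, c] <;>
    first
    | (ring_nf; simp)
    | (convert h0 _ using 4; ring)

end Crest.Agent.N111
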