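import Crest.Agent.N111.Lib.POVM
import Crest.Agent.N111.Lib.MClass

/-! # Row 111: monotone class lemmas. -/

set_option autoImplicit false
set_option linter.unusedSectionVars false
set_option linter.unusedVariables false

namespace Crest.Agent.N111

open MeasureTheory Topology Filter
open scoped InnerProductSpace

variable {Y Z K : Type} [MeasurableSpace Y] [MeasurableSpace Z] [NormedAddCommGroup K]
  [InnerProductSpace ℂ K] [CompleteSpace K]

/-- linear maps on bounded Borel functions that are strongly continuous along bounded pointwise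
convergent sequences -/
structure IsPoly1 (W : (Y → ℂ) → K →L[ℂ] K) : Prop where
  add : ∀ f g, BM f → BM g → W (fun y => f y + g y) = W f + W g
  smul : ∀ (c : ℂ) f, BM f → W (fun y => c * f y) = c • W f
  lim : ∀ (f : ℕ → Y → ℂ) (g : Y → ℂ) (C : ℝ), (∀ n, Measurable (f n)) → (∀ n y, ‖f n y‖ ≤ C) →
    (∀ y, Tendsto (fun n => f n y) atTop (𝓝 (g y))) →
    ∀ η, Tendsto (fun n => W (f n) η) atTop (𝓝 (W g η))

theorem POVM.isPoly1 (P : POVM Y K) : IsPoly1 P.E :=
  ⟨fun _ _ => P.E_add, fun c _ => P.E_smul c, fun _ _ _ => P.tendsto_E⟩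

theorem IsPoly1.mul {W : (Y → ℂ) → K →L[ℂ] K} (h : IsPoly1 W) (S T : K →L[ℂ] K) :
    IsPoly1 fun f => S * W f * T where
  add f g hf hg := by rw [h.add f g hf hg, mul_add, add_mul]
  smul c f hf := by rw [h.smul c f hf, mul_smul_comm, smul_mul_assoc]
  lim f g C hf hC hl η := (S.continuous.tendsto _).comp (h.lim f g C hf hC hl (T η))

theorem IsPoly1.sub {W W' : (Y → ℂ) → K →L[ℂ] K} (h : IsPoly1 W) (h' : IsPoly1 W') :
    IsPoly1 fun f => W f - W' f where
  add f g hf hg := by rw [h.add f g hf hg, h'.add f g hf hg]; abel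
  smul c f hf := by rw [h.smul c f hf, h'.smul c f hf, smul_sub]
  lim f g C hf hC hl η := (h.lim f g C hf hC hl η).sub (h'.lim f g C hf hC hl η)

/-- `f ↦ W (u · f ∘ φ)` -/
theorem IsPoly1.comp {W : (Y → ℂ) → K →L[ℂ] K} (h : IsPoly1 W) {φ : Y → Z} (hφ : Measurable φ)
    {u : Y → ℂ} (hu : BM u) : IsPoly1 fun f : Z → ℂ => W fun y => u y * f (φ y) where
  add f g hf hg := by
    simp only [mul_add]
    exact h.add _ _ (hu.mul (hf.comp hφ)) (hu.mul (hg.comp hφ))
  smul c f hf := by
    simp only [mul_left_comm (u _) c]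
    exact h.smul c _ (hu.mul (hf.comp hφ))
  lim f g C hf hC hl := by
    obtain ⟨D, hD0, hD⟩ := hu.exists_nonneg
    exact h.lim _ _ (D * C) (fun n => hu.1.mul ((hf n).comp hφ))
      (fun n y => (norm_mul_le _ _).trans (mul_le_mul (hD y) (hC n _) (norm_nonneg _) hD0))
      fun y => (hl _).const_mul _

theorem IsPoly1.mclass {W W' : (Y → ℂ) → K →L[ℂ] K} (h : IsPoly1 W) (h' : IsPoly1 W') :
    MClass fun f => W f = W' f where
  add f g hf hg e1 e2 := by rw [h.add f g hf hg, h'.add f g hf hg, e1, e2]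
  smul c f hf e := by rw [h.smul c f hf, h'.smul c f hf, e]
  lim f g C hf hC hl e := ContinuousLinearMap.ext fun η =>
    tendsto_nhds_unique (h.lim f g C hf hC hl η) (by
      simpa only [e] using h'.lim f g C hf hC hl η)

namespace MClass

theorem comp {p : (Y → ℂ) → Prop} (hp : MClass p) {φ : Y → Z} (hφ : Measurable φ) :
    MClass fun F : Z → ℂ => p fun y => F (φ y) where
  add _ _ hf hg := hp.add _ _ (hf.comp hφ) (hg.comp hφ)
  smul c _ hf := hp.smul c _ (hf.comp hφ)
  lim _ _ C hf hC hl := hp.lim _ _ C (fun n => (hf n).comp hφ) (fun n _ => hC n _) fun _ => hl _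

variable {X : Type} [MetricSpace X] [CompactSpace X] [MeasurableSpace X] [BorelSpace X]
  {p : (X → ℂ) → Prop}

/-- from a dense set of continuous functions on a compact space -/
theorem of_dense (hp : MClass p) {S : Set C(X, ℂ)} (hS : Dense S) (h : ∀ f ∈ S, p f) {f : X → ℂ}
    (hf : BM f) : p f := by
  refine hp.of_cm (fun g => ?_) hf
  obtain ⟨u, hu, hl⟩ := mem_closure_iff_seq_limit.1 (hS g)
  obtain ⟨C, hC⟩ := hl.norm.bddAbove_range
  exact hp.lim (fun n => u n) g C (fun n => (u n).continuous.measurable)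
    (fun n y => ((u n).norm_coe_le_norm y).trans (hC ⟨n, rfl⟩))
    (fun y => ((continuous_eval_const y).tendsto g).comp hl) fun n => h _ (hu n)

theorem of_dense_span (hp : MClass p) {S : Set C(X, ℂ)}
    (hS : (Submodule.span ℂ S).topologicalClosure = ⊤) (h1 : p fun _ => 1) (h : ∀ f ∈ S, p f)
    {f : X → ℂ} (hf : BM f) : p f := by
  refine hp.of_dense (Submodule.dense_iff_topologicalClosure_eq_top.2 hS) (fun g hg => ?_) hf
  induction hg using Submodule.span_induction with
  | mem g hg => exact h g hg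
  | zero => simpa [Pi.zero_def] using hp.smul 0 _ BM.one h1
  | add f g _ _ hf hg => exact hp.add _ _ (BM.of_cm f) (BM.of_cm g) hf hg
  | smul c f _ hf => exact hp.smul c _ (BM.of_cm f) hf

/-- from stability under multiplication by a separating family of real functions -/
theorem of_gen (hp : MClass p) {S : Set C(X, ℂ)} (hs : ∀ g ∈ S, star g = g)
    (sep : ∀ x y : X, x ≠ y → ∃ g ∈ S, g x ≠ g y) (h1 : p fun _ => 1)
    (h : ∀ g ∈ S, ∀ F : C(X, ℂ), p F → p ⇑(g * F)) {f : X → ℂ} (hf : BM f) : p f := by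
  let A : StarSubalgebra ℂ C(X, ℂ) :=
    { carrier := {g | ∀ F : C(X, ℂ), p F → p ⇑(g * F) ∧ p ⇑(star g * F)}
      mul_mem' := fun {a b} ha hb F hF => by
        rw [star_mul, mul_assoc, mul_assoc]
        exact ⟨(ha _ (hb F hF).1).1, (hb _ (ha F hF).2).2⟩
      add_mem' := fun {a b} ha hb F hF => by
        rw [star_add, add_mul, add_mul]
        exact ⟨hp.add _ _ (BM.of_cm _) (BM.of_cm _) (ha F hF).1 (hb F hF).1,
          hp.add _ _ (BM.of_cm _) (BM.of_cm _) (ha F hF).2 (hb F hF).2⟩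
      algebraMap_mem' := fun c F hF =>
        ⟨hp.smul c _ (BM.of_cm F) hF, hp.smul (star c) _ (BM.of_cm F) hF⟩
      star_mem' := fun {a} ha F hF => by rw [star_star]; exact (ha F hF).symm }
  have h2 := ContinuousMap.starSubalgebra_topologicalClosure_eq_top_of_separatesPoints A
    fun x y hxy => by
      obtain ⟨g, hg, e⟩ := sep x y hxy
      exact ⟨g, ⟨g, fun F hF => by rw [hs g hg]; exact ⟨h g hg F hF, h g hg F hF⟩, rfl⟩, e⟩
  refine hp.of_dense (S := A) (fun g => ?_) (fun g hg => ?_) hf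
  · rw [← StarSubalgebra.topologicalClosure_coe, h2]; trivial
  · simpa only [mul_one] using (hg 1 h1).1

end MClass


/-- agreement on bounded continuous functions -/
theorem IsPoly1.ext_cont [PseudoMetricSpace Y] [BorelSpace Y] {W W' : (Y → ℂ) → K →L[ℂ] K}
    (h : IsPoly1 W) (h' : IsPoly1 W') (e : ∀ f, Continuous f → BM f → W f = W' f) :
    ∀ f, BM f → W f = W' f := fun _ => (h.mclass h').of_cont e

/-- agreement on indicators of a generating π-system -/
theorem IsPoly1.ext_pi {W W' : (Y → ℂ) → K →L[ℂ] K} (h : IsPoly1 W) (h' : IsPoly1 W')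
    {𝒞 : Set (Set Y)} (hgen : ‹MeasurableSpace Y› = MeasurableSpace.generateFrom 𝒞)
    (hpi : IsPiSystem 𝒞) (e1 : W (fun _ => 1) = W' fun _ => 1) (e : ∀ O ∈ 𝒞, W (ic O) = W' (ic O)) :
    ∀ f, BM f → W f = W' f := fun _ => (h.mclass h').of_pi hgen hpi e1 e

/-- agreement on products -/
theorem IsPoly1.ext_prod {W W' : (Y × Z → ℂ) → K →L[ℂ] K} (h : IsPoly1 W) (h' : IsPoly1 W')
    (e : ∀ f g, BM f → BM g → W (fun z => f z.1 * g z.2) = W' fun z => f z.1 * g z.2) :
    ∀ f, BM f → W f = W' f := fun _ => (h.mclass h').of_prod e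

theorem IsPoly1.ext_fin {n : ℕ} {W W' : ((Fin n → Y) → ℂ) → K →L[ℂ] K} (h : IsPoly1 W)
    (h' : IsPoly1 W') (e : ∀ f : Fin n → Y → ℂ, (∀ i, BM (f i)) →
      W (fun z => ∏ i, f i (z i)) = W' fun z => ∏ i, f i (z i)) :
    ∀ f, BM f → W f = W' f := fun _ => (h.mclass h').of_prod_pi e

theorem MClass.of_ex {p : (ℝ → ℂ) → Prop} (hp : MClass p) (e : ∀ t : ℝ, p fun l => ex (t * l))
    {f : ℝ → ℂ} (hf : BM f) : p f := by
  obtain ⟨C, hC⟩ := hf.2
  have key : ∀ n : ℕ, ∃ φ : ℝ → ℝ, Measurable φ ∧ (∀ l : ℝ, |l| < n + 1 → φ l = l) ∧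
      p fun l => f (φ l) := fun n => by
    have : Fact (0 < 2 * ((n : ℝ) + 1)) := ⟨by positivity⟩
    have hm : Measurable fun z : AddCircle (2 * ((n : ℝ) + 1)) =>
        (AddCircle.equivIoc _ (-((n : ℝ) + 1)) z : ℝ) :=
      measurable_subtype_coe.comp (AddCircle.measurableEquivIoc _ _).measurable
    refine ⟨fun l => AddCircle.equivIoc (2 * ((n : ℝ) + 1)) (-((n : ℝ) + 1)) l,
      hm.comp AddCircle.measurable_mk', fun l hl => ?_, ?_⟩
    · rw [abs_lt] at hl
      beta_reduce
      rw [AddCircle.equivIoc_coe_eq ⟨hl.1, by linarith [hl.2]⟩]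
    · refine (hp.comp AddCircle.measurable_mk').of_dense_span span_fourier_closure_eq_top
        (by simpa using e 0) ?_ (hf.comp hm)
      rintro _ ⟨k, rfl⟩
      convert e (2 * Real.pi * k / (2 * ((n : ℝ) + 1))) using 2 with l
      rw [fourier_coe_apply, ex]
      congr 1
      push_cast; ring
  choose φ h1 h2 h3 using key
  refine hp.lim (fun n l => f (φ n l)) f C (fun n => hf.1.comp (h1 n)) (fun n l => hC _) (fun l => ?_) h3
  obtain ⟨n, hn⟩ := exists_nat_gt |l|
  refine tendsto_const_nhds.congr' ((eventually_ge_atTop n).mono fun m hm => ?_)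
  have : (n : ℝ) ≤ m := by exact_mod_cast hm
  simp only [h2 m l (by linarith)]

/-- agreement on characters near the origin is NOT enough; on all characters it is -/
theorem IsPoly1.ext_ex {W W' : (ℝ → ℂ) → K →L[ℂ] K} (h : IsPoly1 W) (h' : IsPoly1 W')
    (e : ∀ t : ℝ, W (fun l => ex (t * l)) = W' fun l => ex (t * l)) :
    ∀ f, BM f → W f = W' f := fun _ => (h.mclass h').of_ex e

namespace Pj

/-- the orthogonal projection onto the line of `a` -/
noncomputable def pm (a : V) : Fin 3 → Fin 3 → ℝ := fun i k => a i * a k / (a ⬝ᵥ a)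

open Classical in
/-- a nonzero row -/
noncomputable def rw (M : Fin 3 → Fin 3 → ℝ) : V :=
  if M 0 0 ≠ 0 then M 0 else if M 1 1 ≠ 0 then M 1 else M 2

lemma measurable_pm : Measurable pm := by unfold pm dotProduct; fun_prop

lemma measurable_rw : Measurable rw :=
  Measurable.ite (measurableSet_eq_fun (by fun_prop) measurable_const).compl
    (measurable_pi_apply 0) (Measurable.ite
      (measurableSet_eq_fun (by fun_prop) measurable_const).compl (measurable_pi_apply 1)
      (measurable_pi_apply 2))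

lemma dot_ne {a : V} (h : a ≠ 0) : a ⬝ᵥ a ≠ 0 := mt dotProduct_self_eq_zero.1 h

lemma continuousOn_pm : ContinuousOn pm {0}ᶜ :=
  continuousOn_pi.2 fun i => continuousOn_pi.2 fun k =>
    ContinuousOn.div (by fun_prop) (by fun_prop) fun _ h => dot_ne h

lemma pm_smul {z : ℝ} (hz : z ≠ 0) (a : V) : pm (z • a) = pm a := by
  funext i k
  simp only [pm, Pi.smul_apply, smul_eq_mul, smul_dotProduct, dotProduct_smul]
  rw [show z * a i * (z * a k) = z * z * (a i * a k) by ring, ← mul_assoc z z,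
    mul_div_mul_left _ _ (mul_ne_zero hz hz)]

lemma pm_row (a : V) (i : Fin 3) : pm a i = (a i / (a ⬝ᵥ a)) • a := by
  funext k; simp only [pm, Pi.smul_apply, smul_eq_mul]; ring

lemma norm_pm_le (a : V) : ‖pm a‖ ≤ 1 := by
  refine (pi_norm_le_iff_of_nonneg zero_le_one).2 fun i =>
    (pi_norm_le_iff_of_nonneg zero_le_one).2 fun k => ?_
  have h : ∀ j, a j * a j ≤ a ⬝ᵥ a := fun j =>
    Finset.single_le_sum (fun j _ => mul_self_nonneg (a j)) (Finset.mem_univ j)
  have h0 : 0 ≤ a ⬝ᵥ a := (mul_self_nonneg _).trans (h i)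
  rw [pm, Real.norm_eq_abs, abs_div, abs_of_nonneg h0]
  refine div_le_one_of_le₀ (abs_le.2 ⟨?_, ?_⟩) h0 <;>
    nlinarith [h i, h k, sq_nonneg (a i + a k), sq_nonneg (a i - a k)]

lemma hom0_rw {f : V → ℂ} (hf : Hom0 f) (a : V) : f (rw (pm a)) = f a := by
  by_cases ha : a = 0
  · simp [ha, rw, pm_row]
  have h := dot_ne ha
  have k : ∀ i, pm a i i ≠ 0 ↔ a i ≠ 0 := fun i => by simp [pm, h]
  have k' : ∀ i, a i ≠ 0 → f (pm a i) = f a := fun i hi => by
    rw [pm_row]; exact hf _ (div_ne_zero hi h) a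
  unfold rw
  split_ifs with h0 h1
  · exact k' 0 ((k 0).1 h0)
  · exact k' 1 ((k 1).1 h1)
  · refine k' 2 fun h2 => ha ?_
    rw [k, not_not] at h0 h1
    funext i; fin_cases i <;> simpa

end Pj

/-- `Hom0` version on `V`: both sides only see `f ∘ nrm` off the origin -/
theorem IsPoly1.ext_hom0 {W W' : (V → ℂ) → K →L[ℂ] K} (h : IsPoly1 W) (h' : IsPoly1 W')
    (e : ∀ f, BM f → Hom0 f → ContinuousOn f {0}ᶜ → W f = W' f) :
    ∀ f, BM f → Hom0 f → W f = W' f := fun f hf h0 => by
  have := ((h.mclass h').comp Pj.measurable_pm).of_cont (fun F hc hb => e _ (hb.comp Pj.measurable_pm)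
    (fun z hz a => by rw [Pj.pm_smul hz]) (hc.comp_continuousOn Pj.continuousOn_pm))
    (hf.comp Pj.measurable_rw)
  simpa only [Pj.hom0_rw h0] using this

/-- the polynomials in `a_i a_j / |a|²` suffice: a set of functions containing `1`, stable under
multiplication by the `a_i a_j / (a ⬝ᵥ a)` -/
theorem IsPoly1.ext_proj {W W' : (V → ℂ) → K →L[ℂ] K} (h : IsPoly1 W) (h' : IsPoly1 W')
    (e0 : W (ic {0}) = W' (ic {0})) (e1 : W (fun _ => 1) = W' fun _ => 1)
    (e : ∀ f, BM f → Hom0 f → W f = W' f → ∀ i k : Fin 3,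
      W (fun a => f a * ((a i * a k / (a ⬝ᵥ a) : ℝ) : ℂ))
        = W' fun a => f a * ((a i * a k / (a ⬝ᵥ a) : ℝ) : ℂ)) :
    ∀ f, BM f → Hom0 f → W f = W' f := fun f hf h0 => by
  let φ : V → Metric.closedBall (0 : Fin 3 → Fin 3 → ℝ) 1 := fun a =>
    ⟨Pj.pm a, mem_closedBall_zero_iff.2 (Pj.norm_pm_le a)⟩
  have hφ : Measurable φ := Pj.measurable_pm.subtype_mk
  let c : Fin 3 × Fin 3 → C(Metric.closedBall (0 : Fin 3 → Fin 3 → ℝ) 1, ℂ) := fun q =>
    ⟨fun M => (M.1 q.1 q.2 : ℝ), Complex.continuous_ofReal.comp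
      ((continuous_apply_apply q.1 q.2).comp continuous_subtype_val)⟩
  have := ((h.mclass h').comp hφ).of_gen (S := Set.range c)
    (by rintro _ ⟨q, rfl⟩; ext M; exact Complex.conj_ofReal _)
    (fun x y hxy => by
      by_contra! H
      exact hxy (Subtype.ext (funext fun i => funext fun k =>
        Complex.ofReal_injective (H _ ⟨(i, k), rfl⟩)))) e1
    (by
      rintro _ ⟨q, rfl⟩ F hF
      simp only [mul_comm (c q)]
      exact e _ ((BM.of_cm F).comp hφ) (fun z hz a => by simp only [φ, Pj.pm_smul hz]) hF q.1 q.2)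
    (hf.comp (Pj.measurable_rw.comp measurable_subtype_coe))
  simpa only [φ, Function.comp, Pj.hom0_rw h0] using this

end Crest.Agent.N111
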