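import Crest.Agent.N111.Lib.MClass

/-! # Row 111: the Borel calculus of a POVM, basic rules. -/

set_option autoImplicit false
set_option linter.unusedSectionVars false
set_option linter.unusedVariables false

namespace Crest.Agent.N111

open MeasureTheory Topology Filter
open scoped InnerProductSpace

variable {Y Z K : Type} [MeasurableSpace Y] [MeasurableSpace Z] [NormedAddCommGroup K]
  [InnerProductSpace ℂ K] [CompleteSpace K]

/-- Cauchy–Schwarz for a positive operator -/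
theorem norm_inner_sq_le_of_nonneg {H : Type*} [NormedAddCommGroup H] [InnerProductSpace ℂ H]
    [CompleteSpace H] {T : H →L[ℂ] H} (hT : 0 ≤ T) (ζ η : H) :
    ‖⟪ζ, T η⟫_ℂ‖ ^ 2 ≤ (⟪ζ, T ζ⟫_ℂ).re * (⟪η, T η⟫_ℂ).re := by
  have hp := (ContinuousLinearMap.nonneg_iff_isPositive T).1 hT
  let c : PreInnerProductSpace.Core ℂ H :=
    { inner := fun x y => ⟪x, T y⟫_ℂ
      conj_inner_symm := fun x y => by rw [inner_conj_symm, hp.inner_left_eq_inner_right]
      re_inner_nonneg := hp.re_inner_nonneg_right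
      add_left := fun x y z => inner_add_left _ _ _
      smul_left := fun x y r => inner_smul_left _ _ _ }
  have := @InnerProductSpace.Core.inner_mul_inner_self_le ℂ H _ _ _ c ζ η
  change ‖⟪ζ, T η⟫_ℂ‖ * ‖⟪η, T ζ⟫_ℂ‖ ≤ (⟪ζ, T ζ⟫_ℂ).re * (⟪η, T η⟫_ℂ).re at this
  rwa [← hp.inner_left_eq_inner_right η ζ, norm_inner_symm (T η) ζ, ← sq] at this

theorem BM.integrable_normSq {f : Y → ℂ} (hf : BM f) (ν : Measure Y) [IsFiniteMeasure ν] :
    Integrable (fun y => ‖f y‖ ^ 2) ν := by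
  have := (hf.normSq.integrable ν).re
  simpa only [RCLike.re_to_complex, Complex.ofReal_re] using this

namespace POVM

variable (P : POVM Y K) {f g : Y → ℂ}

instance (η : K) : IsFiniteMeasure (P.ν η) := P.fin η

theorem E_add (hf : BM f) (hg : BM g) : P.E (fun y => f y + g y) = P.E f + P.E g :=
  op_ext fun ξ => by
    rw [ContinuousLinearMap.add_apply, inner_add_right, P.inner_E _ hf, P.inner_E _ hg,
      P.inner_E _ (hf.add hg), integral_add (hf.integrable _) (hg.integrable _)]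
theorem E_sub (hf : BM f) (hg : BM g) : P.E (fun y => f y - g y) = P.E f - P.E g :=
  op_ext fun ξ => by
    rw [ContinuousLinearMap.sub_apply, inner_sub_right, P.inner_E _ hf, P.inner_E _ hg,
      P.inner_E _ (hf.sub hg), integral_sub (hf.integrable _) (hg.integrable _)]
theorem E_smul (c : ℂ) (hf : BM f) : P.E (fun y => c * f y) = c • P.E f :=
  op_ext fun ξ => by
    rw [ContinuousLinearMap.smul_apply, inner_smul_right, P.inner_E _ hf,
      P.inner_E _ (hf.const_mul c), integral_const_mul]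
theorem E_const (c : ℂ) : P.E (fun _ => c) = c • (1 : K →L[ℂ] K) := by
  simpa [P.E_one] using P.E_smul c BM.one
theorem E_zero : P.E (fun _ => 0) = 0 := by simpa using P.E_const 0
theorem E_sum {κ : Type*} (s : Finset κ) {f : κ → Y → ℂ} (hf : ∀ k ∈ s, BM (f k)) :
    P.E (fun y => ∑ k ∈ s, f k y) = ∑ k ∈ s, P.E (f k) := by
  classical
  induction s using Finset.induction_on with
  | empty => simpa using P.E_zero
  | insert i s hi ih =>
    simp only [Finset.sum_insert hi]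
    rw [P.E_add (hf i (by simp)) (BM.sum s fun j hj => hf j (by simp [hj])),
      ih fun j hj => hf j (by simp [hj])]
theorem E_star (hf : BM f) : star (P.E f) = P.E fun y => (starRingEnd ℂ) (f y) :=
  op_ext fun ξ => by
    rw [ContinuousLinearMap.star_eq_adjoint, ContinuousLinearMap.adjoint_inner_right,
      ← inner_conj_symm (P.E f ξ), P.inner_E _ hf, P.inner_E _ hf.conj, ← integral_conj]
theorem inner_ofReal {u : Y → ℝ} (hu : BM fun y => (u y : ℂ)) (η : K) :
    ⟪η, P.E (fun y => (u y : ℂ)) η⟫_ℂ = (∫ y, u y ∂P.ν η : ℝ) := by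
  rw [P.inner_E _ hu, integral_complex_ofReal]
theorem isSelfAdjoint {u : Y → ℝ} (hu : BM fun y => (u y : ℂ)) :
    IsSelfAdjoint (P.E fun y => (u y : ℂ)) := by
  rw [IsSelfAdjoint, P.E_star hu]
  simp
theorem E_nonneg {u : Y → ℝ} (hu : BM fun y => (u y : ℂ)) (h : ∀ y, 0 ≤ u y) :
    0 ≤ P.E fun y => (u y : ℂ) := by
  rw [ContinuousLinearMap.nonneg_iff_isPositive, ContinuousLinearMap.isPositive_def']
  refine ⟨P.isSelfAdjoint hu, fun ξ => ?_⟩
  rw [ContinuousLinearMap.reApplyInnerSelf_apply, inner_re_symm, P.inner_ofReal hu]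
  exact integral_nonneg h
theorem E_mono {u w : Y → ℝ} (hu : BM fun y => (u y : ℂ)) (hw : BM fun y => (w y : ℂ))
    (h : ∀ y, u y ≤ w y) : P.E (fun y => (u y : ℂ)) ≤ P.E fun y => (w y : ℂ) := by
  rw [← sub_nonneg, ← P.E_sub hw hu]
  simpa using P.E_nonneg (u := fun y => w y - u y) (by simpa using hw.sub hu)
    fun y => sub_nonneg.2 (h y)
theorem ν_univ (η : K) : (P.ν η).real Set.univ = ‖η‖ ^ 2 := by
  have := P.inner_E _ BM.one η
  rw [P.E_one, ContinuousLinearMap.one_apply, inner_self_eq_norm_sq_to_K, integral_const] at this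
  simp only [Complex.real_smul, mul_one] at this
  exact Complex.ofReal_injective (by rw [← this]; simp)
theorem inner_ic {O : Set Y} (hO : MeasurableSet O) (η : K) :
    ⟪η, P.E (ic O) η⟫_ℂ = ((P.ν η).real O : ℂ) := by
  rw [P.inner_E _ (BM.ic hO), ic, integral_indicator hO]
  simp [measureReal_def]
theorem E_ic_nonneg {O : Set Y} (hO : MeasurableSet O) : 0 ≤ P.E (ic O) := by
  have := BM.ic hO
  rw [ic_eq_ofReal] at this ⊢
  exact P.E_nonneg this fun y => Set.indicator_nonneg (fun _ _ => zero_le_one) y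
theorem E_ic_star {O : Set Y} (hO : MeasurableSet O) : star (P.E (ic O)) = P.E (ic O) := by
  rw [P.E_star (BM.ic hO)]; simp
theorem E_ic_compl {O : Set Y} (hO : MeasurableSet O) : P.E (ic Oᶜ) = 1 - P.E (ic O) := by
  rw [ic_compl, P.E_sub BM.one (BM.ic hO), P.E_one]

/-- dominated convergence, weak form -/
theorem wtends {α : Type*} {l : Filter α} [l.IsCountablyGenerated] {u : α → Y → ℂ}
    (hu : ∀ t, Measurable (u t)) (hg : BM g) {C : ℝ} (hC : ∀ t y, ‖u t y‖ ≤ C)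
    (h : ∀ η, ∀ᵐ y ∂P.ν η, Tendsto (fun t => u t y) l (𝓝 (g y))) :
    WTends l (fun t => P.E (u t)) (P.E g) :=
  wtends_of_inner fun ξ => by
    simp only [fun t => P.inner_E _ ⟨hu t, C, hC t⟩ ξ, P.inner_E _ hg ξ]
    exact tendsto_integral_filter_of_dominated_convergence (fun _ => C)
      (Eventually.of_forall fun t => (hu t).aestronglyMeasurable)
      (Eventually.of_forall fun t => Eventually.of_forall (hC t)) (integrable_const _) (h ξ)

theorem E_simple {α : Type} (φ : SimpleFunc Y α) (F : α → ℂ) :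
    BM (fun y => F (φ y)) ∧
      P.E (fun y => F (φ y)) = ∑ c ∈ φ.range, F c • P.E (ic (φ ⁻¹' {c})) := by
  classical
  have e : (fun y => F (φ y)) = fun y => ∑ c ∈ φ.range, F c * ic (φ ⁻¹' {c}) y := by
    funext y
    rw [Finset.sum_eq_single (φ y) (fun c _ hc => by
      rw [ic_of_notMem (by simpa using hc.symm), mul_zero]) fun h => (h (φ.mem_range_self y)).elim]
    simp
  have b := fun c (_ : c ∈ φ.range) => (BM.ic (φ.measurableSet_fiber c)).const_mul (F c)
  rw [e]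
  refine ⟨BM.sum _ b, ?_⟩
  rw [P.E_sum _ b]
  exact Finset.sum_congr rfl fun c _ => P.E_smul _ (BM.ic (φ.measurableSet_fiber c))

/-- Cauchy-Schwarz -/
theorem norm_inner_sq_le (hf : BM f) (hg : BM g) (ζ η : K) :
    ‖⟪ζ, P.E (fun y => f y * g y) η⟫_ℂ‖ ^ 2
      ≤ (∫ y, ‖f y‖ ^ 2 ∂(P.ν ζ)) * ∫ y, ‖g y‖ ^ 2 ∂(P.ν η) := by
  have simple : ∀ φ : SimpleFunc Y (ℂ × ℂ), ‖⟪ζ, P.E (fun y => (φ y).1 * (φ y).2) η⟫_ℂ‖ ^ 2
      ≤ (∫ y, ‖(φ y).1‖ ^ 2 ∂(P.ν ζ)) * ∫ y, ‖(φ y).2‖ ^ 2 ∂(P.ν η) := fun φ => by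
    have hi : ∀ (F : ℂ × ℂ → ℂ) (ξ : K), ∫ y, ‖F (φ y)‖ ^ 2 ∂(P.ν ξ)
        = ∑ c ∈ φ.range, ‖F c‖ ^ 2 * (P.ν ξ).real (φ ⁻¹' {c}) := fun F ξ => by
      obtain ⟨b, e⟩ := P.E_simple φ fun c => ((‖F c‖ ^ 2 : ℝ) : ℂ)
      have := P.inner_ofReal b ξ
      rw [e, ContinuousLinearMap.sum_apply, inner_sum] at this
      simp only [ContinuousLinearMap.smul_apply, inner_smul_right,
        P.inner_ic (φ.measurableSet_fiber _)] at this
      exact_mod_cast this.symm
    rw [hi Prod.fst, hi Prod.snd, (P.E_simple φ fun c => c.1 * c.2).2,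
      ContinuousLinearMap.sum_apply, inner_sum]
    refine le_trans (pow_le_pow_left₀ (norm_nonneg _) (norm_sum_le _ _) 2) ?_
    refine Finset.sum_sq_le_sum_mul_sum_of_sq_le_mul _ (fun c _ => by positivity)
      (fun c _ => by positivity) fun c _ => ?_
    have := norm_inner_sq_le_of_nonneg (P.E_ic_nonneg (φ.measurableSet_fiber c)) ζ η
    rw [P.inner_ic (φ.measurableSet_fiber c), P.inner_ic (φ.measurableSet_fiber c),
      Complex.ofReal_re, Complex.ofReal_re] at this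
    rw [ContinuousLinearMap.smul_apply, inner_smul_right, norm_mul, norm_mul, mul_pow, mul_pow]
    calc _ ≤ ‖c.1‖ ^ 2 * ‖c.2‖ ^ 2 * _ := mul_le_mul_of_nonneg_left this (by positivity)
      _ = _ := by ring
  obtain ⟨C, hC0, hC⟩ := hf.exists_nonneg
  obtain ⟨D, hD0, hD⟩ := hg.exists_nonneg
  have hm : Measurable fun y => (f y, g y) := hf.1.prodMk hg.1
  let φ := fun n => SimpleFunc.approxOn _ hm Set.univ 0 (Set.mem_univ _) n
  have hb : ∀ n y, ‖φ n y‖ ≤ 2 * (C + D) := fun n y => by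
    have h1 : ‖(f y, g y)‖ ≤ C + D := max_le (by linarith [hC y]) (by linarith [hD y])
    linarith [SimpleFunc.norm_approxOn_zero_le hm (Set.mem_univ _) y n]
  have ht : ∀ y, Tendsto (fun n => φ n y) atTop (𝓝 (f y, g y)) := fun y =>
    SimpleFunc.tendsto_approxOn hm (Set.mem_univ _) (by simp)
  have dct : ∀ (F : ℂ × ℂ → ℂ) (ξ : K), Continuous F → (∀ c, ‖F c‖ ≤ ‖c‖) →
      Tendsto (fun n => ∫ y, ‖F (φ n y)‖ ^ 2 ∂(P.ν ξ)) atTop
        (𝓝 (∫ y, ‖F (f y, g y)‖ ^ 2 ∂(P.ν ξ))) := fun F ξ hF hF' =>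
    tendsto_integral_of_dominated_convergence (fun _ => (2 * (C + D)) ^ 2)
      (fun n => ((hF.measurable.comp (φ n).measurable).norm.pow_const 2).aestronglyMeasurable)
      (integrable_const _) (fun n => Eventually.of_forall fun y => by
        rw [Real.norm_of_nonneg (sq_nonneg _)]
        exact pow_le_pow_left₀ (norm_nonneg _) ((hF' _).trans (hb n y)) 2)
      (Eventually.of_forall fun y => ((hF.tendsto _).comp (ht y)).norm.pow 2)
  have w := P.wtends (l := atTop) (u := fun n y => (φ n y).1 * (φ n y).2)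
    (fun n => (φ n).measurable.fst.mul (φ n).measurable.snd) (hf.mul hg)
    (C := 2 * (C + D) * (2 * (C + D))) (fun n y => by
      rw [norm_mul]
      exact mul_le_mul ((norm_fst_le _).trans (hb n y)) ((norm_snd_le _).trans (hb n y))
        (norm_nonneg _) (by positivity))
    fun _ => Eventually.of_forall fun y => (ht y).fst_nhds.mul (ht y).snd_nhds
  exact le_of_tendsto_of_tendsto' ((w ζ η).norm.pow 2)
    ((dct Prod.fst ζ continuous_fst norm_fst_le).mul (dct Prod.snd η continuous_snd norm_snd_le))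
    fun n => simple (φ n)

/-- Kadison-Schwarz -/
theorem norm_E_sq_le (hf : BM f) (η : K) : ‖P.E f η‖ ^ 2 ≤ ∫ y, ‖f y‖ ^ 2 ∂(P.ν η) := by
  have := P.norm_inner_sq_le BM.one hf (P.E f η) η
  simp only [one_mul, norm_one, one_pow, integral_const, P.ν_univ, smul_eq_mul, mul_one,
    inner_self_eq_norm_sq_to_K, norm_pow, RCLike.norm_ofReal, abs_norm] at this
  rcases (sq_nonneg ‖P.E f η‖).eq_or_lt with h | h
  · rw [← h]; exact integral_nonneg fun _ => sq_nonneg _
  · exact le_of_mul_le_mul_left (by rwa [← sq]) h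
theorem norm_E_apply_le (hf : BM f) {C : ℝ} (hC : 0 ≤ C) (η : K)
    (h : ∀ᵐ y ∂P.ν η, ‖f y‖ ≤ C) : ‖P.E f η‖ ≤ C * ‖η‖ := by
  refine (pow_le_pow_iff_left₀ (norm_nonneg _) (by positivity) two_ne_zero).1
    ((P.norm_E_sq_le hf η).trans ?_)
  rw [mul_pow, ← P.ν_univ, mul_comm, ← smul_eq_mul, ← integral_const]
  exact integral_mono_ae (hf.integrable_normSq _) (integrable_const _)
    (h.mono fun y hy => pow_le_pow_left₀ (norm_nonneg _) hy 2)
theorem norm_E_le (hf : Measurable f) {C : ℝ} (hC : 0 ≤ C) (h : ∀ y, ‖f y‖ ≤ C) :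
    ‖P.E f‖ ≤ C :=
  ContinuousLinearMap.opNorm_le_bound _ hC fun η =>
    P.norm_E_apply_le ⟨hf, C, h⟩ hC η (Eventually.of_forall h)
theorem E_apply_congr (hf : BM f) (hg : BM g) {η : K} (h : f =ᵐ[P.ν η] g) : P.E f η = P.E g η := by
  rw [← sub_eq_zero, ← ContinuousLinearMap.sub_apply, ← P.E_sub hf hg, ← norm_le_zero_iff]
  simpa using P.norm_E_apply_le (hf.sub hg) le_rfl η (h.mono fun y hy => by simp [hy])
/-- dominated convergence, strong form, along a countably generated filter -/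
theorem tendsto_E' {α : Type*} {l : Filter α} [l.IsCountablyGenerated] {u : α → Y → ℂ}
    (hu : ∀ t, Measurable (u t)) (hg : BM g) {C : ℝ} (hC : ∀ t y, ‖u t y‖ ≤ C) (η : K)
    (h : ∀ᵐ y ∂P.ν η, Tendsto (fun t => u t y) l (𝓝 (g y))) :
    Tendsto (fun t => P.E (u t) η) l (𝓝 (P.E g η)) := by
  obtain ⟨D, hD⟩ := hg.2
  have hb : ∀ t, BM (u t) := fun t => ⟨hu t, C, hC t⟩
  rw [tendsto_iff_norm_sub_tendsto_zero]
  have h1 : Tendsto (fun t => ∫ y, ‖u t y - g y‖ ^ 2 ∂P.ν η) l (𝓝 (∫ _, (0 : ℝ) ∂P.ν η)) := by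
    refine tendsto_integral_filter_of_dominated_convergence (fun _ => (C + D) ^ 2)
      (Eventually.of_forall fun t => (((hb t).sub hg).integrable_normSq _).1)
      (Eventually.of_forall fun t => Eventually.of_forall fun y => ?_) (integrable_const _)
      (h.mono fun y hy => ?_)
    · rw [Real.norm_of_nonneg (sq_nonneg _)]
      exact pow_le_pow_left₀ (norm_nonneg _)
        ((norm_sub_le _ _).trans (add_le_add (hC t y) (hD y))) 2
    · simpa using (tendsto_iff_norm_sub_tendsto_zero.1 hy).pow 2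
  have h2 := h1.sqrt
  simp only [integral_zero, Real.sqrt_zero] at h2
  refine squeeze_zero (fun _ => norm_nonneg _) (fun t => ?_) h2
  rw [← ContinuousLinearMap.sub_apply, ← P.E_sub (hb t) hg]
  exact Real.le_sqrt_of_sq_le (P.norm_E_sq_le ((hb t).sub hg) η)
theorem tendsto_E {f : ℕ → Y → ℂ} {C : ℝ} (hf : ∀ n, Measurable (f n)) (hC : ∀ n y, ‖f n y‖ ≤ C)
    (h : ∀ y, Tendsto (fun n => f n y) atTop (𝓝 (g y))) (η : K) :
    Tendsto (fun n => P.E (f n) η) atTop (𝓝 (P.E g η)) :=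
  P.tendsto_E' hf (BM.of_tendsto hf hC h) hC η (Eventually.of_forall h)
/-- strong continuity in a parameter -/
theorem sCont_E {Ω : Type} [TopologicalSpace Ω] [FirstCountableTopology Ω] {f : Ω → Y → ℂ} {C : ℝ}
    (hf : ∀ ω, Measurable (f ω)) (hC : ∀ ω y, ‖f ω y‖ ≤ C) (h : ∀ y, Continuous fun ω => f ω y) :
    SCont fun ω => P.E (f ω) :=
  ⟨fun η => continuous_iff_continuousAt.2 fun ω => P.tendsto_E' hf ⟨hf ω, C, hC ω⟩ hC η
    (Eventually.of_forall fun y => (h y).tendsto ω), max C 0, fun ω =>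
    P.norm_E_le (hf ω) (le_max_right _ _) fun y => (hC ω y).trans (le_max_left _ _)⟩
theorem E_congr_ae (hf : BM f) (hg : BM g) (h : ∀ η, f =ᵐ[P.ν η] g) : P.E f = P.E g :=
  op_ext fun ξ => by rw [P.inner_E _ hf, P.inner_E _ hg, integral_congr_ae (h ξ)]
theorem ν_eq_zero {O : Set Y} (hO : MeasurableSet O) {η : K} (h0 : P.E (ic O) η = 0) :
    P.ν η O = 0 := by
  have := P.inner_ic hO η
  rw [h0, inner_zero_right] at this
  exact (measureReal_eq_zero_iff (by finiteness)).1 (by exact_mod_cast this.symm)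
theorem E_congr_of_null {O : Set Y} (hO : MeasurableSet O) (h0 : P.E (ic O) = 0) (hf : BM f)
    (hg : BM g) (h : ∀ y, y ∉ O → f y = g y) : P.E f = P.E g :=
  P.E_congr_ae hf hg fun η => (measure_eq_zero_iff_ae_notMem.1
    (P.ν_eq_zero hO (by rw [h0]; rfl))).mono h
theorem E_congr_of_conc {O : Set Y} (hO : MeasurableSet O) (h1 : P.E (ic O) = 1) (hf : BM f)
    (hg : BM g) (h : ∀ y ∈ O, f y = g y) : P.E f = P.E g :=
  P.E_congr_of_null hO.compl (by rw [P.E_ic_compl hO, h1, sub_self]) hf hg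
    fun y hy => h y (not_not.1 hy)
/-- if `E u` kills `η` with `u ≥ 0`, so does `E f` for every `f` vanishing where `u` vanishes -/
theorem E_apply_eq_zero {u : Y → ℝ} (hu : BM fun y => (u y : ℂ)) (h0 : ∀ y, 0 ≤ u y) {η : K}
    (hη : P.E (fun y => (u y : ℂ)) η = 0) (hf : BM f) (h : ∀ y, u y = 0 → f y = 0) :
    P.E f η = 0 := by
  have h1 := P.inner_ofReal hu η
  rw [hη, inner_zero_right] at h1
  have h2 : u =ᵐ[P.ν η] 0 := (integral_eq_zero_iff_of_nonneg h0
    (by simpa using (hu.integrable (P.ν η)).re)).1 (by exact_mod_cast h1.symm)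
  rw [P.E_apply_congr hf BM.zero (h2.mono fun y hy => h y hy), P.E_zero]; rfl
/-- if `T` kills `E u` with `u ≥ 0`, it kills `E f` for every `f` vanishing where `u` vanishes -/
theorem mul_E_eq_zero {u : Y → ℝ} (hu : BM fun y => (u y : ℂ)) (h0 : ∀ y, 0 ≤ u y)
    {T : K →L[ℂ] K} (hT : T * P.E (fun y => (u y : ℂ)) = 0) (hf : BM f)
    (h : ∀ y, u y = 0 → f y = 0) : T * P.E f = 0 := by
  have h1 : P.E (fun y => (u y : ℂ)) * star T = 0 := by
    rw [← (P.isSelfAdjoint hu).star_eq, ← star_mul, hT, star_zero]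
  have h2 : star (P.E f) * star T = 0 := by
    rw [P.E_star hf]
    ext η
    exact P.E_apply_eq_zero hu h0 (congrArg (· η) h1 :) hf.conj fun y hy => by simp [h y hy]
  rwa [← star_mul, star_eq_zero] at h2
/-- the row lemma for one POVM: `∑ ‖E (e k) η‖² ≤ sup ∑ |e k|² ‖η‖²` -/
theorem sum_norm_E_sq_le {κ : Type*} (s : Finset κ) {e : κ → Y → ℂ} (he : ∀ k ∈ s, BM (e k))
    {B : ℝ} (h : ∀ y, ∑ k ∈ s, ‖e k y‖ ^ 2 ≤ B) (η : K) :
    ∑ k ∈ s, ‖P.E (e k) η‖ ^ 2 ≤ B * ‖η‖ ^ 2 := by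
  refine (Finset.sum_le_sum fun k hk => P.norm_E_sq_le (he k hk) η).trans ?_
  rw [← integral_finset_sum _ fun k hk => (he k hk).integrable_normSq _, ← P.ν_univ, mul_comm,
    ← smul_eq_mul, ← integral_const]
  exact integral_mono (integrable_finset_sum _ fun k hk => (he k hk).integrable_normSq _)
    (integrable_const _) h
/-- the column lemma (Herz): `‖∑ E (e k) (a k)‖² ≤ sup ∑ |e k|² · ∑ ‖a k‖²` -/
theorem norm_sum_E_sq_le {κ : Type*} (s : Finset κ) {e : κ → Y → ℂ} (he : ∀ k ∈ s, BM (e k))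
    {B : ℝ} (hB : 0 ≤ B) (h : ∀ y, ∑ k ∈ s, ‖e k y‖ ^ 2 ≤ B) (a : κ → K) :
    ‖∑ k ∈ s, P.E (e k) (a k)‖ ^ 2 ≤ B * ∑ k ∈ s, ‖a k‖ ^ 2 := by
  set ζ := ∑ k ∈ s, P.E (e k) (a k) with hζ
  have h1 := P.sum_norm_E_sq_le s (fun k hk => (he k hk).conj) (B := B) (by simpa using h) ζ
  have h2 : ‖ζ‖ ^ 2 ≤ ∑ k ∈ s, ‖P.E (fun y => (starRingEnd ℂ) (e k y)) ζ‖ * ‖a k‖ := by
    rw [← inner_self_eq_norm_sq (𝕜 := ℂ)]
    conv_lhs => rw [hζ, inner_sum, ← hζ]
    refine (RCLike.re_le_norm _).trans ((norm_sum_le _ _).trans (Finset.sum_le_sum fun k hk => ?_))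
    rw [← P.E_star (he k hk), ContinuousLinearMap.star_eq_adjoint,
      ← ContinuousLinearMap.adjoint_inner_left]
    exact norm_inner_le_norm _ _
  have h3 := (pow_le_pow_left₀ (sq_nonneg _) h2 2).trans (Finset.sum_mul_sq_le_sq_mul_sq s _ _)
  have h4 : 0 ≤ ∑ k ∈ s, ‖a k‖ ^ 2 := Finset.sum_nonneg fun _ _ => sq_nonneg _
  rcases (sq_nonneg ‖ζ‖).eq_or_lt with h0 | h0
  · rw [← h0]; positivity
  · refine le_of_mul_le_mul_left ?_ h0
    nlinarith [mul_le_mul_of_nonneg_right h1 h4]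
@[simp] theorem map_E (φ : Y → Z) (hφ : Measurable φ) (f : Z → ℂ) :
    (P.map φ hφ).E f = P.E fun y => f (φ y) := rfl

/-- conjugation by a unitary -/
noncomputable def conj (u : K →L[ℂ] K) (hu : u * star u = 1) : POVM Y K where
  E f := u * P.E f * star u
  ν η := P.ν (star u η)
  fin η := P.fin _
  inner_E f hf η := by
    rw [← P.inner_E f hf, ContinuousLinearMap.star_eq_adjoint,
      ContinuousLinearMap.adjoint_inner_left]
    rfl
  E_one := by rw [P.E_one, mul_one, hu]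

@[simp] theorem conj_E (u : K →L[ℂ] K) (hu : u * star u = 1) (f : Y → ℂ) :
    (P.conj u hu).E f = u * P.E f * star u := rfl

/-- the midpoint of two POVMs -/
theorem exists_mid (Q : POVM Y K) :
    ∃ M : POVM Y K, ∀ f, M.E f = (1 / 2 : ℂ) • (P.E f + Q.E f) :=
  ⟨{ E := fun f => (1 / 2 : ℂ) • (P.E f + Q.E f)
     ν := fun η => (1 / 2 : NNReal) • (P.ν η + Q.ν η)
     fin := fun η => inferInstance
     inner_E := fun f hf η => by
      rw [integral_smul_nnreal_measure, integral_add_measure (hf.integrable _) (hf.integrable _),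
        ← P.inner_E f hf, ← Q.inner_E f hf]
      simp [inner_smul_right, inner_add_right, NNReal.smul_def, mul_add]
     E_one := by rw [P.E_one, Q.E_one, ← two_smul ℂ, smul_smul]; simp }, fun _ => rfl⟩

variable {P}

theorem IsPVM.map (hP : P.IsPVM) (φ : Y → Z) (hφ : Measurable φ) : (P.map φ hφ).IsPVM :=
  fun _ _ hf hg => hP _ _ (hf.comp hφ) (hg.comp hφ)
theorem IsPVM.conj (hP : P.IsPVM) (u : K →L[ℂ] K) (hu : u * star u = 1) (hu' : star u * u = 1) :
    (P.conj u hu).IsPVM := fun f g hf hg => by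
  simp only [conj_E, hP f g hf hg, mul_assoc]
  rw [← mul_assoc (star u) u, hu', one_mul]
theorem IsPVM.commute (hP : P.IsPVM) (hf : BM f) (hg : BM g) : Commute (P.E f) (P.E g) := by
  rw [Commute, SemiconjBy, ← hP f g hf hg, ← hP g f hg hf]
  simp only [mul_comm]
theorem IsPVM.inner_E_E (hP : P.IsPVM) (hf : BM f) (hg : BM g) (ζ η : K) :
    ⟪P.E f ζ, P.E g η⟫_ℂ = ⟪ζ, P.E (fun y => (starRingEnd ℂ) (f y) * g y) η⟫_ℂ := by
  rw [hP _ _ hf.conj hg, ← P.E_star hf, ContinuousLinearMap.star_eq_adjoint,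
    ← ContinuousLinearMap.adjoint_inner_right]
  rfl
theorem IsPVM.norm_E_sq (hP : P.IsPVM) (hf : BM f) (η : K) :
    ‖P.E f η‖ ^ 2 = ∫ y, ‖f y‖ ^ 2 ∂(P.ν η) := by
  have h1 := hP.inner_E_E hf hf η η
  simp only [Complex.conj_mul', ← Complex.ofReal_pow] at h1
  rw [P.inner_ofReal hf.normSq, inner_self_eq_norm_sq_to_K] at h1
  exact Complex.ofReal_injective (by rw [← h1]; simp)
theorem IsPVM.ex_mem_unitary (hP : P.IsPVM) {θ : Y → ℝ} (hθ : Measurable θ) :
    P.E (fun y => ex (θ y)) ∈ unitary (K →L[ℂ] K) := by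
  have b := BM.ex hθ
  rw [Unitary.mem_iff, P.E_star b, ← hP _ _ b.conj b, ← hP _ _ b b.conj]
  simp [conj_ex, ← ex_add, P.E_one]
theorem IsPVM.ic_mul_ic (hP : P.IsPVM) {O O' : Set Y} (hO : MeasurableSet O)
    (hO' : MeasurableSet O') : P.E (ic O) * P.E (ic O') = P.E (ic (O ∩ O')) := by
  rw [ic_inter, hP _ _ (BM.ic hO) (BM.ic hO')]
theorem IsPVM.ic_idem (hP : P.IsPVM) {O : Set Y} (hO : MeasurableSet O) :
    P.E (ic O) * P.E (ic O) = P.E (ic O) := by rw [hP.ic_mul_ic hO hO, Set.inter_self]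

end POVM

end Crest.Agent.N111
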