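import Crest.Agent.N111.Lib.Fou2B

/-! # Row 111: Fourier algebra tools and scalar lemmas (API; fill the proofs IN PLACE). -/

set_option autoImplicit false
set_option linter.unusedVariables false

namespace Crest.Agent.N111

open MeasureTheory Topology Filter
open scoped ContDiff

/-- **E0, abstract form.**  Coordinates `p = (s, y)`. -/
theorem e0_abstract (M : (ℝ × ℝ → ℂ) → ℂ) (C : ℝ)
    (hadd : ∀ c c', Integrable c → Ev c → Integrable c' → Ev c' →
      M (fun w => c w + c' w) = M c + M c')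
    (hsmul : ∀ (z : ℂ) c, Integrable c → Ev c → M (fun w => z * c w) = z * M c)
    (hbd : ∀ c, Integrable c → Ev c → ‖M c‖ ≤ C * ∫ w, ‖c w‖)
    (hdil : ∀ c, Integrable c → Ev c → ∀ l : ℝ, 0 < l → M (dil l c) = M c)
    (hnull : ∀ c, Integrable c → Ev c → ∀ ε R : ℝ, 0 < ε →
      (∀ p : ℝ × ℝ, |p.1| < ε ∨ |p.1 + 2 * p.2| < ε ∨ R < |p.2| → K2 c p = 0) → M c = 0)
    (hN : ∀ c, Integrable c → Ev c → ∀ (N : ℝ → ℂ) (R : ℝ), 0 < R → (∀ y, R < |y| → N y = 0) →
      (∀ p : ℝ × ℝ, |p.1| ≤ 4 * R → K2 c p = N p.2) →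
      (∀ p : ℝ × ℝ, R < |p.2| → K2 c p = 0) → M c = 0) :
    ∀ c, Integrable c → Ev c → M c = 0 := by
  classical
  have hsub : ∀ c c', Integrable c → Ev c → Integrable c' → Ev c' →
      M (fun w => c w + -1 * c' w) = M c - M c' := fun c c' h1 h2 h3 h4 => by
    rw [hadd c _ h1 h2 (h3.const_mul _) fun w => by simp only [h4 w], hsmul _ _ h3 h4]; ring
  have hker : ∀ c c', Integrable c → Ev c → Integrable c' → Ev c' → K2 c = K2 c' → M c = M c' :=
    fun c c' h1 h2 h3 h4 e => by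
      rw [← sub_eq_zero, ← hsub c c' h1 h2 h3 h4]
      refine hnull _ (h1.add (h3.const_mul _)) (fun w => by simp only [h2 w, h4 w]) 1 0 one_pos
        fun p _ => ?_
      rw [K2_add h1 (h3.const_mul _), K2_smul, e]; ring
  let L : (ℝ × ℝ → ℂ) → ℂ := fun k =>
    if h : ∃ c, Integrable c ∧ Ev c ∧ K2 c = k then M h.choose else 0
  have hL : ∀ c, Integrable c → Ev c → L (K2 c) = M c := fun c h1 h2 => by
    have h : ∃ c', Integrable c' ∧ Ev c' ∧ K2 c' = K2 c := ⟨c, h1, h2, rfl⟩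
    simp only [L, dif_pos h]
    exact hker _ _ h.choose_spec.1 h.choose_spec.2.1 h1 h2 h.choose_spec.2.2
  have H : KF L |C| := by
    refine ⟨?_, ?_, ?_, ?_, ?_⟩
    · rintro _ _ a a' ⟨c, h1, h2, rfl, -⟩ ⟨c', h3, h4, rfl, -⟩
      rw [← funext (K2_add h1 h3), hL (fun w => c w + c' w) (h1.add h3)
        fun w => by simp only [h2 w, h4 w], hL _ h1 h2, hL _ h3 h4, hadd _ _ h1 h2 h3 h4]
    · rintro _ a ⟨c, h1, h2, rfl, -⟩ z
      rw [← funext (K2_smul z c), hL _ (h1.const_mul z) fun w => by simp only [h2 w],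
        hL _ h1 h2, hsmul _ _ h1 h2]
    · rintro _ a ⟨c, h1, h2, rfl, h3⟩
      rw [hL _ h1 h2]
      exact (hbd c h1 h2).trans (mul_le_mul (le_abs_self C) h3
        (integral_nonneg fun _ => norm_nonneg _) (abs_nonneg C))
    · rintro _ a ⟨c, h1, h2, rfl, -⟩ l hl
      rw [← funext (K2_dil c hl.ne'), hL _ (integrable_dil h1 hl.ne') fun w => by
        simp only [dil, smul_neg, h2 _], hL _ h1 h2, hdil _ h1 h2 l hl]
    · rintro _ a ⟨c, h1, h2, rfl, -⟩ ε R hε h
      rw [hL _ h1 h2]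
      exact hnull c h1 h2 ε R hε h
  have hsm : ∀ c, Integrable c → Ev c → ContDiff ℝ ∞ (K2 c) → HasCompactSupport (K2 c) →
      M c = 0 := fun c h1 h2 hs hc => by
    obtain ⟨R, hR0, hR⟩ := hc.exists_pos_le_norm
    have hR' : ∀ p : ℝ × ℝ, R < |p.2| → K2 c p = 0 := fun p hp =>
      hR p (hp.le.trans (norm_snd_le p))
    obtain ⟨d, hd, ed, ds, d1, -⟩ := exists_bump
    obtain ⟨n, n1, -, n3, n4⟩ := exists_K1 (f := fun y => K2 c (0, y)) (hs.comp (by fun_prop))
      (HasCompactSupport.intro (isCompact_closedBall 0 R) fun y hy =>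
        hR' _ (by simpa using not_le.1 (mt Metric.mem_closedBall.2 hy)))
    have h4R : 0 < 4 * R := by positivity
    have t := HA.tensor (integrable_dil1 hd h4R) n1 (ev_dil1 ed _)
      (n4 fun y => by beta_reduce; rw [← K2_neg_of_ev h2]; simp)
    simp only [K1_dil1 d h4R, n3] at t
    have hk : HA (K2 c) _ := ⟨c, h1, h2, rfl, le_rfl⟩
    have := H.axis (hk.sub t) (hs.sub ((ds.comp (by fun_prop)).mul (hs.comp (by fun_prop)))) hR0
      (fun p hp => by rw [hR' p hp, hR' (0, p.2) hp]; ring) fun y => by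
        rw [d1 _ (by simp)]; ring
    rw [H.sub hk t, hL _ h1 h2, sub_eq_zero] at this
    obtain ⟨c', t1, t2, t3, -⟩ := t
    rw [this, ← t3, hL _ t1 t2]
    refine hN c' t1 t2 (fun y => K2 c (0, y)) R hR0 (fun y hy => hR' _ hy) (fun p hp => ?_)
      fun p hp => ?_
    · rw [t3]; beta_reduce
      rw [d1 _ (by rwa [abs_div, abs_of_pos h4R, div_le_one h4R]), one_mul]
    · rw [t3]; beta_reduce
      rw [hR' (0, p.2) hp, mul_zero]
  intro c h1 h2
  refine KF.eq_zero_of_small (B := |C|) fun δ hδ => ?_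
  obtain ⟨c', h3, h4, h5, h6, h7⟩ := exists_smooth_near h1 h2 hδ
  have := hbd _ (h1.add (h3.const_mul (-1))) fun w => by simp only [Pi.add_apply, h2 w, h4 w]
  rw [show c + (fun w => -1 * c' w) = fun w => c w + -1 * c' w from rfl, hsub _ _ h1 h2 h3 h4,
    hsm c' h3 h4 h5 h6, sub_zero] at this
  refine this.trans (mul_le_mul (le_abs_self C) ?_ (integral_nonneg fun _ => norm_nonneg _)
    (abs_nonneg C))
  simpa [sub_eq_add_neg] using h7

end Crest.Agent.N111
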