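import Crest.Agent.N111.Lib.Fou3a

/-! # Row 111: Bargmann's lemma (the scalar lemmas `avg`, `norm_avg_le`, `tendsto_avg_shift`,
`tendsto_avg_of_tendsto`, `frequently_lt_of_avg`, `tendsto_integral_of_equicont`,
`sum_inv_one_add_sq_le`, `exists_char`, `exists_bichar` are in `Lib/Fou3a`). -/

set_option autoImplicit false
set_option linter.unusedVariables false

namespace Crest.Agent.N111

open MeasureTheory Topology Filter
open scoped InnerProductSpace

namespace Brg

/-- clamp to `[-b, b]` -/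
noncomputable def cl (b x : ℝ) : ℝ := max (-b) (min b x)

lemma continuous_cl (b : ℝ) : Continuous (cl b) := by unfold cl; fun_prop

lemma abs_cl_le {b : ℝ} (hb : 0 ≤ b) (x : ℝ) : |cl b x| ≤ b :=
  abs_le.2 ⟨le_max_left _ _, max_le (by linarith) (min_le_left _ _)⟩

lemma cl_eq {b x : ℝ} (h : |x| ≤ b) : cl b x = x := by
  rw [cl, min_eq_right (abs_le.1 h).2, max_eq_right (abs_le.1 h).1]

/-- continuous local real cocycles on `ℝ` are coboundaries -/
theorem coc_triv {ξ : ℝ → ℝ → ℝ} (hc : Continuous fun p : ℝ × ℝ => ξ p.1 p.2) {δ : ℝ}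
    (hδ : 0 < δ) (h : ∀ r s t, |r| ≤ δ → |s| ≤ δ → |t| ≤ δ →
      ξ r s + ξ (r + s) t = ξ s t + ξ r (s + t)) :
    ∃ Φ : ℝ → ℝ, Continuous Φ ∧ ∀ r s, |r| ≤ δ → |s| ≤ δ → ξ r s = Φ r + Φ s - Φ (r + s) := by
  have c2 : ∀ x, Continuous (ξ x) := fun x => hc.comp (continuous_const.prodMk continuous_id)
  have c1 : Continuous fun x => ξ x δ := hc.comp (continuous_id.prodMk continuous_const)
  let A : ℝ → ℝ := fun x => ∫ t in (0 : ℝ)..δ, ξ x t
  let Ψ : ℝ → ℝ := fun x => ∫ t in (0 : ℝ)..x, ξ t δ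
  have hA : Continuous A :=
    intervalIntegral.continuous_parametric_intervalIntegral_of_continuous' hc _ _
  have hΨ : Continuous Ψ :=
    continuous_iff_continuousAt.2 fun x =>
      (c1.integral_hasStrictDerivAt 0 x).hasDerivAt.continuousAt
  refine ⟨fun x => (A x - Ψ x) / δ, (hA.sub hΨ).div_const _, fun r s hr hs => ?_⟩
  have i2 : ∀ x a b, IntervalIntegrable (ξ x) volume a b := fun x a b =>
    (c2 x).intervalIntegrable _ _
  have i1 : ∀ a b, IntervalIntegrable (fun x => ξ x δ) volume a b := fun a b =>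
    c1.intervalIntegrable _ _
  have i3 : Continuous fun t => ξ r (s + t) := (c2 r).comp (continuous_const.add continuous_id)
  have i4 : Continuous fun t => ξ r (t + δ) := (c2 r).comp (continuous_id.add continuous_const)
  have i5 : Continuous fun t => ξ (r + t) δ := c1.comp (continuous_const.add continuous_id)
  have e1 : δ * ξ r s = A s + (∫ t in (0 : ℝ)..δ, ξ r (s + t)) - A (r + s) := by
    simp only [A]
    rw [← intervalIntegral.integral_add (i2 _ _ _) (i3.intervalIntegrable _ _),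
      ← intervalIntegral.integral_sub ((i2 _ _ _).add (i3.intervalIntegrable _ _)) (i2 _ _ _),
      intervalIntegral.integral_congr (g := fun _ => ξ r s)]
    · simp
    · intro t ht
      rw [Set.uIcc_of_le hδ.le] at ht
      have := h r s t hr hs (abs_le.2 ⟨by linarith [ht.1], ht.2⟩)
      simp only
      linarith
  have e2 : (∫ t in (0 : ℝ)..δ, ξ r (s + t)) - A r
      = (∫ t in (0 : ℝ)..s, ξ r (t + δ)) - ∫ t in (0 : ℝ)..s, ξ r t := by
    simp only [A]
    rw [intervalIntegral.integral_comp_add_left (ξ r) s,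
      intervalIntegral.integral_comp_add_right (ξ r) δ, add_zero, zero_add]
    exact intervalIntegral.integral_interval_sub_interval_comm' (i2 _ _ _) (i2 _ _ _) (i2 _ _ _)
  have e3 : (∫ t in (0 : ℝ)..s, ξ r (t + δ)) - ∫ t in (0 : ℝ)..s, ξ r t
      = (∫ t in (0 : ℝ)..s, ξ (r + t) δ) - Ψ s := by
    simp only [Ψ]
    rw [← intervalIntegral.integral_sub (i4.intervalIntegrable _ _) (i2 _ _ _),
      ← intervalIntegral.integral_sub (i5.intervalIntegrable _ _) (i1 _ _)]
    refine intervalIntegral.integral_congr fun t ht => ?_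
    have ht' : |t| ≤ δ := by
      have := Set.abs_sub_left_of_mem_uIcc ht
      simp only [sub_zero] at this
      exact this.trans hs
    have := h r t δ hr ht' (abs_of_pos hδ).le
    linarith
  have e4 : (∫ t in (0 : ℝ)..s, ξ (r + t) δ) = Ψ (r + s) - Ψ r := by
    simp only [Ψ]
    rw [intervalIntegral.integral_comp_add_left (fun x => ξ x δ) r, add_zero,
      intervalIntegral.integral_interval_sub_left (i1 _ _) (i1 _ _)]
  field_simp
  linarith

variable {K : Type} [NormedAddCommGroup K] [InnerProductSpace ℂ K]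

lemma cont_app {X : Type} [TopologicalSpace X] {U : X → K →L[ℂ] K} (hb : ∀ x η, ‖U x η‖ ≤ ‖η‖)
    (hU : ∀ η, Continuous fun x => U x η) {g : X → K} (hg : Continuous g) :
    Continuous fun x => U x (g x) := by
  refine continuous_iff_continuousAt.2 fun x₀ => ?_
  have h1 : Tendsto (fun x => U x (g x - g x₀)) (𝓝 x₀) (𝓝 0) := by
    refine squeeze_zero_norm (fun x => hb x _) ?_
    have := ((hg.sub (continuous_const (y := g x₀))).norm).tendsto x₀
    simpa using this
  have h2 := h1.add ((hU (g x₀)).tendsto x₀)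
  simpa [ContinuousAt] using h2

/-- a local one parameter group extends -/
theorem extend {a : ℝ} (ha : 0 < a) (v : ℝ → K →L[ℂ] K) (h0 : v 0 = 1)
    (hn : ∀ t η, ‖v t η‖ = ‖η‖) (hc : ∀ η, Continuous fun t => v t η)
    (hm : ∀ s t, |s| ≤ a → |t| ≤ a → v (s + t) = v s * v t) :
    ∃ w : ℝ → K →L[ℂ] K, (∀ s t, w (s + t) = w s * w t) ∧ (∀ t η, ‖w t η‖ = ‖η‖) ∧
      (∀ η, Continuous fun t => w t η) ∧ ∀ t, |t| ≤ a → w t = v t := by
  have hpow : ∀ (m : ℕ) (x : ℝ), (m : ℝ) * |x| ≤ a → v (m * x) = v x ^ m := by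
    intro m x
    induction m with
    | zero => simp [h0]
    | succ m ih =>
      intro h
      push_cast at h ⊢
      have hx := abs_nonneg x
      have hm0 : (0 : ℝ) ≤ m * |x| := by positivity
      rw [add_mul, one_mul, hm _ _ (by rw [abs_mul, Nat.abs_cast]; linarith) (by linarith),
        ih (by linarith), pow_succ]
  have hdiv : ∀ (n : ℕ) (t : ℝ), |t| ≤ (n + 1) * a → |t / (n + 1)| ≤ a := fun n t h => by
    rw [abs_div, abs_of_pos (by positivity : (0 : ℝ) < n + 1), div_le_iff₀ (by positivity)]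
    linarith
  have hwd' : ∀ (n m : ℕ) (t : ℝ), |t| ≤ (n + 1) * a →
      v (t / (n + 1)) ^ (n + 1) = v (t / (n + 1) / (m + 1)) ^ ((m + 1) * (n + 1)) := by
    intro n m t h
    have h1 := hdiv n t h
    have hm1 : (0 : ℝ) < m + 1 := by positivity
    rw [pow_mul, ← hpow (m + 1) (t / (n + 1) / (m + 1))]
    · congr 2; push_cast; field_simp
    · rw [abs_div _ ((m : ℝ) + 1), abs_of_pos hm1]; push_cast
      rw [mul_div_cancel₀ _ hm1.ne']; exact h1
  have hwd : ∀ (n m : ℕ) (t : ℝ), |t| ≤ (n + 1) * a → |t| ≤ (m + 1) * a →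
      v (t / (n + 1)) ^ (n + 1) = v (t / (m + 1)) ^ (m + 1) := by
    intro n m t h h'
    rw [hwd' n m t h, hwd' m n t h', mul_comm (m + 1), div_right_comm]
  have hN : ∀ t : ℝ, ∃ n : ℕ, |t| < (n + 1) * a := fun t => by
    obtain ⟨n, hn⟩ := exists_nat_ge (|t| / a)
    refine ⟨n, ?_⟩
    rw [div_le_iff₀ ha] at hn
    nlinarith
  choose N hN using hN
  let w : ℝ → K →L[ℂ] K := fun t => v (t / (N t + 1)) ^ (N t + 1)
  have hw : ∀ (n : ℕ) (t : ℝ), |t| ≤ (n + 1) * a → w t = v (t / (n + 1)) ^ (n + 1) :=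
    fun n t h => hwd _ _ t (hN t).le h
  have hnp : ∀ (n : ℕ) (x : ℝ) (η : K), ‖(v x ^ n) η‖ = ‖η‖ := by
    intro n x
    induction n with
    | zero => simp
    | succ n ih => intro η; rw [pow_succ, mul_apply_eq_comp, ih, hn]
  have hcp : ∀ (n : ℕ) (η : K), Continuous fun x => (v x ^ n) η := by
    intro n η
    induction n with
    | zero => simpa using continuous_const
    | succ n ih =>
      simp only [pow_succ', mul_apply_eq_comp]
      exact cont_app (fun x η => (hn x η).le) hc ih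
  refine ⟨w, fun s t => ?_, fun t η => hnp _ _ _, fun η => ?_, fun t ht => ?_⟩
  · set n := N (|s| + |t|)
    have h1 : |s| + |t| ≤ (n + 1) * a := (le_abs_self _).trans (hN _).le
    have hs : |s| ≤ (n + 1) * a := by linarith [abs_nonneg t]
    have ht : |t| ≤ (n + 1) * a := by linarith [abs_nonneg s]
    rw [hw n s hs, hw n t ht, hw n (s + t) ((abs_add_le _ _).trans h1), add_div,
      hm _ _ (hdiv n s hs) (hdiv n t ht)]
    refine Commute.mul_pow ?_ _
    rw [Commute, SemiconjBy, ← hm _ _ (hdiv n s hs) (hdiv n t ht),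
      ← hm _ _ (hdiv n t ht) (hdiv n s hs), add_comm]
  · refine continuous_iff_continuousAt.2 fun t₀ => ?_
    have h1 : ∀ᶠ t in 𝓝 t₀, |t| < (N t₀ + 1) * a :=
      (continuous_abs.tendsto t₀).eventually (gt_mem_nhds (hN t₀))
    have h2 : Continuous fun t : ℝ => (v (t / (N t₀ + 1)) ^ (N t₀ + 1)) η :=
      (hcp _ η).comp (continuous_id.div_const _)
    refine h2.continuousAt.congr ?_
    filter_upwards [h1] with t ht
    rw [hw _ t ht.le]
  · rw [hw 0 t (by simpa using ht)]; simp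

/-- Bargmann's lemma for globally defined families -/
theorem loc [CompleteSpace K] {η : K} (hη : ‖η‖ = 1) {a : ℝ} (ha : 0 < a) (u : ℝ → K →L[ℂ] K)
    (h0 : u 0 = 1) (hn : ∀ t η, ‖u t η‖ = ‖η‖) (hc : ∀ η, Continuous fun t => u t η)
    (hm : ∀ s t, |s| ≤ a → |t| ≤ a → ∃ z : ℂ, u s * u t = z • u (s + t)) :
    ∃ (Φ : ℝ → ℝ) (δ : ℝ), 0 < δ ∧ δ ≤ a ∧ Continuous Φ ∧ Φ 0 = 0 ∧ ∀ s t, |s| ≤ δ → |t| ≤ δ →
      u s * u t = ex (Φ s + Φ t - Φ (s + t)) • u (s + t) := by
  let z : ℝ → ℝ → ℂ := fun s t => ⟪u (s + t) η, u s (u t η)⟫_ℂ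
  have hz : ∀ s t, |s| ≤ a → |t| ≤ a → u s * u t = z s t • u (s + t) ∧ ‖z s t‖ = 1 := by
    intro s t hs ht
    obtain ⟨c, hc⟩ := hm s t hs ht
    have h1 : u s (u t η) = c • u (s + t) η := by
      rw [← mul_apply_eq_comp, hc]; rfl
    have h2 : z s t = c := by
      simp only [z]
      rw [h1, inner_smul_right, inner_self_eq_norm_sq_to_K, hn, hη]; simp
    have h3 := congrArg norm h1
    rw [hn, hn, norm_smul, hn, hη, mul_one] at h3
    rw [h2]
    exact ⟨hc, h3.symm⟩
  have hzc : Continuous fun p : ℝ × ℝ => z p.1 p.2 :=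
    ((hc η).comp (continuous_fst.add continuous_snd)).inner
      (cont_app (U := fun p : ℝ × ℝ => u p.1) (fun p η => (hn _ η).le)
        (fun η => (hc η).comp continuous_fst) ((hc η).comp continuous_snd))
  have hz0 : z 0 0 = 1 := by
    simp only [z, add_zero, h0, one_apply_eq_self]
    rw [inner_self_eq_norm_sq_to_K, hη]; simp
  obtain ⟨b, hb0, hb⟩ : ∃ b > 0, ∀ p : ℝ × ℝ, dist p (0, 0) < b → 0 < (z p.1 p.2).re := by
    have h1 : ∀ᶠ p : ℝ × ℝ in 𝓝 (0, 0), 0 < (z p.1 p.2).re :=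
      ((Complex.continuous_re.comp hzc).tendsto (0, 0)).eventually
        (lt_mem_nhds (by simp [hz0]))
    obtain ⟨b, hb0, hb⟩ := Metric.eventually_nhds_iff.1 h1
    exact ⟨b, hb0, fun p hp => hb hp⟩
  set δ := min a b / 4 with hδ
  have hδ0 : 0 < δ := by have := lt_min ha hb0; positivity
  have hδa : 2 * δ ≤ a := by linarith [min_le_left a b, lt_min ha hb0]
  have hδb : 2 * δ < b := by linarith [min_le_right a b, lt_min ha hb0]
  have hre : ∀ s t, |s| ≤ 2 * δ → |t| ≤ 2 * δ → 0 < (z s t).re := fun s t hs ht =>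
    hb (s, t) (by
      rw [Prod.dist_eq, max_lt_iff, Real.dist_eq, Real.dist_eq, sub_zero, sub_zero]
      exact ⟨hs.trans_lt hδb, ht.trans_lt hδb⟩)
  let ξ : ℝ → ℝ → ℝ := fun s t => (z (cl (2 * δ) s) (cl (2 * δ) t)).arg
  have hξc : Continuous fun p : ℝ × ℝ => ξ p.1 p.2 := by
    refine continuous_iff_continuousAt.2 fun p => ?_
    have h1 : Continuous fun p : ℝ × ℝ => z (cl (2 * δ) p.1) (cl (2 * δ) p.2) :=
      hzc.comp (((continuous_cl _).comp continuous_fst).prodMk
        ((continuous_cl _).comp continuous_snd))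
    exact ContinuousAt.comp (f := fun p : ℝ × ℝ => z (cl (2 * δ) p.1) (cl (2 * δ) p.2))
      (Complex.continuousAt_arg (Or.inl (hre _ _ (abs_cl_le (by linarith) _)
        (abs_cl_le (by linarith) _)))) h1.continuousAt
  have hξ : ∀ s t, |s| ≤ 2 * δ → |t| ≤ 2 * δ → ξ s t = (z s t).arg := fun s t hs ht => by
    simp only [ξ]; rw [cl_eq hs, cl_eq ht]
  have harg : ∀ {x y : ℂ}, 0 < x.re → 0 < y.re → (x * y).arg = x.arg + y.arg := by
    intro x y hx hy
    have h1 := abs_lt.1 (Complex.abs_arg_lt_pi_div_two_iff.2 (Or.inl hx))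
    have h2 := abs_lt.1 (Complex.abs_arg_lt_pi_div_two_iff.2 (Or.inl hy))
    exact Complex.arg_mul (fun h => by simp [h] at hx) (fun h => by simp [h] at hy)
      ⟨by linarith [h1.1, h2.1], by linarith [h1.2, h2.2]⟩
  obtain ⟨Φ, hΦc, hΦ⟩ := coc_triv hξc hδ0 (by
    intro r s t hr hs ht
    have hrs : |r + s| ≤ 2 * δ := (abs_add_le _ _).trans (by linarith)
    have hst : |s + t| ≤ 2 * δ := (abs_add_le _ _).trans (by linarith)
    have hr' : |r| ≤ 2 * δ := by linarith
    have hs' : |s| ≤ 2 * δ := by linarith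
    have ht' : |t| ≤ 2 * δ := by linarith
    rw [hξ _ _ hr' hs', hξ _ _ hrs ht', hξ _ _ hs' ht', hξ _ _ hr' hst,
      ← harg (hre _ _ hr' hs') (hre _ _ hrs ht'), ← harg (hre _ _ hs' ht') (hre _ _ hr' hst)]
    congr 1
    have e1 : u r * u s * u t = (z r s * z (r + s) t) • u (r + s + t) := by
      rw [(hz r s (by linarith) (by linarith)).1, smul_mul_assoc,
        (hz (r + s) t (by linarith) (by linarith)).1, smul_smul]
    have e2 : u r * u s * u t = (z s t * z r (s + t)) • u (r + s + t) := by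
      rw [mul_assoc, (hz s t (by linarith) (by linarith)).1, mul_smul_comm,
        (hz r (s + t) (by linarith) (by linarith)).1, smul_smul, add_assoc]
    have e3 := congrArg (fun T : K →L[ℂ] K => T η) (e1.symm.trans e2)
    have hne : u (r + s + t) η ≠ 0 := fun h => by
      have := hn (r + s + t) η
      rw [h, hη] at this; simp at this
    exact smul_left_injective ℂ hne e3)
  have hz' : ∀ s t, |s| ≤ δ → |t| ≤ δ → z s t = ex (ξ s t) := by
    intro s t hs ht
    have h1 := Complex.norm_mul_exp_arg_mul_I (z s t)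
    rw [(hz s t (by linarith) (by linarith)).2] at h1
    rw [hξ s t (by linarith) (by linarith), ex, mul_comm]
    simpa using h1.symm
  refine ⟨Φ, δ, hδ0, by linarith, hΦc, ?_, fun s t hs ht => ?_⟩
  · have h1 := hΦ 0 0 (by simp [hδ0.le]) (by simp [hδ0.le])
    rw [hξ 0 0 (by simp [hδ0.le]) (by simp [hδ0.le]), hz0, Complex.arg_one, add_zero] at h1
    linarith
  · rw [(hz s t (by linarith) (by linarith)).1, hz' s t hs ht, hΦ s t hs ht]

end Brg

open Brg in
/-- **Bargmann**: a strongly continuous local projective one parameter group lifts -/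
theorem bargmann {K : Type} [NormedAddCommGroup K] [InnerProductSpace ℂ K] [CompleteSpace K]
    {t₀ : ℝ} (ht₀ : 0 < t₀) (u : ℝ → K →L[ℂ] K) (h0 : u 0 = 1)
    (hu : ∀ t, |t| < t₀ → u t ∈ unitary (K →L[ℂ] K))
    (hc : ∀ η, ContinuousOn (fun t => u t η) (Set.Ioo (-t₀) t₀))
    (hm : ∀ s t, |s| < t₀ → |t| < t₀ → |s + t| < t₀ → ∃ z : ℂ, u s * u t = z • u (s + t)) :
    ∃ (v : ℝ → K →L[ℂ] K) (t₁ : ℝ), 0 < t₁ ∧ t₁ ≤ t₀ ∧ v 0 = 1 ∧ (∀ s t, v (s + t) = v s * v t) ∧
      (∀ t η, ‖v t η‖ = ‖η‖) ∧ (∀ η, Continuous fun t => v t η) ∧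
      ∀ t, |t| < t₁ → ∃ z : ℂ, ‖z‖ = 1 ∧ v t = z • u t := by
  rcases subsingleton_or_nontrivial K with hK | hK
  · exact ⟨fun _ => 1, t₀, ht₀, le_rfl, rfl, fun _ _ => (mul_one _).symm, fun _ _ => rfl,
      fun _ => continuous_const, fun t _ => ⟨1, norm_one, Subsingleton.elim _ _⟩⟩
  obtain ⟨η, hη⟩ := exists_norm_eq K zero_le_one
  have hcl : ∀ t, |cl (t₀ / 2) t| < t₀ := fun t =>
    (abs_cl_le (by linarith) t).trans_lt (by linarith)
  let u' : ℝ → K →L[ℂ] K := fun t => u (cl (t₀ / 2) t)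
  have hu' : ∀ t, |t| ≤ t₀ / 2 → u' t = u t := fun t ht => by simp only [u']; rw [cl_eq ht]
  have hn' : ∀ t η, ‖u' t η‖ = ‖η‖ := fun t η =>
    ContinuousLinearMap.norm_map_of_mem_unitary (hu _ (hcl t)) η
  have hc' : ∀ η, Continuous fun t => u' t η := fun η =>
    (hc η).comp_continuous (continuous_cl _) fun t => abs_lt.1 (hcl t)
  have h0' : u' 0 = 1 := by rw [hu' 0 (by simp; linarith), h0]
  obtain ⟨Φ, δ, hδ0, hδ, hΦc, hΦ0, hΦ⟩ := loc hη (a := t₀ / 4) (by linarith) u' h0' hn' hc' (by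
    intro s t hs ht
    have hst : |s + t| ≤ t₀ / 2 := (abs_add_le _ _).trans (by linarith)
    rw [hu' s (by linarith), hu' t (by linarith), hu' _ hst]
    exact hm s t (by linarith) (by linarith) (by linarith))
  have hv0 : ex (-Φ 0) • u' 0 = 1 := by simp [hΦ0, h0']
  obtain ⟨w, hw1, hw2, hw3, hw4⟩ := extend hδ0 (fun t => ex (-Φ t) • u' t) hv0
    (fun t η => by rw [smul_apply, norm_smul, norm_ex, one_mul, hn'])
    (fun η => (continuous_ex.comp hΦc.neg).smul (hc' η)) (by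
      intro s t hs ht
      rw [smul_mul_smul_comm, hΦ s t hs ht, smul_smul, ← ex_add, ← ex_add]
      congr 2; ring)
  refine ⟨w, δ, hδ0, by linarith, by rw [hw4 0 (by simp [hδ0.le]), hv0], hw1, hw2, hw3,
    fun t ht => ⟨ex (-Φ t), norm_ex _, ?_⟩⟩
  rw [hw4 t ht.le, hu' t (by linarith)]

end Crest.Agent.N111
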