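import Crest.Agent.N111.Lib.Geo
import Crest.Agent.N111.Grp.Count

/-! # Row 111: shell geometry and the overlap count. -/

set_option autoImplicit false
set_option linter.unusedVariables false

namespace Crest.Agent.N111

open MeasureTheory Topology Filter Matrix

/-! shells -/
theorem Sh.le_nm {L R : ℝ} {μ : Γ} (hμ : μ ∈ Sh L R) : Real.exp (2 * L - R) ≤ nm (ι μ) :=
  (Real.le_log_iff_exp_le (nm_pos _)).1 (by linarith [(abs_le.1 hμ.1).1])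

theorem Sh.nm_le {L R : ℝ} {μ : Γ} (hμ : μ ∈ Sh L R) : nm (ι μ) ≤ Real.exp (2 * L + R) :=
  (Real.log_le_iff_le_exp (nm_pos _)).1 (by linarith [(abs_le.1 hμ.1).2])

theorem Sh.nm_dl_le {L R : ℝ} {μ : Γ} (hμ : μ ∈ Sh L R) : nm (dl (ι μ)) ≤ Real.exp (L + R) := by
  rw [nm_dl, ← map_inv]; exact (Real.log_le_iff_le_exp (nm_pos _)).1 hμ.2

/-- expanded vectors point to the attracting point -/
theorem cross_pt_le {L R θ : ℝ} (hθ : 0 < θ) {μ : Γ} (hμ : μ ∈ Sh L R) {v : V} (hv : v ≠ 0)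
    (h : θ * Real.exp (2 * L) * ‖v‖ ≤ ‖ac (ι μ) v‖) :
    ‖ac (ι μ) v ⨯₃ pt μ‖
      ≤ (6 * Real.exp (2 * R) / θ * Real.exp (-3 * L)) * (‖ac (ι μ) v‖ * ‖pt μ‖) := by
  have h1 := Sh.le_nm hμ
  have h2 := Sh.nm_dl_le hμ
  have h3 := norm_cross_le v (ev (jm μ))
  rw [norm_ev, mul_one] at h3
  rw [norm_pt, pt, ac_cross]
  calc _ ≤ 3 * nm (dl (ι μ)) * ‖v ⨯₃ ev (jm μ)‖ := norm_ac_le _ _
    _ ≤ 3 * Real.exp (L + R) * (2 * ‖v‖) := by gcongr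
    _ = (6 * Real.exp (2 * R) / θ * Real.exp (-3 * L))
        * (θ * Real.exp (2 * L) * ‖v‖ * Real.exp (2 * L - R)) := by
      rw [show L + R = 2 * R + -3 * L + 2 * L + (2 * L - R) by ring, Real.exp_add, Real.exp_add,
        Real.exp_add]
      field_simp
      ring
    _ ≤ _ := by gcongr

theorem close_pt {f : V → ℂ} (hf : Hom0 f) (hc : ContinuousOn f {0}ᶜ) (R : ℝ) {θ ε : ℝ}
    (hθ : 0 < θ) (hε : 0 < ε) : ∀ᶠ L in atTop, ∀ μ ∈ Sh L R, ∀ v : V, v ≠ 0 →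
      θ * Real.exp (2 * L) * ‖v‖ ≤ ‖ac (ι μ) v‖ → ‖f (ac (ι μ) v) - f (pt μ)‖ ≤ ε := by
  obtain ⟨δ, hδ, h⟩ := hf.unif hc hε
  have ht : Tendsto (fun L : ℝ => 6 * Real.exp (2 * R) / θ * Real.exp (-3 * L)) atTop (𝓝 0) := by
    simpa using (Real.tendsto_exp_atBot.comp
      (tendsto_id.const_mul_atTop_of_neg (r := (-3 : ℝ)) (by norm_num))).const_mul
        (6 * Real.exp (2 * R) / θ)
  filter_upwards [ht.eventually (ge_mem_nhds hδ)] with L hL μ hμ v hv h1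
  exact h _ _ (ac_ne_zero _ hv) (pt_ne_zero μ) ((cross_pt_le hθ hμ hv h1).trans (by gcongr))

theorem close_pt_left {f : V → ℂ} (hf : Hom0 f) (hc : ContinuousOn f {0}ᶜ) (ν : Γ) (R : ℝ) {ε : ℝ}
    (hε : 0 < ε) : ∀ᶠ L in atTop, ∀ μ ∈ Sh L R,
      ‖f (ac (ι μ) (ev (jm (ν * μ)))) - f (pt μ)‖ ≤ ε := by
  have p1 := nm_pos (ι ν)
  have p2 := nm_pos (ι ν)⁻¹
  filter_upwards [close_pt hf hc R (θ := Real.exp (-R) / (9 * nm (ι ν)⁻¹ * nm (ι ν)))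
    (by positivity) hε] with L hL μ hμ
  refine hL μ hμ _ (ev_ne_zero _) ?_
  have h1 := Sh.le_nm hμ
  have h2 := nm_mul_le (ι ν)⁻¹ (ι (ν * μ))
  have h3 := norm_ac_le (ι ν) (ac (ι μ) (ev (jm (ν * μ))))
  rw [← ac_mul, ← map_mul, ← pt, norm_pt] at h3
  rw [map_mul, inv_mul_cancel_left, ← map_mul] at h2
  rw [norm_ev, mul_one, div_mul_eq_mul_div, ← Real.exp_add, div_le_iff₀ (by positivity),
    neg_add_eq_sub]
  nlinarith [mul_le_mul_of_nonneg_left h3 p2.le]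

/-- right slow variation of the attracting point on shells -/
theorem osc_pt {f : V → ℂ} (hf : Hom0 f) (hc : ContinuousOn f {0}ᶜ) (ν : Γ) (R : ℝ) {ε : ℝ}
    (hε : 0 < ε) : ∀ᶠ L in atTop, ∀ μ ∈ Sh L R, ‖f (pt (μ * ν)) - f (pt μ)‖ ≤ ε := by
  have p1 := nm_pos (ι ν)
  have p2 := nm_pos (ι ν)⁻¹
  filter_upwards [close_pt hf hc R (θ := Real.exp (-R) / (3 * nm (ι ν)⁻¹ * nm (ι ν)))
    (by positivity) hε] with L hL μ hμ
  have e : pt (μ * ν) = ac (ι μ) (ac (ι ν) (ev (jm (μ * ν)))) := by rw [pt, map_mul, ac_mul]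
  rw [e]
  refine hL μ hμ _ (ac_ne_zero _ (ev_ne_zero _)) ?_
  have h1 := Sh.le_nm hμ
  have h2 := nm_mul_le (ι (μ * ν)) (ι ν)⁻¹
  rw [map_mul, mul_inv_cancel_right, ← map_mul] at h2
  rw [← e, norm_pt]
  calc _ ≤ Real.exp (-R) / (3 * nm (ι ν)⁻¹ * nm (ι ν)) * Real.exp (2 * L) * nm (ι ν) := by
        gcongr; exact norm_ac_ev_le _ _
    _ = Real.exp (2 * L - R) / (3 * nm (ι ν)⁻¹) := by
        rw [← neg_add_eq_sub, Real.exp_add]; field_simp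
    _ ≤ _ := by rw [div_le_iff₀ (by positivity)]; linarith

/-- left equivariance of the attracting point on shells -/
theorem cov_pt {f : V → ℂ} (hf : Hom0 f) (hc : ContinuousOn f {0}ᶜ) (ν : Γ) (R : ℝ) {ε : ℝ}
    (hε : 0 < ε) : ∀ᶠ L in atTop, ∀ μ ∈ Sh L R, ‖f (pt (ν * μ)) - f (ac (ι ν) (pt μ))‖ ≤ ε := by
  filter_upwards [close_pt_left (hf.ac (ι ν))
    (hc.comp (continuous_ac _).continuousOn fun a ha => ac_ne_zero _ ha) ν R hε] with L hL μ hμ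
  rw [pt, map_mul, ac_mul]
  exact hL μ hμ

/-- the norm cocycle on shells -/
theorem cov_nm (ν : Γ) (R : ℝ) {ε : ℝ} (hε : 0 < ε) : ∀ᶠ L in atTop, ∀ μ ∈ Sh L R,
    |Real.log (nm (ι (ν * μ))) - Real.log (nm (ι μ)) - Real.log ‖ac (ι ν) (nrm (pt μ))‖| ≤ ε := by
  have hf : Hom0 fun a => ((Real.log (‖ac (ι ν) a‖ / ‖a‖) : ℝ) : ℂ) := fun z hz a => by
    simp only [ac_smul, norm_smul, mul_div_mul_left _ _ (norm_ne_zero_iff.2 hz)]
  have hc : ContinuousOn (fun a => ((Real.log (‖ac (ι ν) a‖ / ‖a‖) : ℝ) : ℂ)) {0}ᶜ :=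
    Complex.continuous_ofReal.comp_continuousOn (ContinuousOn.log
      (ContinuousOn.div (by fun_prop) (by fun_prop) fun a ha => norm_ne_zero_iff.2 ha)
      fun a ha => div_ne_zero (norm_ne_zero_iff.2 (ac_ne_zero _ ha)) (norm_ne_zero_iff.2 ha))
  filter_upwards [close_pt_left hf hc ν R hε] with L hL μ hμ
  have h := hL μ hμ
  have n1 : 0 < ‖ac (ι ν) (pt μ)‖ := norm_pos_iff.2 (ac_ne_zero _ (pt_ne_zero μ))
  have n2 : 0 < ‖ac (ι μ) (ev (jm (ν * μ)))‖ := norm_pos_iff.2 (ac_ne_zero _ (ev_ne_zero _))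
  have h1 := Real.log_le_log n2 (norm_ac_ev_le _ _)
  have h2 : Real.log ‖ac (ι ν) (pt μ)‖ ≤ Real.log (nm (ι (ν * μ))) := by
    refine Real.log_le_log n1 ?_
    rw [pt, ← ac_mul, ← map_mul]; exact norm_ac_ev_le _ _
  rw [← Complex.ofReal_sub, Complex.norm_real, Real.norm_eq_abs, ← ac_mul, ← map_mul, ← pt,
    norm_pt, norm_pt, Real.log_div (nm_pos _).ne' n2.ne', Real.log_div n1.ne' (nm_pos _).ne',
    abs_le] at h
  rw [nrm, ac_smul, norm_smul, norm_inv, norm_norm, norm_pt,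
    Real.log_mul (inv_ne_zero (nm_pos _).ne') n1.ne', Real.log_inv, abs_le]
  constructor <;> linarith [h.2]

theorem mul_mem_Sh (ν : Γ) : ∃ D : ℝ, ∀ L R μ, μ ∈ Sh L R →
    ν * μ ∈ Sh L (R + D) ∧ μ * ν ∈ Sh L (R + D) := by
  refine ⟨Real.log (3 * max (nm (ι ν)) (nm (ι ν)⁻¹)), fun L R μ hμ => ?_⟩
  obtain ⟨h1, h2⟩ := abs_log_nm_mul_sub_le (ι μ) (ι ν)
  obtain ⟨h3, h4⟩ := abs_log_nm_mul_sub_le (ι μ⁻¹) (ι ν)⁻¹
  obtain ⟨h5, h6⟩ := hμ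
  rw [inv_inv, max_comm, ← map_inv, ← map_mul, ← _root_.mul_inv_rev, map_inv ι ν] at h3 h4
  rw [← map_mul] at h1 h2
  rw [abs_le] at h1 h2 h3 h4 h5
  exact ⟨⟨abs_le.2 ⟨by linarith, by linarith⟩, by linarith⟩,
    ⟨abs_le.2 ⟨by linarith, by linarith⟩, by linarith⟩⟩

/-- a covector `ac (dl μ) b` that is not incident to the attracting point is contracted -/
theorem norm_ac_dl_le {L R θ : ℝ} (hθ : 0 < θ) {μ : Γ} (hμ : μ ∈ Sh L R) {b : V}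
    (h : θ * (‖ac (ι (dl μ)) b‖ * ‖pt μ‖) ≤ |ac (ι (dl μ)) b ⬝ᵥ pt μ|) :
    ‖ac (ι (dl μ)) b‖ ≤ Real.exp R / θ * Real.exp (-2 * L) * ‖b‖ := by
  have h1 := Sh.le_nm hμ
  rw [norm_pt, dotProduct_comm, pt] at h
  conv_rhs at h => rw [ι_dl, ac_dot_ac_dl, ev_dot]
  have h2 : θ * (‖ac (ι (dl μ)) b‖ * Real.exp (2 * L - R)) ≤ ‖b‖ :=
    le_trans (by gcongr) (h.trans (norm_le_pi_norm b _))
  calc _ = Real.exp R / θ * Real.exp (-2 * L)
        * (θ * (‖ac (ι (dl μ)) b‖ * Real.exp (2 * L - R))) := by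
        have : Real.exp R * Real.exp (-2 * L) * Real.exp (2 * L - R) = 1 := by
          rw [← Real.exp_add, ← Real.exp_add, ← Real.exp_zero]; congr 1; ring
        generalize Real.exp (-2 * L) = x at this ⊢
        field_simp
        linear_combination (-‖ac (ι (dl μ)) b‖) * this
    _ ≤ _ := by gcongr

/-- **overlap count** -/
theorem overlap (R θ : ℝ) : ∃ N : ℕ, ∀ (L : ℝ) (b : V), b ≠ 0 → ∀ F : Finset Γ,
    (∀ μ ∈ F, μ ∈ Sh L R ∧ ‖ac (ι (dl μ)) b‖ ≤ θ * Real.exp (-2 * L) * ‖b‖) → F.card ≤ N := by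
  refine ⟨nbox (6 * Real.exp (2 * R) * θ), fun L b hb F hF => ?_⟩
  have := count_line F dl (fun μ _ μ' _ e => by rw [← dl_dl μ, e, dl_dl])
    (A := Real.exp (L + R)) (B := θ * Real.exp (-2 * L)) hb fun μ hμ =>
      ⟨(nm_le_iff (Real.exp_pos _).le).1 (by rw [ι_dl]; exact Sh.nm_dl_le (hF μ hμ).1),
        (hF μ hμ).2⟩
  convert this using 2
  rw [← Real.exp_nat_mul, show 2 * R = (2 : ℕ) * (L + R) + -2 * L by push_cast; ring,
    Real.exp_add]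
  ring

end Crest.Agent.N111
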