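import Crest.Agent.N111.Lib.Poly

/-! # Row 111: polymeasures, supports, strong integrals, and the well-definedness of multiple
operator integrals (API; fill the proofs IN PLACE). -/

set_option autoImplicit false
set_option linter.unusedSectionVars false
set_option linter.unusedVariables false

namespace Crest.Agent.N111

open MeasureTheory Topology Filter
open scoped InnerProductSpace

variable {Y K κ : Type} [MeasurableSpace Y] [NormedAddCommGroup K] [InnerProductSpace ℂ K]
  [CompleteSpace K] [Fintype κ] [DecidableEq κ]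

variable {W W' : (κ → Y → ℂ) → K →L[ℂ] K}

theorem IsPoly.eq_zero_of_slot (h : IsPoly W) {f : κ → Y → ℂ} (hf : ∀ k, BM (f k)) {i : κ}
    (h0 : ∀ y, f i y = 0) : W f = 0 := by
  have h1 := h.smul f i 0 (f i) hf (hf i)
  have h2 : (fun y => 0 * f i y) = f i := funext fun y => by rw [zero_mul, h0]
  rwa [h2, Function.update_eq_self, zero_smul] at h1

theorem IsPoly.map_smul_finset (h : IsPoly W) {f : κ → Y → ℂ} (hf : ∀ k, BM (f k)) (a : κ → ℂ)
    (s : Finset κ) :
    W (fun k y => (if k ∈ s then a k else 1) * f k y) = (∏ k ∈ s, a k) • W f := by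
  induction s using Finset.induction_on with
  | empty => simp
  | insert i s hi ih =>
    have h1 := h.smul (fun k y => (if k ∈ s then a k else 1) * f k y) i (a i) (f i)
      (fun k => (hf k).const_mul _) (hf i)
    have h2 : Function.update (fun k y => (if k ∈ s then a k else 1) * f k y) i (f i)
        = fun k y => (if k ∈ s then a k else 1) * f k y := by
      refine Function.update_eq_iff.2 ⟨?_, fun _ _ => rfl⟩
      funext y; simp [hi]
    rw [h2, ih] at h1
    rw [Finset.prod_insert hi, mul_smul, ← h1]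
    congr 1
    refine (Function.update_eq_iff.2 ⟨?_, fun k hk => ?_⟩).symm
    · funext y; simp
    · funext y; simp [hk]

theorem IsPoly.map_smul_univ (h : IsPoly W) {f : κ → Y → ℂ} (hf : ∀ k, BM (f k)) (a : κ → ℂ) :
    W (fun k y => a k * f k y) = (∏ k, a k) • W f := by
  simpa using h.map_smul_finset hf a Finset.univ

theorem exists_bound_pi {f : κ → Y → ℂ} (hf : ∀ k, BM (f k)) :
    ∃ C, 0 ≤ C ∧ ∀ k y, ‖f k y‖ ≤ C := by
  choose C hC0 hC using fun k => (hf k).exists_nonneg
  exact ⟨∑ k, C k, Finset.sum_nonneg fun k _ => hC0 k, fun k y =>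
    (hC k y).trans (Finset.single_le_sum (fun k _ => hC0 k) (Finset.mem_univ k))⟩

section top
variable [MetricSpace Y] [ProperSpace Y] [BorelSpace Y]

/-- a measurable quantisation of a compact set -/
theorem exists_quant {L : Set Y} (hL : IsCompact L) {δ : ℝ} (hδ : 0 < δ) :
    ∃ (t : Finset Y) (q : Y → Y), Measurable q ∧ (↑t : Set Y) ⊆ L ∧
      ∀ y ∈ L, q y ∈ t ∧ dist (q y) y < δ := by
  classical
  rcases L.eq_empty_or_nonempty with rfl | ⟨y₀, hy₀⟩
  · exact ⟨∅, id, measurable_id, by simp, by simp⟩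
  obtain ⟨t, htL, ht, hc⟩ := finite_cover_balls_of_compact hL hδ
  let l := ht.toFinset.toList
  let e : ℕ → Y := fun n => l.getD n y₀
  have he : ∀ n, e n ∈ insert y₀ ht.toFinset := fun n => by
    by_cases hn : n < l.length
    · refine Finset.mem_insert_of_mem (Finset.mem_toList.1 ?_)
      simp only [e, List.getD_eq_getElem _ _ hn]
      exact List.getElem_mem hn
    · simp only [e, List.getD_eq_default _ _ (not_lt.1 hn)]
      exact Finset.mem_insert_self _ _
  refine ⟨insert y₀ ht.toFinset, SimpleFunc.nearestPt e l.length, SimpleFunc.measurable _, ?_,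
    fun y hy => ⟨he _, ?_⟩⟩
  · intro a ha
    rcases Finset.mem_insert.1 (Finset.mem_coe.1 ha) with rfl | ha
    exacts [hy₀, htL (ht.mem_toFinset.1 ha)]
  · obtain ⟨a, ha, hya⟩ := Set.mem_iUnion₂.1 (hc hy)
    obtain ⟨n, hn, hna⟩ := List.getElem_of_mem (Finset.mem_toList.2 (ht.mem_toFinset.2 ha) : a ∈ l)
    have h1 := SimpleFunc.edist_nearestPt_le e y hn.le
    have h2 : e n = a := (List.getD_eq_getElem _ _ hn).trans hna
    rw [h2, edist_dist, edist_dist, ENNReal.ofReal_le_ofReal_iff dist_nonneg] at h1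
    exact h1.trans_lt (by rwa [Metric.mem_ball, dist_comm] at hya)

theorem exists_mono_compact {O : Set Y} (h : IsSigmaCompact O) :
    ∃ L : ℕ → Set Y, (∀ n, IsCompact (L n)) ∧ (∀ n, L n ⊆ O) ∧ ∀ y ∈ O, ∀ᶠ n in atTop, y ∈ L n := by
  obtain ⟨L, hL, rfl⟩ := h
  refine ⟨Set.accumulate L, isCompact_accumulate hL, fun n => Set.accumulate_subset_iUnion n,
    fun y hy => ?_⟩
  obtain ⟨n, hn⟩ := Set.mem_iUnion.1 hy
  exact (eventually_ge_atTop n).mono fun m hm => Set.subset_accumulate.trans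
    (Set.monotone_accumulate hm) hn

theorem exists_null_ball {S : Set (κ → Y)} (hS : IsCompact S) (hd : ∀ z ∈ S, z ∉ supp W) :
    ∃ δ > (0 : ℝ), ∀ z ∈ S, NullOn W fun k => Metric.ball (z k) δ := by
  have h1 : ∀ z : S, ∃ O : κ → Set Y, (∀ k, O k ∈ 𝓝 (z.1 k)) ∧ NullOn W O := fun z => by
    have := hd z z.2
    simp only [supp, Set.mem_ofPred_eq, not_forall, not_not] at this
    obtain ⟨O, h1, h2⟩ := this
    exact ⟨O, h1, h2⟩
  choose O hO hN using h1
  obtain ⟨δ, hδ, h2⟩ := lebesgue_number_lemma_of_metric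
    (c := fun z : S => interior (Set.pi Set.univ (O z))) hS (fun _ => isOpen_interior)
    fun z hz => Set.mem_iUnion.2 ⟨⟨z, hz⟩, mem_interior_iff_mem_nhds.2
      (set_pi_mem_nhds Set.finite_univ fun k _ => hO ⟨z, hz⟩ k)⟩
  refine ⟨δ, hδ, fun z hz => ?_⟩
  obtain ⟨z', h3⟩ := h2 z hz
  have h4 := h3.trans interior_subset
  rw [ball_pi _ hδ, Set.univ_pi_subset_univ_pi_iff] at h4
  rcases h4 with h4 | ⟨k, hk⟩
  · exact (hN z').mono h4
  · exact absurd hk (Metric.nonempty_ball.2 hδ).ne_empty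

/-- expansion along the cells of quantisations -/
theorem IsPoly.expand (h : IsPoly W) {L : κ → Set Y} (hL : ∀ k, MeasurableSet (L k))
    {t : κ → Finset Y} {q : κ → Y → Y} (hq : ∀ k, Measurable (q k))
    (ht : ∀ k, ∀ y ∈ L k, q k y ∈ t k) (g : κ → Y → ℂ) {f : κ → Y → ℂ} (hf : ∀ k, BM (f k)) :
    W (fun k y => ic (L k) y * g k (q k y) * f k y) = ∑ r ∈ Fintype.piFinset t,
      (∏ k, g k (r k)) • W fun k y => ic (L k ∩ q k ⁻¹' {r k}) y * f k y := by
  classical
  have hb : ∀ k a, BM fun y => ic (L k ∩ q k ⁻¹' {a}) y * f k y := fun k a =>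
    (BM.ic ((hL k).inter (hq k (measurableSet_singleton a)))).mul (hf k)
  have h1 := h.map_sum t (f := fun k a y => g k a * (ic (L k ∩ q k ⁻¹' {a}) y * f k y))
    fun k a => (hb k a).const_mul _
  simp only [fun r : κ → Y => h.map_smul_univ (fun k => hb k (r k)) fun k => g k (r k)] at h1
  rw [← h1]
  congr 1
  funext k y
  by_cases hy : y ∈ L k
  · rw [Finset.sum_eq_single_of_mem (q k y) (ht k y hy)]
    · simp [hy]
    · intro a _ ha
      simp [Ne.symm ha]
  · simp [hy]

theorem isClosed_supp : IsClosed (supp W) := by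
  refine isOpen_compl_iff.1 (isOpen_iff_mem_nhds.2 fun z hz => ?_)
  simp only [supp, Set.mem_compl_iff, Set.mem_ofPred_eq, not_forall, not_not] at hz
  obtain ⟨O, h1, h2⟩ := hz
  have h3 : ∀ᶠ z' in 𝓝 z, ∀ k, O k ∈ 𝓝 (z' k) := eventually_all.2 fun k =>
    (continuous_apply k).continuousAt.eventually (eventually_mem_nhds_iff.2 (h1 k))
  exact h3.mono fun z' hz' hm => hm O hz' h2

/-- **support lemma** -/
theorem IsPoly.nullOn_of_disjoint (h : IsPoly W) {O : κ → Set Y} (hO : ∀ k, IsSigmaCompact (O k))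
    (hd : ∀ z, (∀ k, z k ∈ O k) → z ∉ supp W) : NullOn W O := by
  classical
  intro f hf hf0
  choose L hL hLO hev using fun k => exists_mono_compact (hO k)
  obtain ⟨C, hC0, hC⟩ := exists_bound_pi hf
  have key : ∀ n, W (fun k y => ic (L k n) y * f k y) = 0 := fun n => by
    obtain ⟨δ, hδ, hn⟩ := exists_null_ball (W := W) (isCompact_univ_pi fun k => hL k n)
      fun z hz => hd z fun k => hLO k n (hz k trivial)
    choose t q hq htL hqt using fun k => exists_quant (hL k n) hδ
    have h1 := h.expand (fun k => (hL k n).measurableSet) hq (fun k y hy => (hqt k y hy).1)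
      (fun _ _ => 1) hf
    simp only [mul_one] at h1
    rw [h1]
    refine Finset.sum_eq_zero fun r hr => ?_
    rw [hn r (fun k _ => htL k (Fintype.mem_piFinset.1 hr k)) _ (fun k => (BM.ic
      ((hL k n).measurableSet.inter (hq k (measurableSet_singleton _)))).mul (hf k)), smul_zero]
    intro k y hy
    rw [ic_of_notMem, zero_mul]
    rintro ⟨h2, h3⟩
    have h4 := (hqt k y h2).2
    rw [show q k y = r k from h3, dist_comm] at h4
    exact hy h4
  ext1 η
  have h2 := h.lim (fun n k y => ic (L k n) y * f k y) f C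
    (fun n k => ((BM.ic (hL k n).measurableSet).mul (hf k)).meas)
    (fun n k y => by
      rw [norm_mul]
      exact (mul_le_of_le_one_left (norm_nonneg _) (norm_ic_le _ _)).trans (hC k y))
    (fun k y => by
      by_cases hy : y ∈ O k
      · exact tendsto_const_nhds.congr' ((hev k y hy).mono fun n hn => by simp [hn])
      · simp [hf0 k y hy]) η
  simp only [key] at h2
  exact tendsto_nhds_unique h2 tendsto_const_nhds
theorem isSigmaCompact_of_isOpen {O : Set Y} (h : IsOpen O) : IsSigmaCompact O := by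
  have := h.locallyCompactSpace
  exact isSigmaCompact_iff_sigmaCompactSpace.2 inferInstance
theorem isSigmaCompact_of_isClosed {O : Set Y} (h : IsClosed O) : IsSigmaCompact O :=
  isSigmaCompact_univ.of_isClosed_subset h (Set.subset_univ _)
theorem isSigmaCompact_inter {O O' : Set Y} (h : IsSigmaCompact O) (h' : IsSigmaCompact O') :
    IsSigmaCompact (O ∩ O') := by
  obtain ⟨L, hL, rfl⟩ := h
  obtain ⟨L', hL', rfl⟩ := h'
  rw [Set.iUnion_inter]
  refine isSigmaCompact_iUnion _ fun n => ?_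
  rw [Set.inter_iUnion]
  exact isSigmaCompact_iUnion_of_isCompact _ fun m => (hL n).inter (hL' m)
/-- if `W` is concentrated on the open box `Z` and has no support point there, it vanishes -/
theorem IsPoly.eq_zero_of_conc (h : IsPoly W) {Z : κ → Set Y} (hZ : ∀ k, IsOpen (Z k))
    (hc : ∀ f, (∀ k, BM (f k)) → W f = W fun k y => ic (Z k) y * f k y)
    (hd : ∀ z, (∀ k, z k ∈ Z k) → z ∉ supp W) : ∀ f, (∀ k, BM (f k)) → W f = 0 := fun f hf => by
  rw [hc f hf]
  exact h.nullOn_of_disjoint (fun k => isSigmaCompact_of_isOpen (hZ k)) hd _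
    (fun k => (BM.ic (hZ k).measurableSet).mul (hf k)) fun k y hy => by simp [hy]
/-- the support lies in any closed box on which `W` is concentrated -/
theorem mem_of_mem_supp {Z : κ → Set Y} (hZ : ∀ k, IsClosed (Z k))
    (hc : ∀ f, (∀ k, BM (f k)) → ∀ i, (∀ y ∈ Z i, f i y = 0) → W f = 0) {z : κ → Y}
    (hz : z ∈ supp W) (k : κ) : z k ∈ Z k := by
  by_contra hk
  refine hz (Function.update (fun _ => Set.univ) k (Z k)ᶜ) (fun i => ?_) fun f hf h0 =>
    hc f hf k fun y hy => h0 k y (by simpa using hy)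
  by_cases hi : i = k
  · subst hi
    rw [Function.update_self]
    exact (hZ i).isOpen_compl.mem_nhds hk
  · rw [Function.update_of_ne hi]
    exact univ_mem

/-- a representation `k(z) = ∫ c ω ∏ φ ω i (z i)` of a kernel, continuous on the open box `Z` -/
structure KRep (Ω : Type) [TopologicalSpace Ω] [MeasurableSpace Ω] (m : Measure Ω) (c : Ω → ℂ)
    (φ : Ω → κ → Y → ℂ) (Z : κ → Set Y) : Prop where
  int : Integrable c m
  meas : ∀ ω k, Measurable (φ ω k)
  bd : ∀ ω k y, ‖φ ω k y‖ ≤ 1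
  contω : ∀ k y, Continuous fun ω => φ ω k y
  contY : ∀ ω k, ContinuousOn (φ ω k) (Z k)

/-- approximation of a multiple operator integral by Riemann sums -/
theorem IsPoly.tendsto_riemann {Ω : Type} [TopologicalSpace Ω] [SecondCountableTopology Ω]
    [MeasurableSpace Ω] [OpensMeasurableSpace Ω] (h : IsPoly W) {Z : κ → Set Y}
    (hZ : ∀ k, IsOpen (Z k))
    (hc : ∀ f, (∀ k, BM (f k)) → W f = W fun k y => ic (Z k) y * f k y)
    {m : Measure Ω} {c : Ω → ℂ} {φ : Ω → κ → Y → ℂ} (h₁ : KRep Ω m c φ Z)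
    {L : κ → ℕ → Set Y} (hL : ∀ k n, MeasurableSet (L k n)) (hLZ : ∀ k n, L k n ⊆ Z k)
    (hev : ∀ k, ∀ y ∈ Z k, ∀ᶠ n in atTop, y ∈ L k n) {t : ℕ → κ → Finset Y}
    {q : ℕ → κ → Y → Y} (hq : ∀ n k, Measurable (q n k))
    (htL : ∀ n k, (↑(t n k) : Set Y) ⊆ L k n)
    (hqt : ∀ n k, ∀ y ∈ L k n, q n k y ∈ t n k ∧ dist (q n k y) y < 1 / ((n : ℝ) + 1)) (η : K) :
    Tendsto (fun n => ∑ r ∈ Fintype.piFinset (t n), (∫ ω, c ω * ∏ k, φ ω k (r k) ∂m) •
      W (fun k y => ic (L k n ∩ q n k ⁻¹' {r k}) y * 1) η) atTop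
      (𝓝 (sInt m c (fun ω => W (φ ω)) η)) := by
  obtain ⟨C, hC0, hC⟩ := h.norm_le
  have hm : ∀ n ω k, Measurable fun y => ic (L k n) y * φ ω k (q n k y) * 1 := fun n ω k =>
    ((BM.ic (hL k n)).meas.mul ((h₁.meas ω k).comp (hq n k))).mul measurable_const
  have hb : ∀ n ω k y, ‖ic (L k n) y * φ ω k (q n k y) * 1‖ ≤ 1 := fun n ω k y => by
    rw [mul_one, norm_mul]
    exact mul_le_one₀ (norm_ic_le _ _) (norm_nonneg _) (h₁.bd _ _ _)
  have hs : ∀ n, SCont fun ω => W fun k y => ic (L k n) y * φ ω k (q n k y) * 1 := fun n =>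
    h.sCont (hm n) (hb n) fun k y => (continuous_const.mul (h₁.contω k _)).mul continuous_const
  rw [sInt_apply h₁.int (h.sCont h₁.meas h₁.bd h₁.contω)]
  have h1 : Tendsto (fun n => ∫ ω, c ω • W (fun k y => ic (L k n) y * φ ω k (q n k y) * 1) η ∂m)
      atTop (𝓝 (∫ ω, c ω • W (φ ω) η ∂m)) := by
    refine tendsto_integral_of_dominated_convergence (fun ω => ‖c ω‖ * (C * ‖η‖))
      (fun n => ((hs n).integrable h₁.int η).1) (h₁.int.norm.mul_const _)
      (fun n => Eventually.of_forall fun ω => ?_) (Eventually.of_forall fun ω => ?_)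
    · rw [norm_smul]
      gcongr
      refine (ContinuousLinearMap.le_opNorm _ _).trans ?_
      gcongr
      simpa using hC _ (fun _ => 1) (hm n ω) (fun _ => zero_le_one) (hb n ω)
    · refine Tendsto.const_smul ?_ _
      rw [hc (φ ω) fun k => BM.of_le (h₁.meas ω k) (h₁.bd ω k)]
      refine h.lim _ _ 1 (fun n k => hm n ω k) (fun n k y => hb n ω k y) (fun k y => ?_) η
      by_cases hy : y ∈ Z k
      · have h2 : Tendsto (fun n => q n k y) atTop (𝓝 y) := by
          rw [tendsto_iff_dist_tendsto_zero]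
          exact squeeze_zero' (Eventually.of_forall fun _ => dist_nonneg)
            ((hev k y hy).mono fun n hn => (hqt n k y hn).2.le)
            tendsto_one_div_add_atTop_nhds_zero_nat
        have h3 := ((h₁.contY ω k).continuousAt ((hZ k).mem_nhds hy)).tendsto.comp h2
        rw [ic_of_mem hy, one_mul]
        exact h3.congr' ((hev k y hy).mono fun n hn => by simp [hn])
      · have : ∀ n, y ∉ L k n := fun n hn => hy (hLZ k n hn)
        simp [hy, this]
  refine h1.congr fun n => ?_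
  have hi : ∀ r : κ → Y, Integrable (fun ω => c ω * ∏ k, φ ω k (r k)) m := fun r =>
    h₁.int.mul_bdd (c := 1) (continuous_finsetProd _ fun k _ => h₁.contω k _).aestronglyMeasurable
      (Eventually.of_forall fun ω => by
        rw [norm_prod]
        exact Finset.prod_le_one (fun _ _ => norm_nonneg _) fun k _ => h₁.bd _ _ _)
  simp only [fun ω => h.expand (fun k => hL k n) (hq n) (fun k y hy => (hqt n k y hy).1) (φ ω)
    (f := fun _ _ => 1) fun _ => BM.const 1, sum_apply, smul_apply,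
    Finset.smul_sum, smul_smul]
  rw [integral_finsetSum _ fun r _ => (hi r).smul_const _]
  exact Finset.sum_congr rfl fun r _ => integral_smul_const _ _

/-- **WD**: two representations whose kernels agree near the support give the same operator -/
theorem IsPoly.wd {Ω₁ Ω₂ : Type} [TopologicalSpace Ω₁] [SecondCountableTopology Ω₁]
    [MeasurableSpace Ω₁] [OpensMeasurableSpace Ω₁] [TopologicalSpace Ω₂]
    [SecondCountableTopology Ω₂] [MeasurableSpace Ω₂] [OpensMeasurableSpace Ω₂] (h : IsPoly W)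
    {Z : κ → Set Y} (hZ : ∀ k, IsOpen (Z k))
    (hc : ∀ f, (∀ k, BM (f k)) → W f = W fun k y => ic (Z k) y * f k y)
    {m₁ : Measure Ω₁} {c₁ : Ω₁ → ℂ} {φ₁ : Ω₁ → κ → Y → ℂ} (h₁ : KRep Ω₁ m₁ c₁ φ₁ Z)
    {m₂ : Measure Ω₂} {c₂ : Ω₂ → ℂ} {φ₂ : Ω₂ → κ → Y → ℂ} (h₂ : KRep Ω₂ m₂ c₂ φ₂ Z)
    {O : Set (κ → Y)} (hO : IsOpen O) (hs : ∀ z ∈ supp W, (∀ k, z k ∈ Z k) → z ∈ O)
    (hk : ∀ z ∈ O, (∀ k, z k ∈ Z k) →
      ∫ ω, c₁ ω * ∏ k, φ₁ ω k (z k) ∂m₁ = ∫ ω, c₂ ω * ∏ k, φ₂ ω k (z k) ∂m₂) :
    sInt m₁ c₁ (fun ω => W (φ₁ ω)) = sInt m₂ c₂ fun ω => W (φ₂ ω) := by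
  classical
  choose L hL hLZ hev using fun k => exists_mono_compact (isSigmaCompact_of_isOpen (hZ k))
  have h1 : ∀ n, ∃ δ > (0 : ℝ), ∀ z ∈ Set.pi Set.univ (fun k => L k n) \ O,
      NullOn W fun k => Metric.ball (z k) δ := fun n =>
    exists_null_ball ((isCompact_univ_pi fun k => hL k n).diff hO) fun z hz hz' =>
      hz.2 (hs z hz' fun k => hLZ k n (hz.1 k trivial))
  choose δ hδ hN using h1
  have h2 : ∀ n k, ∃ (t : Finset Y) (q : Y → Y), Measurable q ∧ (↑t : Set Y) ⊆ L k n ∧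
      ∀ y ∈ L k n, q y ∈ t ∧ dist (q y) y < min (δ n) (1 / ((n : ℝ) + 1)) := fun n k =>
    exists_quant (hL k n) (lt_min (hδ n) Nat.one_div_pos_of_nat)
  choose t q hq htL hqt using h2
  ext1 η
  have e₁ := h.tendsto_riemann hZ hc h₁ (fun k n => (hL k n).measurableSet) hLZ hev hq htL
    (fun n k y hy => ⟨(hqt n k y hy).1, (hqt n k y hy).2.trans_le (min_le_right _ _)⟩) η
  have e₂ := h.tendsto_riemann hZ hc h₂ (fun k n => (hL k n).measurableSet) hLZ hev hq htL
    (fun n k y hy => ⟨(hqt n k y hy).1, (hqt n k y hy).2.trans_le (min_le_right _ _)⟩) η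
  refine tendsto_nhds_unique e₁ (e₂.congr fun n => Finset.sum_congr rfl fun r hr => ?_)
  have hr' : ∀ k, r k ∈ L k n := fun k => htL n k (Fintype.mem_piFinset.1 hr k)
  by_cases hrO : r ∈ O
  · rw [hk r hrO fun k => hLZ k n (hr' k)]
  · rw [hN n r ⟨fun k _ => hr' k, hrO⟩ _ (fun k => (BM.ic
      ((hL k n).measurableSet.inter (hq n k (measurableSet_singleton _)))).mul (BM.const 1))]
    · simp
    intro k y hy
    rw [ic_of_notMem, zero_mul]
    rintro ⟨h3, h4⟩
    have h5 := (hqt n k y h3).2.trans_le (min_le_left _ _)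
    rw [show q n k y = r k from h4, dist_comm] at h5
    exact hy h5

/-- WD against the constant kernel `a` -/
theorem IsPoly.wd_const {Ω : Type} [TopologicalSpace Ω] [SecondCountableTopology Ω]
    [MeasurableSpace Ω] [OpensMeasurableSpace Ω] (h : IsPoly W)
    {Z : κ → Set Y} (hZ : ∀ k, IsOpen (Z k))
    (hc : ∀ f, (∀ k, BM (f k)) → W f = W fun k y => ic (Z k) y * f k y)
    {m : Measure Ω} {c : Ω → ℂ} {φ : Ω → κ → Y → ℂ} (h₁ : KRep Ω m c φ Z)
    {O : Set (κ → Y)} (hO : IsOpen O) (hs : ∀ z ∈ supp W, (∀ k, z k ∈ Z k) → z ∈ O) (a : ℂ)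
    (hk : ∀ z ∈ O, (∀ k, z k ∈ Z k) → ∫ ω, c ω * ∏ k, φ ω k (z k) ∂m = a) :
    sInt m c (fun ω => W (φ ω)) = a • W fun _ _ => 1 := by
  have h₂ : KRep Unit (Measure.dirac ()) (fun _ => a) (fun _ (_ : κ) (_ : Y) => (1 : ℂ)) Z :=
    ⟨integrable_const _, fun _ _ => measurable_const, fun _ _ _ => by simp,
      fun _ _ => continuous_const, fun _ _ => continuousOn_const⟩
  rw [h.wd hZ hc h₁ h₂ hO hs fun z hz hz' => by simpa using hk z hz hz', sInt_const h₂.int]
  simp

end top

/-- the invariant of `±a` -/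
def sqv (a : V) : Fin 3 → Fin 3 → ℝ := fun i j => a i * a j

open Classical in
/-- a Borel section of `sqv` -/
noncomputable def sqs (M : Fin 3 → Fin 3 → ℝ) : V :=
  if M 0 0 ≠ 0 then fun i => M i 0 / √(M 0 0) else
    if M 1 1 ≠ 0 then fun i => M i 1 / √(M 1 1) else fun i => M i 2 / √(M 2 2)

theorem continuous_sqv : Continuous sqv := by unfold sqv; fun_prop

theorem sqv_neg (a : V) : sqv (-a) = sqv a := by funext i j; simp [sqv]

theorem measurable_sqs : Measurable sqs := by
  unfold sqs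
  refine Measurable.ite (measurableSet_eq_fun (by fun_prop) measurable_const).compl (by fun_prop)
    (Measurable.ite (measurableSet_eq_fun (by fun_prop) measurable_const).compl (by fun_prop)
      (by fun_prop))

theorem sqs_sqv (a : V) : sqs (sqv a) = a ∨ sqs (sqv a) = -a := by
  have key : ∀ j, a j ≠ 0 → (fun i => sqv a i j / √(sqv a j j)) = a ∨
      (fun i => sqv a i j / √(sqv a j j)) = -a := fun j hj => by
    simp only [sqv, Real.sqrt_mul_self_eq_abs]
    rcases lt_or_gt_of_ne hj with h | h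
    · right; funext i; rw [abs_of_neg h, Pi.neg_apply]; field_simp
    · left; funext i; rw [abs_of_pos h]; field_simp
  unfold sqs
  split_ifs with h0 h1
  · exact key 0 fun h => h0 (by simp [sqv, h])
  · exact key 1 fun h => h1 (by simp [sqv, h])
  · by_cases h2 : a 2 = 0
    · have h0' : a 0 = 0 := by simpa [sqv] using h0
      have h1' : a 1 = 0 := by simpa [sqv] using h1
      left; funext i; fin_cases i <;> simp [sqv, h0', h1', h2]
    · exact key 2 h2

theorem bm_vec2 {f g : Y → ℂ} (hf : BM f) (hg : BM g) : ∀ k, BM (![f, g] k) := fun k => by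
  fin_cases k
  exacts [hf, hg]

theorem update_vec2_zero {α : Type} (a b c : α) : Function.update ![a, b] 0 c = ![c, b] := by
  funext k; fin_cases k <;> simp

theorem update_vec2_one {α : Type} (a b c : α) : Function.update ![a, b] 1 c = ![a, c] := by
  funext k; fin_cases k <;> simp

theorem IsPoly.diag_aux {W : (Fin 2 → V → ℂ) → K →L[ℂ] K} (h : IsPoly W) {Z : Set V}
    (hZ : IsOpen Z) (hc : ∀ f, (∀ k, BM (f k)) → W f = W fun k y => ic Z y * f k y)
    (hs : ∀ z ∈ supp W, (∀ k, z k ∈ Z) → z 1 = z 0 ∨ z 1 = -z 0) {u f g : V → ℂ} (hu : BM u)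
    (hu' : Ev u) (hf : BM f) (hg : BM g) :
    W ![fun a => u a * f a, g] = W ![f, fun a => u a * g a] := by
  have hsq : ∀ z ∈ supp W, (∀ k, z k ∈ Z) → sqv (z 1) = sqv (z 0) := fun z hz hz' => by
    rcases hs z hz hz' with e | e <;> simp [e, sqv_neg]
  have null : ∀ A B : Set (Fin 3 → Fin 3 → ℝ), IsSigmaCompact (sqv ⁻¹' A) →
      IsSigmaCompact (sqv ⁻¹' B) → MeasurableSet A → MeasurableSet B → Disjoint A B →
      W ![fun a => f a * ic A (sqv a), fun a => g a * ic B (sqv a)] = 0 := by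
    intro A B hA hB mA mB hAB
    have hb := bm_vec2 (hf.mul ((BM.ic mA).comp continuous_sqv.measurable))
      (hg.mul ((BM.ic mB).comp continuous_sqv.measurable))
    rw [hc _ hb]
    refine h.nullOn_of_disjoint (O := ![Z ∩ sqv ⁻¹' A, Z ∩ sqv ⁻¹' B]) (fun k => ?_)
      (fun z hz hz' => ?_) _ (fun k => (BM.ic hZ.measurableSet).mul (hb k)) fun k y hy => ?_
    · fin_cases k
      exacts [isSigmaCompact_inter (isSigmaCompact_of_isOpen hZ) hA,
        isSigmaCompact_inter (isSigmaCompact_of_isOpen hZ) hB]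
    · have h0 : z 0 ∈ Z ∩ sqv ⁻¹' A := hz 0
      have h1 : z 1 ∈ Z ∩ sqv ⁻¹' B := hz 1
      have h2 := hsq z hz' fun k => by fin_cases k; exacts [h0.1, h1.1]
      exact Set.disjoint_left.1 hAB h0.2 (h2 ▸ h1.2)
    · by_cases hy' : y ∈ Z
      · fin_cases k
        · have : sqv y ∉ A := fun h => hy ⟨hy', h⟩
          simp [this]
        · have : sqv y ∉ B := fun h => hy ⟨hy', h⟩
          simp [this]
      · simp [hy']
  have p0 := (h.isPoly1 (bm_vec2 hf hg) 0).comp continuous_sqv.measurable hf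
  have p1 := (h.isPoly1 (bm_vec2 hf hg) 1).comp continuous_sqv.measurable hg
  simp only [update_vec2_zero, update_vec2_one] at p0 p1
  have key := p0.ext_pi p1 (BorelSpace.measurable_eq) isPiSystem_isOpen (by simp) (fun O hO => by
    have mO : MeasurableSet O := IsOpen.measurableSet hO
    have bO := (BM.ic mO).comp continuous_sqv.measurable
    have bO' := (BM.ic mO.compl).comp continuous_sqv.measurable
    have s1 := isSigmaCompact_of_isOpen (IsOpen.preimage continuous_sqv hO)
    have s2 := isSigmaCompact_of_isClosed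
      ((show IsOpen O from hO).isClosed_compl.preimage continuous_sqv)
    have a1 := h.add ![fun a => f a * ic O (sqv a), g] 1 _ _ (bm_vec2 (hf.mul bO) hg)
      (hg.mul bO) (hg.mul bO')
    have a0 := h.add ![f, fun a => g a * ic O (sqv a)] 0 _ _ (bm_vec2 hf (hg.mul bO))
      (hf.mul bO) (hf.mul bO')
    simp only [update_vec2_zero, update_vec2_one, ic_compl, ← mul_add, add_sub_cancel,
      mul_one] at a0 a1
    have n1 := null O Oᶜ s1 s2 mO mO.compl disjoint_compl_right
    have n0 := null Oᶜ O s2 s1 mO.compl mO disjoint_compl_left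
    simp only [ic_compl] at n0 n1
    rw [a0, a1, n0, n1]) (fun M => u (sqs M)) (hu.comp measurable_sqs)
  have e : ∀ a, u (sqs (sqv a)) = u a := fun a => by
    rcases sqs_sqv a with e | e <;> rw [e]
    exact hu' a
  simpa only [e, mul_comm] using key

/-- **diagonal lemma** modulo `±` -/
theorem IsPoly.diag {W : (Fin 2 → V → ℂ) → K →L[ℂ] K} (h : IsPoly W)
    (hs : ∀ z ∈ supp W, z 1 = z 0 ∨ z 1 = -z 0) {u f g : V → ℂ} (hu : BM u) (hu' : Ev u)
    (hf : BM f) (hg : BM g) :
    W ![fun a => u a * f a, g] = W ![f, fun a => u a * g a] :=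
  h.diag_aux isOpen_univ (fun f _ => by simp) (fun z hz _ => hs z hz) hu hu' hf hg

/-- diagonal lemma when only nonzero support points are controlled -/
theorem IsPoly.diag' {W : (Fin 2 → V → ℂ) → K →L[ℂ] K} (h : IsPoly W)
    (hc : ∀ f, (∀ k, BM (f k)) → W f = W fun k y => ic {0}ᶜ y * f k y)
    (hs : ∀ z ∈ supp W, (∀ k, z k ≠ 0) → z 1 = z 0 ∨ z 1 = -z 0) {u f g : V → ℂ} (hu : BM u)
    (hu' : Ev u) (hf : BM f) (hg : BM g) :
    W ![fun a => u a * f a, g] = W ![f, fun a => u a * g a] :=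
  h.diag_aux isOpen_compl_singleton hc hs hu hu' hf hg

end Crest.Agent.N111
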