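import Crest.Agent.N111.Lib.Poly2

/-! # Row 111: polymeasures, supports, strong integrals, and the well-definedness of multiple
operator integrals (API; fill the proofs IN PLACE). -/

set_option autoImplicit false
set_option linter.unusedSectionVars false
set_option linter.unusedVariables false

namespace Crest.Agent.N111

open MeasureTheory Topology Filter
open scoped InnerProductSpace

variable {Y K κ : Type} [MeasurableSpace Y] [NormedAddCommGroup K] [InnerProductSpace ℂ K]
  [CompleteSpace K] [Fintype κ] [DecidableEq κ]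

variable {W W' : (κ → Y → ℂ) → K →L[ℂ] K}

/-- bound of a polymeasure on a box -/
def BdOn (W : (κ → Y → ℂ) → K →L[ℂ] K) (O : κ → Set Y) (M : ℝ) : Prop :=
  ∀ f : κ → Y → ℂ, (∀ k, Measurable (f k)) → (∀ k y, ‖f k y‖ ≤ 1) →
    (∀ k y, y ∉ O k → f k y = 0) → ‖W f‖ ≤ M

theorem IsPoly.bdOn_le (h : IsPoly W) {O : κ → Set Y} {M : ℝ} (hM : BdOn W O M) {f : κ → Y → ℂ}
    (hf : ∀ k, Measurable (f k)) {b : κ → ℝ} (hb : ∀ k, 0 < b k) (hfb : ∀ k y, ‖f k y‖ ≤ b k)
    (h0 : ∀ k y, y ∉ O k → f k y = 0) : ‖W f‖ ≤ (∏ k, b k) * M := by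
  have h1 : ∀ k y, ‖(b k : ℂ)⁻¹ * f k y‖ ≤ 1 := fun k y => by
    rw [norm_mul, norm_inv, Complex.norm_real, Real.norm_of_nonneg (hb k).le]
    exact inv_mul_le_one_of_le₀ (hfb k y) (hb k).le
  have h2 := h.map_smul_univ (f := fun k y => (b k : ℂ)⁻¹ * f k y)
    (fun k => ⟨(hf k).const_mul _, 1, h1 k⟩) fun k => b k
  simp only [fun k => mul_inv_cancel_left₀ (Complex.ofReal_ne_zero.2 (hb k).ne')] at h2
  have h3 : 0 ≤ ∏ k, b k := Finset.prod_nonneg fun k _ => (hb k).le
  rw [h2, ← Complex.ofReal_prod, norm_smul, Complex.norm_real, Real.norm_of_nonneg h3]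
  exact mul_le_mul_of_nonneg_left
    (hM _ (fun k => (hf k).const_mul _) h1 fun k y hy => by rw [h0 k y hy, mul_zero]) h3

theorem IsPoly.nullOn_of_contract (h : IsPoly W) {O : κ → Set Y}
    (H : ∀ M, 0 ≤ M → BdOn W O M → BdOn W O (M * (1 / 2))) : NullOn W O := by
  obtain ⟨C, hC⟩ := h.bdd
  have h1 : ∀ n : ℕ, BdOn W O (|C| * (1 / 2) ^ n) := fun n => by
    induction n with
    | zero => exact fun f h1 h2 _ => (hC f h1 h2).trans (by simpa using le_abs_self C)
    | succ n ih => rw [pow_succ, ← mul_assoc]; exact H _ (by positivity) ih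
  have h2 : BdOn W O 0 := fun f a b c => ge_of_tendsto' (by
    simpa using (tendsto_pow_atTop_nhds_zero_of_lt_one (r := (1 / 2 : ℝ)) (by norm_num)
      (by norm_num)).const_mul |C|) fun n => h1 n f a b c
  intro f hf h0
  obtain ⟨B, hB0, hB⟩ := exists_bound_pi hf
  simpa using h.bdOn_le h2 (fun k => (hf k).1) (b := fun _ => B + 1) (fun _ => by linarith)
    (fun k y => (hB k y).trans (by linarith)) h0

/-- telescoping estimate -/
theorem IsPoly.tele (h : IsPoly W) {O : κ → Set Y} {M B ε : ℝ} (hM0 : 0 ≤ M) (hM : BdOn W O M)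
    (hB : 1 ≤ B) (hε : 0 < ε) {u : κ → Y → ℂ} {l : κ → ℂ} (hu : ∀ k, Measurable (u k))
    (hub : ∀ k y, ‖u k y‖ ≤ B) (hl : ∀ k, ‖l k‖ ≤ B) (hul : ∀ k, ∀ y ∈ O k, ‖u k y - l k‖ ≤ ε)
    {f : κ → Y → ℂ} (hf : ∀ k, Measurable (f k)) (hf1 : ∀ k y, ‖f k y‖ ≤ 1)
    (h0 : ∀ k y, y ∉ O k → f k y = 0) :
    ‖W (fun k y => u k y * f k y) - (∏ k, l k) • W f‖ ≤
      Fintype.card κ * (ε * B ^ Fintype.card κ * M) := by
  have bf : ∀ k, BM (f k) := fun k => ⟨hf k, 1, hf1 k⟩
  have bu : ∀ k, BM (u k) := fun k => ⟨hu k, B, hub k⟩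
  let g : Finset κ → κ → Y → ℂ := fun s k y => (if k ∈ s then u k y else l k) * f k y
  have bg : ∀ s k, BM (g s k) := fun s k => by
    by_cases hk : k ∈ s
    · simpa only [g, if_pos hk] using (bu k).mul (bf k)
    · simpa only [g, if_neg hk] using (bf k).const_mul (l k)
  have key : ∀ s : Finset κ, ‖W (g s) - W (g ∅)‖ ≤ s.card * (ε * B ^ Fintype.card κ * M) := by
    intro s
    induction s using Finset.induction_on with
    | empty => simp
    | insert i s hi ih =>
      have bd := ((bu i).sub (BM.const (l i))).mul (bf i)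
      have h1 := h.add (g s) i _ _ (bg s) bd (bg s i)
      rw [Function.update_eq_self] at h1
      have h2 : g (insert i s) =
          Function.update (g s) i fun y => (u i y - l i) * f i y + g s i y := by
        refine (Function.update_eq_iff.2 ⟨?_, fun k hk => ?_⟩).symm
        · funext y; simp only [g, if_neg hi, Finset.mem_insert_self, if_true]; ring
        · funext y; simp [g, hk]
      have h3 := h.bdOn_le hM (f := Function.update (g s) i fun y => (u i y - l i) * f i y)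
        (b := Function.update (fun _ => B) i ε)
        (Function.forall_update_iff (g s) (fun _ v => Measurable v) |>.2 ⟨bd.1, fun k _ => (bg s k).1⟩)
        (Function.forall_update_iff _ (fun _ v => 0 < v) |>.2 ⟨hε, fun k _ => by linarith⟩)
        (fun k y => ?_) fun k y hy => ?_
      · rw [Finset.prod_update_of_mem (Finset.mem_univ i), Finset.prod_const] at h3
        have h4 : B ^ (Finset.univ \ {i}).card ≤ B ^ Fintype.card κ :=
          pow_le_pow_right₀ hB (Finset.card_le_univ _)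
        rw [h2, h1, add_sub_assoc, Finset.card_insert_of_notMem hi, Nat.cast_succ, add_one_mul,
          add_comm (_ * _)]
        exact (norm_add_le _ _).trans (add_le_add (h3.trans (by gcongr)) ih)
      · rcases eq_or_ne k i with rfl | hk
        · simp only [Function.update_self]
          by_cases hy : y ∈ O k
          · rw [norm_mul]
            exact (mul_le_of_le_one_right (norm_nonneg _) (hf1 k y)).trans (hul k y hy)
          · simp [h0 k y hy, hε.le]
        · simp only [Function.update_of_ne hk, g, norm_mul]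
          refine (mul_le_of_le_one_right (norm_nonneg _) (hf1 k y)).trans ?_
          split_ifs
          exacts [hub k y, hl k]
      · rcases eq_or_ne k i with rfl | hk
        · simp [h0 k y hy]
        · simp [Function.update_of_ne hk, g, h0 k y hy]
  simpa [g, h.map_smul_univ bf l] using key Finset.univ

theorem exists_eps {x c : ℝ} (hx : 0 ≤ x) (hc : 0 < c) : ∃ ε > (0 : ℝ), x * ε ≤ c :=
  ⟨c / (x + 1), by positivity, by rw [mul_div_assoc', div_le_iff₀ (by positivity)]; nlinarith⟩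

/-- **Neumann lemma**: a polynomial multiplier that does not vanish at `z` is injective near `z` -/
theorem IsPoly.not_mem_supp_of_mul [TopologicalSpace Y] [OpensMeasurableSpace Y] (h : IsPoly W)
    {α : Type} (s : Finset α) {a : α → ℂ} {u : α → κ → Y → ℂ} {z : κ → Y}
    (hu : ∀ r ∈ s, ∀ k, BM (u r k) ∧ ContinuousAt (u r k) (z k))
    (hne : ∑ r ∈ s, a r * ∏ k, u r k (z k) ≠ 0) {O : κ → Set Y} (hO : ∀ k, O k ∈ 𝓝 (z k))
    (h0 : NullOn (fun f => ∑ r ∈ s, a r • W fun k y => u r k y * f k y) O) : z ∉ supp W := by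
  classical
  obtain ⟨B, hB0, hB⟩ := exists_bound_pi (f := fun p : s × κ => u p.1 p.2) fun p => (hu _ p.1.2 _).1
  have hl := norm_pos_iff.2 hne
  obtain ⟨ε, hε, h1⟩ := exists_eps (x := (∑ r ∈ s, ‖a r‖) * Fintype.card κ *
    (B + 1) ^ Fintype.card κ) (by positivity) (half_pos hl)
  refine fun hz => hz (fun k => O k ∩ {y | ∀ r ∈ s, ‖u r k y - u r k (z k)‖ ≤ ε})
    (fun k => inter_mem (hO k) ((eventually_all_finset s).2 fun r hr => ?_))
    (h.nullOn_of_contract fun M hM0 hM f hf hf1 hf0 => ?_)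
  · exact (Metric.tendsto_nhds.1 (hu r hr k).2 ε hε).mono fun y hy => by
      rw [← dist_eq_norm]; exact hy.le
  have h2 := h0 f (fun k => ⟨hf k, 1, hf1 k⟩) fun k y hy => hf0 k y fun h => hy h.1
  refine le_of_mul_le_mul_left ?_ hl
  rw [← norm_smul, ← norm_neg, ← zero_sub, ← h2, Finset.sum_smul, ← Finset.sum_sub_distrib]
  refine (norm_sum_le_of_le s (n := fun r => ‖a r‖ * (Fintype.card κ *
    (ε * (B + 1) ^ Fintype.card κ * M))) fun r hr => ?_).trans ?_
  · rw [mul_smul, ← smul_sub, norm_smul]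
    exact mul_le_mul_of_nonneg_left (h.tele hM0 hM (by linarith) hε (fun k => (hu r hr k).1.1)
      (fun k y => (hB (⟨r, hr⟩, k) y).trans (by linarith))
      (fun k => (hB (⟨r, hr⟩, k) _).trans (by linarith)) (fun k y hy => hy.2 r hr) hf hf1 hf0)
      (norm_nonneg _)
  · rw [← Finset.sum_mul]
    nlinarith [mul_le_mul_of_nonneg_right h1 hM0]

/-- the same for an integral multiplier -/
theorem IsPoly.not_mem_supp_of_sInt [TopologicalSpace Y] [FirstCountableTopology Y]
    [OpensMeasurableSpace Y] {Ω : Type} [TopologicalSpace Ω] [SecondCountableTopology Ω]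
    [MeasurableSpace Ω] [OpensMeasurableSpace Ω] (h : IsPoly W) {m : Measure Ω} {c : Ω → ℂ}
    (hc : Integrable c m) {φ : Ω → κ → Y → ℂ} (hm : ∀ ω k, Measurable (φ ω k))
    (hb : ∀ ω k y, ‖φ ω k y‖ ≤ 1) (hcont : ∀ k y, Continuous fun ω => φ ω k y) {z : κ → Y}
    (heq : ∀ k, ∀ ε > 0, ∀ L : Set Ω, IsCompact L →
      ∀ᶠ y in 𝓝 (z k), ∀ ω ∈ L, ‖φ ω k y - φ ω k (z k)‖ ≤ ε) [SigmaCompactSpace Ω] (a : ℂ)
    (hne : ∫ ω, c ω * ∏ k, φ ω k (z k) ∂m ≠ a) {O : κ → Set Y} (hO : ∀ k, O k ∈ 𝓝 (z k))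
    (h0 : NullOn (fun f => sInt m c (fun ω => W fun k y => φ ω k y * f k y) - a • W f) O) :
    z ∉ supp W := by
  have hl := norm_pos_iff.2 (sub_ne_zero.2 hne)
  set l := ∫ ω, c ω * ∏ k, φ ω k (z k) ∂m - a with hl'
  obtain ⟨ε, hε, h1⟩ := exists_eps (x := (∫ ω, ‖c ω‖ ∂m) * Fintype.card κ)
    (mul_nonneg (integral_nonneg fun _ => norm_nonneg _) (Nat.cast_nonneg _))
    (show 0 < ‖l‖ / 4 by positivity)
  let U : ℕ → κ → Set Y := fun n k =>
    {y | ∀ ω ∈ compactCovering Ω n, ‖φ ω k y - φ ω k (z k)‖ ≤ ε}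
  let G : ℕ → Set Ω := fun n => {ω | ∀ k, ∀ y ∈ U n k, ‖φ ω k y - φ ω k (z k)‖ ≤ ε}
  have hG : ∀ n, MeasurableSet (G n)ᶜ := fun n => by
    refine (IsClosed.measurableSet ?_).compl
    simp only [G, Set.ofPred_forall]
    exact isClosed_iInter fun k => isClosed_iInter fun y => isClosed_iInter fun _ =>
      isClosed_le ((hcont k y).sub (hcont k _)).norm continuous_const
  have h2 : Tendsto (fun n => ∫ ω, (G n)ᶜ.indicator (fun ω => ‖c ω‖) ω ∂m) atTop
      (𝓝 (∫ _, 0 ∂m)) := by
    refine tendsto_integral_of_dominated_convergence (fun ω => ‖c ω‖)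
      (fun n => (hc.norm.indicator (hG n)).1) hc.norm (fun n => Eventually.of_forall fun ω =>
        (norm_indicator_le_norm_self _ _).trans_eq (norm_norm _))
      (Eventually.of_forall fun ω => tendsto_const_nhds.congr' ?_)
    obtain ⟨n, hn⟩ := exists_mem_compactCovering ω
    exact (eventually_ge_atTop n).mono fun j hj => (Set.indicator_of_notMem (not_not.2
      fun k y hy => hy ω (compactCovering_subset Ω hj hn)) _).symm
  rw [integral_zero] at h2
  obtain ⟨n, hn⟩ := (h2.eventually_le_const (show 0 < ‖l‖ / 8 by positivity)).exists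
  refine fun hz => hz (fun k => O k ∩ U n k)
    (fun k => inter_mem (hO k) (heq k ε hε _ (isCompact_compactCovering Ω n)))
    (h.nullOn_of_contract fun M hM0 hM f hf hf1 hf0 => ?_)
  have h3 := sub_eq_zero.1
    (h0 f (fun k => ⟨hf k, 1, hf1 k⟩) fun k y hy => hf0 k y fun h => hy h.1)
  have hb' : ∀ ω k y, ‖φ ω k y * f k y‖ ≤ 1 := fun ω k y => by
    rw [norm_mul]; exact mul_le_one₀ (hb ω k y) (norm_nonneg _) (hf1 k y)
  have hp : ∀ ω, ‖∏ k, φ ω k (z k)‖ ≤ 1 := fun ω => by
    rw [norm_prod]; exact Finset.prod_le_one (fun _ _ => norm_nonneg _) fun k _ => hb _ _ _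
  have s1 : SCont fun ω => W fun k y => φ ω k y * f k y :=
    h.sCont (fun ω k => (hm ω k).mul (hf k)) hb' fun k y => (hcont k y).mul continuous_const
  have cp : Continuous fun ω => ∏ k, φ ω k (z k) := continuous_finsetProd _ fun k _ => hcont k _
  have s2 : SCont fun ω => (∏ k, φ ω k (z k)) • W f :=
    ⟨fun η => cp.smul continuous_const, ‖W f‖, fun ω => by
      rw [norm_smul]; exact mul_le_of_le_one_left (norm_nonneg _) (hp ω)⟩
  have e2 : sInt m c (fun ω => (∏ k, φ ω k (z k)) • W f) =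
      (∫ ω, c ω * ∏ k, φ ω k (z k) ∂m) • W f := by
    ext1 η
    simp only [sInt_apply hc s2, smul_apply, smul_smul, integral_smul_const]
  have i1 := hc.norm.mul_const (Fintype.card κ * (ε * M))
  have i2 := (hc.norm.indicator (hG n)).mul_const (2 * M)
  have s3 : SCont fun ω => (W fun k y => φ ω k y * f k y) - (∏ k, φ ω k (z k)) • W f := by
    obtain ⟨C1, h1⟩ := s1.2
    obtain ⟨C2, h2⟩ := s2.2
    exact ⟨fun η => (s1.1 η).sub (s2.1 η), C1 + C2, fun ω => norm_sub_le_of_le (h1 ω) (h2 ω)⟩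
  have e3 : ∀ ω, ‖c ω‖ * (Fintype.card κ * (ε * M) + (G n)ᶜ.indicator (fun _ => 2 * M) ω) =
      ‖c ω‖ * (Fintype.card κ * (ε * M)) + (G n)ᶜ.indicator (fun ω => ‖c ω‖) ω * (2 * M) :=
    fun ω => by by_cases hω : ω ∈ (G n)ᶜ <;> simp [hω, mul_add]
  have h4 := norm_sInt_le' hc s3
    (b := fun ω => Fintype.card κ * (ε * M) + (G n)ᶜ.indicator (fun _ => 2 * M) ω)
    (by simp only [e3]; exact i1.add i2) fun ω => by
      by_cases hω : ω ∈ G n
      · rw [Set.indicator_of_notMem (not_not.2 hω), add_zero]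
        simpa using h.tele hM0 hM le_rfl hε (hm ω) (hb ω) (fun k => hb ω k _)
          (fun k y hy => hω k y hy.2) hf hf1 hf0
      · rw [Set.indicator_of_mem hω]
        refine le_add_of_nonneg_of_le (by positivity) ((norm_sub_le_of_le
          (hM _ (fun k => (hm ω k).mul (hf k)) (hb' ω) fun k y hy =>
            mul_eq_zero_of_right _ (hf0 k y hy))
          (?_ : _ ≤ M)).trans_eq (two_mul M).symm)
        rw [norm_smul]
        exact (mul_le_of_le_one_left (norm_nonneg _) (hp ω)).trans (hM f hf hf1 hf0)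
  simp only [e3] at h4
  rw [sInt_sub hc s1 s2, h3, e2, ← sub_smul, ← neg_sub, ← hl', neg_smul, norm_neg, norm_smul,
    integral_add i1 i2, integral_mul_const, integral_mul_const] at h4
  refine le_of_mul_le_mul_left (h4.trans ?_) hl
  nlinarith [mul_le_mul_of_nonneg_right h1 hM0, mul_le_mul_of_nonneg_right hn hM0]

end Crest.Agent.N111
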