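import Crest.Agent.N111.Lib.POVM3
import Crest.Agent.N111.Lib.Poly2
import Crest.Agent.N111.Lib.Poly3
import Crest.Agent.N111.Lib.Geo2
import Crest.Agent.N111.Lib.Geo3
import Crest.Agent.N111.Lib.Fou2
import Crest.Agent.N111.Lib.Fou3
import Crest.Agent.N111.Stmts

/-! # Row 111: the whole library. -/
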