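import Crest.Agent.N111.Defs

/-! # Row 111: bounded measurable functions. -/

set_option autoImplicit false
set_option linter.unusedSectionVars false
set_option linter.unusedVariables false

namespace Crest.Agent.N111

open MeasureTheory

variable {Y Z : Type} [MeasurableSpace Y] [MeasurableSpace Z] {f g : Y → ℂ}

lemma BM.meas (hf : BM f) : Measurable f := hf.1

lemma BM.of_le (hm : Measurable f) {C : ℝ} (h : ∀ y, ‖f y‖ ≤ C) : BM f := ⟨hm, C, h⟩

lemma BM.exists_nonneg (hf : BM f) : ∃ C, 0 ≤ C ∧ ∀ y, ‖f y‖ ≤ C := by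
  obtain ⟨C, hC⟩ := hf.2
  exact ⟨max C 0, le_max_right _ _, fun y => (hC y).trans (le_max_left _ _)⟩

lemma BM.const (c : ℂ) : BM (fun _ : Y => c) := ⟨measurable_const, ‖c‖, fun _ => le_rfl⟩

lemma BM.add (hf : BM f) (hg : BM g) : BM fun y => f y + g y := by
  obtain ⟨C, hC⟩ := hf.2
  obtain ⟨D, hD⟩ := hg.2
  exact ⟨hf.1.add hg.1, C + D, fun y => (norm_add_le _ _).trans (add_le_add (hC y) (hD y))⟩

lemma BM.mul (hf : BM f) (hg : BM g) : BM fun y => f y * g y := by
  obtain ⟨C, hC0, hC⟩ := hf.exists_nonneg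
  obtain ⟨D, hD⟩ := hg.2
  exact ⟨hf.1.mul hg.1, C * D, fun y => by
    rw [norm_mul]; exact mul_le_mul (hC y) (hD y) (norm_nonneg _) hC0⟩

lemma BM.const_mul (c : ℂ) (hf : BM f) : BM fun y => c * f y := (BM.const c).mul hf

lemma BM.neg (hf : BM f) : BM fun y => -f y := by
  obtain ⟨C, hC⟩ := hf.2
  exact ⟨hf.1.neg, C, fun y => by rw [norm_neg]; exact hC y⟩

lemma BM.sub (hf : BM f) (hg : BM g) : BM fun y => f y - g y := by
  simpa [sub_eq_add_neg] using hf.add hg.neg

lemma BM.conj (hf : BM f) : BM fun y => (starRingEnd ℂ) (f y) := by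
  obtain ⟨C, hC⟩ := hf.2
  exact ⟨Complex.continuous_conj.measurable.comp hf.1, C, fun y => by
    rw [Complex.norm_conj]; exact hC y⟩

lemma BM.comp {f : Z → ℂ} (hf : BM f) {φ : Y → Z} (hφ : Measurable φ) : BM fun y => f (φ y) := by
  obtain ⟨C, hC⟩ := hf.2
  exact ⟨hf.1.comp hφ, C, fun y => hC _⟩

lemma BM.sum {κ : Type*} (s : Finset κ) {f : κ → Y → ℂ} (hf : ∀ k ∈ s, BM (f k)) :
    BM fun y => ∑ k ∈ s, f k y := by
  classical
  induction s using Finset.induction_on with
  | empty => simpa using BM.const (Y := Y) 0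
  | insert a s ha ih =>
    simp only [Finset.sum_insert ha]
    exact (hf a (Finset.mem_insert_self _ _)).add
      (ih fun k hk => hf k (Finset.mem_insert_of_mem hk))

lemma BM.pow (hf : BM f) (n : ℕ) : BM fun y => f y ^ n := by
  induction n with
  | zero => simpa using BM.const (Y := Y) 1
  | succ n ih => simpa [pow_succ] using ih.mul hf

lemma BM.normSq (hf : BM f) : BM fun y => ((‖f y‖ ^ 2 : ℝ) : ℂ) := by
  obtain ⟨C, hC0, hC⟩ := hf.exists_nonneg
  refine ⟨Complex.measurable_ofReal.comp (hf.1.norm.pow_const 2), C ^ 2, fun y => ?_⟩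
  rw [Complex.norm_real, Real.norm_of_nonneg (by positivity)]
  exact pow_le_pow_left₀ (norm_nonneg _) (hC y) 2

omit [MeasurableSpace Y] in
lemma ic_apply (O : Set Y) (y : Y) [Decidable (y ∈ O)] : ic O y = if y ∈ O then 1 else 0 := by
  simp [ic, Set.indicator_apply]

omit [MeasurableSpace Y] in
@[simp] lemma ic_of_mem {O : Set Y} {y : Y} (h : y ∈ O) : ic O y = 1 := by simp [ic, h]

omit [MeasurableSpace Y] in
@[simp] lemma ic_of_notMem {O : Set Y} {y : Y} (h : y ∉ O) : ic O y = 0 := by simp [ic, h]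

omit [MeasurableSpace Y] in
lemma norm_ic_le (O : Set Y) (y : Y) : ‖ic O y‖ ≤ 1 := by
  by_cases h : y ∈ O <;> simp [h]

omit [MeasurableSpace Y] in
@[simp] lemma ic_univ : ic (Set.univ : Set Y) = fun _ => 1 := by funext y; simp

omit [MeasurableSpace Y] in
lemma ic_inter (O O' : Set Y) : ic (O ∩ O') = fun y => ic O y * ic O' y := by
  funext y; by_cases h : y ∈ O <;> by_cases h' : y ∈ O' <;> simp [h, h']

omit [MeasurableSpace Y] in
lemma ic_compl (O : Set Y) : ic Oᶜ = fun y => 1 - ic O y := by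
  funext y; by_cases h : y ∈ O <;> simp [h]

omit [MeasurableSpace Y] in
@[simp] lemma conj_ic (O : Set Y) (y : Y) : (starRingEnd ℂ) (ic O y) = ic O y := by
  by_cases h : y ∈ O <;> simp [h]

lemma BM.ic {O : Set Y} (hO : MeasurableSet O) : BM (ic O) :=
  ⟨measurable_const.indicator hO, 1, norm_ic_le O⟩

/-- `e^{iθ}` -/
noncomputable def ex (θ : ℝ) : ℂ := Complex.exp (Complex.I * θ)

@[simp] lemma norm_ex (θ : ℝ) : ‖ex θ‖ = 1 := by
  rw [ex, mul_comm]; exact Complex.norm_exp_ofReal_mul_I θ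

@[simp] lemma ex_zero : ex 0 = 1 := by simp [ex]

lemma ex_add (a b : ℝ) : ex (a + b) = ex a * ex b := by
  simp [ex, mul_add, Complex.exp_add]

lemma conj_ex (a : ℝ) : (starRingEnd ℂ) (ex a) = ex (-a) := by
  simp [ex, ← Complex.exp_conj]

@[fun_prop] lemma continuous_ex : Continuous ex := by unfold ex; fun_prop

@[fun_prop] lemma measurable_ex : Measurable ex := continuous_ex.measurable

lemma norm_ex_sub_ex_le (a b : ℝ) : ‖ex a - ex b‖ ≤ |a - b| := by
  have h : ex a - ex b = ex b * (ex (a - b) - 1) := by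
    rw [mul_sub, ← ex_add]; simp
  rw [h, norm_mul, norm_ex, one_mul, ex]
  simpa using Real.norm_exp_I_mul_ofReal_sub_one_le (x := a - b)

lemma BM.ex {θ : Y → ℝ} (hθ : Measurable θ) : BM fun y => ex (θ y) :=
  ⟨measurable_ex.comp hθ, 1, fun y => (norm_ex _).le⟩

lemma BM.ofReal {u : Y → ℝ} (hu : Measurable u) {C : ℝ} (h : ∀ y, |u y| ≤ C) :
    BM fun y => (u y : ℂ) :=
  ⟨Complex.measurable_ofReal.comp hu, C, fun y => by simpa using h y⟩

end Crest.Agent.N111
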