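import Crest.Agent.N111.Lib.BM

/-! # Row 111: Fourier algebra tools and scalar lemmas (API; fill the proofs IN PLACE). -/

set_option autoImplicit false
set_option linter.unusedVariables false

namespace Crest.Agent.N111

open MeasureTheory Topology Filter
open scoped ContDiff

/-- kernel of `c ∈ L¹(ℝ)` -/
noncomputable def K1 (c : ℝ → ℂ) (s : ℝ) : ℂ := ∫ w, c w * ex (w * s)

/-- kernel of `c ∈ L¹(ℝ²)` -/
noncomputable def K2 (c : ℝ × ℝ → ℂ) (p : ℝ × ℝ) : ℂ := ∫ w, c w * ex (w.1 * p.1 + w.2 * p.2)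

/-- kernel of `c ∈ L¹(ℝ^d)` -/
noncomputable def KN {d : ℕ} (c : (Fin d → ℝ) → ℂ) (p : Fin d → ℝ) : ℂ :=
  ∫ w, c w * ex (∑ i, w i * p i)

namespace Fou

open scoped FourierTransform RealInnerProductSpace Real

variable {H : Type} [NormedAddCommGroup H] [InnerProductSpace ℝ H] [FiniteDimensional ℝ H]
  [MeasurableSpace H] [BorelSpace H]

/-- Fourier inversion for test functions on a Euclidean space. -/
theorem exists_KH {f : H → ℂ} (hf : ContDiff ℝ ∞ f) (hs : HasCompactSupport f) :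
    ∃ c : H → ℂ, Integrable c ∧ Integrable (fun w => ‖c w‖ * ‖w‖) ∧
      (∀ p, ∫ w, c w * ex ⟪w, p⟫ = f p) ∧ (Ev f → Ev c) := by
  have h2 : (2 * π : ℝ) ≠ 0 := Real.two_pi_pos.ne'
  let g : SchwartzMap H ℂ := HasCompactSupport.toSchwartzMap (f := fun v => f ((2 * π : ℝ) • v))
    (hs.comp_smul h2) (hf.comp (contDiff_const_smul _))
  have hi : Integrable (𝓕 (g : H → ℂ)) := (𝓕 g : SchwartzMap H ℂ).integrable
  refine ⟨𝓕 (g : H → ℂ), hi, ?_, fun p => ?_, fun he w => ?_⟩
  · simpa [mul_comm, SchwartzMap.fourier_coe] using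
      SchwartzMap.integrable_pow_mul volume (𝓕 g : SchwartzMap H ℂ) 1
  · have h1 := congrFun (g.continuous.fourierInv_fourier_eq g.integrable hi) ((2 * π : ℝ)⁻¹ • p)
    rw [Real.fourierInv_eq'] at h1
    have h3 : g ((2 * π : ℝ)⁻¹ • p) = f p := by
      change f ((2 * π : ℝ) • (2 * π : ℝ)⁻¹ • p) = f p
      rw [smul_inv_smul₀ h2]
    rw [← h3, ← h1]
    refine integral_congr_ae (Eventually.of_forall fun w => ?_)
    simp only [smul_eq_mul, inner_smul_right, mul_inv_cancel_left₀ h2, ex, mul_comm Complex.I]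
    ring
  · rw [← Real.fourierInv_eq_fourier_neg, Real.fourierInv_eq_fourier_comp_neg]
    refine congrArg (fun u : H → ℂ => 𝓕 u w) (funext fun v => ?_)
    change f ((2 * π : ℝ) • -v) = f ((2 * π : ℝ) • v)
    rw [smul_neg, he]

/-- The same in measure preserving linear coordinates. -/
theorem exists_KW {W : Type} [NormedAddCommGroup W] [NormedSpace ℝ W] [MeasureSpace W]
    [BorelSpace W] (e : W ≃L[ℝ] H) (he : MeasurePreserving e) {f : W → ℂ} (hf : ContDiff ℝ ∞ f)
    (hs : HasCompactSupport f) :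
    ∃ c : W → ℂ, Integrable c ∧ Integrable (fun w => ‖c w‖ * ‖w‖) ∧
      (∀ p, ∫ w, c w * ex ⟪e w, e p⟫ = f p) ∧ (Ev f → Ev c) := by
  obtain ⟨c, h1, h2, h3, h4⟩ := exists_KH (f := fun v => f (e.symm v)) (hf.comp e.symm.contDiff)
    (hs.comp_homeomorph e.symm.toHomeomorph)
  have h5 : Integrable fun w => c (e w) := he.integrable_comp_of_integrable h1
  refine ⟨fun w => c (e w), h5, ?_, fun p => ?_, fun hev w => ?_⟩
  · refine ((he.integrable_comp_of_integrable h2).const_mul ‖(e.symm : H →L[ℝ] W)‖).mono'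
      (h5.1.norm.mul continuous_norm.aestronglyMeasurable) (Eventually.of_forall fun w => ?_)
    rw [Real.norm_of_nonneg (by positivity), Function.comp_apply, mul_left_comm]
    refine mul_le_mul_of_nonneg_left ?_ (norm_nonneg _)
    simpa using (e.symm : H →L[ℝ] W).le_opNorm (e w)
  · rw [he.integral_comp e.toHomeomorph.measurableEmbedding fun v => c v * ex ⟪v, e p⟫, h3,
      e.symm_apply_apply]
  · change c (e (-w)) = c (e w)
    rw [map_neg]
    exact h4 (fun v => by simp only [map_neg]; exact hev _) _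

end Fou

theorem exists_K1 {f : ℝ → ℂ} (hf : ContDiff ℝ ∞ f) (hs : HasCompactSupport f) :
    ∃ c, Integrable c ∧ Integrable (fun w => ‖c w‖ * |w|) ∧ K1 c = f ∧ (Ev f → Ev c) := by
  obtain ⟨c, h1, h2, h3, h4⟩ := Fou.exists_KH hf hs
  refine ⟨c, h1, h2, funext fun p => ?_, h4⟩
  rw [← h3, K1]
  simp [mul_comm]

theorem exists_K2 {f : ℝ × ℝ → ℂ} (hf : ContDiff ℝ ∞ f) (hs : HasCompactSupport f) :
    ∃ c, Integrable c ∧ Integrable (fun w => ‖c w‖ * ‖w‖) ∧ K2 c = f ∧ (Ev f → Ev c) := by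
  obtain ⟨c, h1, h2, h3, h4⟩ := Fou.exists_KW (WithLp.prodContinuousLinearEquiv 2 ℝ ℝ ℝ).symm
    (WithLp.volume_preserving_toLp ℝ ℝ) hf hs
  refine ⟨c, h1, h2, funext fun p => ?_, h4⟩
  rw [← h3, K2]
  simp [mul_comm]

theorem exists_KN {d : ℕ} {f : (Fin d → ℝ) → ℂ} (hf : ContDiff ℝ ∞ f) (hs : HasCompactSupport f) :
    ∃ c, Integrable c ∧ Integrable (fun w => ‖c w‖ * ‖w‖) ∧ KN c = f := by
  obtain ⟨c, h1, h2, h3, -⟩ := Fou.exists_KW (EuclideanSpace.equiv (Fin d) ℝ).symm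
    (PiLp.volume_preserving_toLp (Fin d)) hf hs
  refine ⟨c, h1, h2, funext fun p => ?_⟩
  rw [← h3, KN]
  simp [PiLp.inner_apply, mul_comm]

/-- the density whose kernel is `K2 c (l •  ·)` -/
noncomputable def dil (l : ℝ) (c : ℝ × ℝ → ℂ) : ℝ × ℝ → ℂ :=
  fun w => ((l ^ 2)⁻¹ : ℝ) * c (l⁻¹ • w)

theorem Fou.integral_scale {E : Type} [NormedAddCommGroup E] [NormedSpace ℝ E] (G : ℝ × ℝ → E)
    {l : ℝ} (hl : l ≠ 0) : ∫ w, (l ^ 2)⁻¹ • G (l⁻¹ • w) = ∫ w, G w := by
  rw [integral_smul, Measure.integral_comp_inv_smul, smul_smul]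
  simp [hl]

theorem Fou.norm_dil (l : ℝ) (c : ℝ × ℝ → ℂ) (w : ℝ × ℝ) :
    ‖dil l c w‖ = (l ^ 2)⁻¹ * ‖c (l⁻¹ • w)‖ := by
  rw [dil, norm_mul, Complex.norm_real, Real.norm_of_nonneg (by positivity)]

theorem integrable_dil {c : ℝ × ℝ → ℂ} (hc : Integrable c) {l : ℝ} (hl : l ≠ 0) :
    Integrable (dil l c) := (hc.comp_smul (inv_ne_zero hl)).const_mul _
theorem integral_norm_dil {c : ℝ × ℝ → ℂ} {l : ℝ} (hl : l ≠ 0) :
    ∫ w, ‖dil l c w‖ = ∫ w, ‖c w‖ := by
  simpa only [Fou.norm_dil, smul_eq_mul] using Fou.integral_scale (fun w => ‖c w‖) hl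
/-- change of variables for vector valued integrals -/
theorem integral_dil {E : Type} [NormedAddCommGroup E] [NormedSpace ℂ E] (c : ℝ × ℝ → ℂ) {l : ℝ}
    (hl : l ≠ 0) (F : ℝ × ℝ → E) : ∫ w, dil l c w • F w = ∫ w, c w • F (l • w) := by
  rw [← Fou.integral_scale (fun w => c w • F (l • w)) hl]
  simp only [dil, smul_inv_smul₀ hl, mul_smul, Complex.coe_smul]
theorem K2_dil (c : ℝ × ℝ → ℂ) {l : ℝ} (hl : l ≠ 0) (p : ℝ × ℝ) :
    K2 (dil l c) p = K2 c (l • p) := by
  have := integral_dil c hl fun w => ex (w.1 * p.1 + w.2 * p.2)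
  simp only [smul_eq_mul, Prod.smul_fst, Prod.smul_snd] at this
  simp only [K2, this, Prod.smul_fst, Prod.smul_snd, smul_eq_mul, mul_left_comm _ l, mul_assoc]

namespace Fou

theorem exists_radius {g : ℝ × ℝ → ℂ} (hs : HasCompactSupport g) :
    ∃ R : ℝ, 0 ≤ R ∧ ∀ w, R < ‖w‖ → g w = 0 := by
  obtain ⟨R, hR⟩ := hs.isBounded.subset_closedBall 0
  refine ⟨max R 0, le_max_right _ _, fun w hw => image_eq_zero_of_notMem_tsupport fun h => ?_⟩
  exact absurd (mem_closedBall_zero_iff.1 (hR h)) (not_le.2 ((le_max_left _ _).trans_lt hw))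

theorem tendsto_dil_of_cont {g : ℝ × ℝ → ℂ} (hg : Continuous g) (hs : HasCompactSupport g)
    {l₀ : ℝ} (hl : l₀ ≠ 0) :
    Tendsto (fun l => ∫ w, ‖dil l g w - dil l₀ g w‖) (𝓝 l₀) (𝓝 0) := by
  obtain ⟨R, hR0, hR⟩ := exists_radius hs
  have h0 : 0 < |l₀| := abs_pos.2 hl
  let s : Set ℝ := {l | l ≠ 0 ∧ |l| < |l₀| + 1}
  have hs0 : s ∈ 𝓝 l₀ := inter_mem (isOpen_ne.mem_nhds hl)
    ((isOpen_lt continuous_abs continuous_const).mem_nhds (lt_add_one |l₀|))
  have hz : ∀ l ∈ s, ∀ w, w ∉ Metric.closedBall (0 : ℝ × ℝ) ((|l₀| + 1) * R) → dil l g w = 0 := by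
    intro l hl w hw
    rw [mem_closedBall_zero_iff, not_le] at hw
    rw [dil, hR, mul_zero]
    rw [norm_smul, norm_inv, Real.norm_eq_abs, lt_inv_mul_iff₀ (abs_pos.2 hl.1)]
    exact (mul_le_mul_of_nonneg_right hl.2.le hR0).trans_lt hw
  have hc : ContinuousOn (fun l => ∫ w, ‖dil l g w - dil l₀ g w‖) s := by
    refine continuousOn_integral_of_compact_support (isCompact_closedBall _ _) ?_
      fun l w hl' hw => by rw [hz l hl' w hw, hz l₀ (mem_of_mem_nhds hs0) w hw, sub_zero, norm_zero]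
    have hi : ContinuousOn (fun q : ℝ × ℝ × ℝ => q.1⁻¹) (s ×ˢ Set.univ) :=
      continuousOn_fst.inv₀ fun q hq => hq.1.1
    have h1 : ContinuousOn (fun q : ℝ × ℝ × ℝ => dil q.1 g q.2) (s ×ˢ Set.univ) := by
      simp only [dil, ← inv_pow]
      exact (Complex.continuous_ofReal.comp_continuousOn (hi.pow 2)).mul
        (hg.comp_continuousOn (hi.smul continuousOn_snd))
    have h2 : Continuous fun q : ℝ × ℝ × ℝ => dil l₀ g q.2 := by unfold dil; fun_prop
    exact (h1.sub h2.continuousOn).norm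
  simpa using (hc.continuousAt hs0).tendsto

theorem dil_sub (l : ℝ) (c c' : ℝ × ℝ → ℂ) (w : ℝ × ℝ) :
    dil l c w - dil l c' w = dil l (fun w => c w - c' w) w := by simp only [dil, mul_sub]

end Fou

/-- `L¹` continuity of dilations -/
theorem tendsto_dil {c : ℝ × ℝ → ℂ} (hc : Integrable c) {l₀ : ℝ} (hl : l₀ ≠ 0) :
    Tendsto (fun l => ∫ w, ‖dil l c w - dil l₀ c w‖) (𝓝 l₀) (𝓝 0) := by
  rw [Metric.tendsto_nhds]
  intro ε hε
  obtain ⟨g, hs, hg1, hg, hgi⟩ := hc.exists_hasCompactSupport_integral_sub_le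
    (show 0 < ε / 3 by positivity)
  filter_upwards [Metric.tendsto_nhds.1 (Fou.tendsto_dil_of_cont hg hs hl) (ε / 3) (by positivity),
    isOpen_ne.mem_nhds hl] with l h1 hl'
  rw [Real.dist_0_eq_abs, abs_of_nonneg (integral_nonneg fun _ => norm_nonneg _)] at h1 ⊢
  have i1 := (integrable_dil (hc.sub hgi) hl').norm
  have i2 : Integrable fun w => ‖dil l g w - dil l₀ g w‖ :=
    ((integrable_dil hgi hl').sub (integrable_dil hgi hl)).norm
  have i4 : Integrable fun w => ‖dil l (c - g) w‖ + ‖dil l g w - dil l₀ g w‖ := i1.add i2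
  have i3 := (integrable_dil (hc.sub hgi) hl).norm
  have e : ∫ w, ‖dil l c w - dil l₀ c w‖ ≤ ∫ w, (‖dil l (c - g) w‖ + ‖dil l g w - dil l₀ g w‖ +
      ‖dil l₀ (c - g) w‖) := by
    refine integral_mono ((integrable_dil hc hl').sub (integrable_dil hc hl)).norm
      (i4.add i3) fun w => ?_
    have e1 : dil l c w - dil l₀ c w =
        dil l (c - g) w + (dil l g w - dil l₀ g w) - dil l₀ (c - g) w := by
      simp only [dil, Pi.sub_apply]; ring
    simp only [e1]
    exact (norm_sub_le _ _).trans (add_le_add_left (norm_add_le _ _) _)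
  rw [integral_add i4 i3, integral_add i1 i2, integral_norm_dil hl', integral_norm_dil hl] at e
  simp only [Pi.sub_apply] at e
  linarith

namespace Fou

open scoped Real Convolution

theorem contDiff_K2 {g : ℝ × ℝ → ℂ} (hg : Continuous g) (hs : HasCompactSupport g) :
    ContDiff ℝ ∞ (K2 g) := by
  let L : (ℝ × ℝ) →L[ℝ] (ℝ × ℝ) →L[ℝ] ℝ := (-(2 * π)⁻¹ : ℝ) •
    ((ContinuousLinearMap.mul ℝ ℝ).bilinearComp (.fst ℝ ℝ ℝ) (.fst ℝ ℝ ℝ) +
      (ContinuousLinearMap.mul ℝ ℝ).bilinearComp (.snd ℝ ℝ ℝ) (.snd ℝ ℝ ℝ))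
  have h := VectorFourier.contDiff_fourierIntegral L (f := g) (μ := volume) (N := ⊤) fun n _ =>
    Continuous.integrable_of_hasCompactSupport (by fun_prop) hs.norm.mul_left
  refine (funext fun p => ?_ : K2 g = _) ▸ h
  refine integral_congr_ae (Eventually.of_forall fun w => ?_)
  have e : 2 * π * -(L.toLinearMap₁₂ w p) = w.1 * p.1 + w.2 * p.2 := by
    have := Real.two_pi_pos.ne'
    simp [L]
    field_simp
    ring
  simp only [Circle.smul_def, Real.fourierChar_apply, e, ex, smul_eq_mul]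
  rw [mul_comm, mul_comm Complex.I]

theorem K2_conv {a g : ℝ × ℝ → ℂ} (ha : Integrable a) (hg : Integrable g) (p : ℝ × ℝ) :
    K2 (a ⋆[ContinuousLinearMap.mul ℂ ℂ] g) p = K2 a p * K2 g p := by
  have hi := ha.convolution_integrand (ContinuousLinearMap.mul ℂ ℂ) hg
  have h1 : Integrable (Function.uncurry fun w u : ℝ × ℝ =>
      a u * g (w - u) * ex (w.1 * p.1 + w.2 * p.2)) (volume.prod volume) :=
    hi.mul_bdd (c := 1) (Continuous.aestronglyMeasurable (by fun_prop))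
      (Eventually.of_forall fun q => (norm_ex _).le)
  simp only [K2, convolution_def, ContinuousLinearMap.mul_apply', ← integral_mul_const]
  rw [integral_integral_swap h1]
  refine integral_congr_ae (Eventually.of_forall fun u => ?_)
  simp only
  rw [← integral_const_mul, ← integral_add_right_eq_self _ u]
  refine integral_congr_ae (Eventually.of_forall fun w => ?_)
  have e : (w + u).1 * p.1 + (w + u).2 * p.2 =
      (u.1 * p.1 + u.2 * p.2) + (w.1 * p.1 + w.2 * p.2) := by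
    simp only [Prod.fst_add, Prod.snd_add]; ring
  simp only [add_sub_cancel_right, e, ex_add (u.1 * p.1 + u.2 * p.2)]
  ring

/-- the `L¹` modulus of continuity -/
noncomputable def md (g : ℝ × ℝ → ℂ) (u : ℝ × ℝ) : ℝ := ∫ w, ‖g w - g (w - u)‖

theorem continuous_md {g : ℝ × ℝ → ℂ} (hg : Continuous g) (hs : HasCompactSupport g) :
    Continuous (md g) := by
  obtain ⟨R, hR0, hR⟩ := exists_radius hs
  refine continuous_iff_continuousAt.2 fun u₀ => ContinuousOn.continuousAt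
    (s := {u | ‖u‖ < ‖u₀‖ + 1}) ?_
    ((isOpen_lt continuous_norm continuous_const).mem_nhds (lt_add_one ‖u₀‖))
  refine continuousOn_integral_of_compact_support
    (isCompact_closedBall (0 : ℝ × ℝ) (R + (‖u₀‖ + 1))) (Continuous.continuousOn ?_)
    fun u w hu hw => ?_
  · change Continuous fun q : (ℝ × ℝ) × ℝ × ℝ => ‖g q.2 - g (q.2 - q.1)‖
    fun_prop
  · rw [mem_closedBall_zero_iff, not_le] at hw
    have h1 := norm_sub_norm_le w u
    have h2 : ‖u‖ < ‖u₀‖ + 1 := hu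
    rw [hR w (by linarith [norm_nonneg u₀]), hR (w - u) (by linarith), sub_zero, norm_zero]

theorem md_le {g : ℝ × ℝ → ℂ} (hg : Integrable g) (u : ℝ × ℝ) : md g u ≤ 2 * ∫ w, ‖g w‖ := by
  have h := hg.comp_sub_right u
  refine (integral_mono (hg.sub h).norm (hg.norm.add h.norm) fun w => norm_sub_le _ _).trans_eq ?_
  rw [integral_add' hg.norm h.norm, integral_sub_right_eq_self (fun w => ‖g w‖) u, two_mul]

theorem md_nonneg (g : ℝ × ℝ → ℂ) (u : ℝ × ℝ) : 0 ≤ md g u :=
  integral_nonneg fun _ => norm_nonneg _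

theorem norm_sub_conv_le {a g : ℝ × ℝ → ℂ} (ha : Integrable a) (h1 : ∫ u, a u = 1)
    (hg : Integrable g) :
    ∫ w, ‖g w - (a ⋆[ContinuousLinearMap.mul ℂ ℂ] g) w‖ ≤ ∫ u, ‖a u‖ * md g u := by
  have hi := ha.convolution_integrand (ContinuousLinearMap.mul ℂ ℂ) hg
  have h2 : Integrable (fun q : (ℝ × ℝ) × ℝ × ℝ => g q.1 * a q.2 - a q.2 * g (q.1 - q.2))
      (volume.prod volume) := (hg.mul_prod ha).sub hi
  have h3 : ∀ᵐ w, ‖g w - (a ⋆[ContinuousLinearMap.mul ℂ ℂ] g) w‖ ≤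
      ∫ u, ‖g w * a u - a u * g (w - u)‖ := by
    filter_upwards [hi.prod_right_ae] with w hw
    refine le_trans (le_of_eq ?_) (norm_integral_le_integral_norm _)
    rw [integral_sub (g := fun u => a u * g (w - u)) (ha.const_mul _) hw, integral_const_mul, h1,
      mul_one]
    rfl
  refine (integral_mono_of_nonneg (Eventually.of_forall fun _ => norm_nonneg _)
    h2.integral_norm_prod_left h3).trans_eq ?_
  rw [integral_integral_swap (f := fun w u : ℝ × ℝ => ‖g w * a u - a u * g (w - u)‖) h2.norm]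
  refine integral_congr_ae (Eventually.of_forall fun u => ?_)
  simp only [md, ← integral_const_mul, ← norm_mul, mul_sub, mul_comm]

theorem tendsto_md {φ g : ℝ × ℝ → ℂ} (hφ : Integrable φ) (hg : Continuous g)
    (hs : HasCompactSupport g) :
    Tendsto (fun t : ℝ => ∫ u, ‖φ u‖ * md g (t • u)) (𝓝 0) (𝓝 0) := by
  have hgi := hg.integrable_of_hasCompactSupport (μ := volume) hs
  have hc := continuous_md hg hs
  have h := tendsto_integral_filter_of_dominated_convergence (μ := volume) (l := 𝓝 (0 : ℝ))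
    (F := fun t u => ‖φ u‖ * md g (t • u)) (f := fun _ => 0)
    (fun u => ‖φ u‖ * (2 * ∫ w, ‖g w‖))
    (Eventually.of_forall fun t => hφ.1.norm.mul (Continuous.aestronglyMeasurable (by fun_prop)))
    (Eventually.of_forall fun t => Eventually.of_forall fun u => by
      rw [Real.norm_of_nonneg (mul_nonneg (norm_nonneg _) (md_nonneg _ _))]
      exact mul_le_mul_of_nonneg_left (md_le hgi _) (norm_nonneg _))
    (hφ.norm.mul_const _) (Eventually.of_forall fun u => by
      have : Continuous fun t : ℝ => ‖φ u‖ * md g (t • u) := by fun_prop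
      simpa [md] using this.tendsto 0)
  simpa using h

theorem exists_smooth_near' {c : ℝ × ℝ → ℂ} (hc : Integrable c) {ε : ℝ} (hε : 0 < ε) :
    ∃ c', Integrable c' ∧ ContDiff ℝ ∞ (K2 c') ∧ HasCompactSupport (K2 c') ∧
      ∫ w, ‖c w - c' w‖ ≤ ε := by
  obtain ⟨g, hs, hg1, hg, hgi⟩ := hc.exists_hasCompactSupport_integral_sub_le (half_pos hε)
  let b : ContDiffBump (0 : ℝ × ℝ) := ⟨1, 2, one_pos, one_lt_two⟩
  have hb : ContDiff ℝ ∞ fun p => (b p : ℂ) := Complex.ofRealCLM.contDiff.comp b.contDiff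
  have hbs : HasCompactSupport fun p => (b p : ℂ) :=
    b.hasCompactSupport.comp_left (g := fun x : ℝ => (x : ℂ)) Complex.ofReal_zero
  obtain ⟨φ, hφ, -, hK, -⟩ := exists_K2 hb hbs
  obtain ⟨t, ht, ht0⟩ : ∃ t : ℝ, ∫ u, ‖φ u‖ * md g (t • u) < ε / 2 ∧ t ≠ 0 :=
    ((((tendsto_md hφ hg hs).mono_left nhdsWithin_le_nhds).eventually_lt_const
      (half_pos hε)).and (self_mem_nhdsWithin (s := {0}ᶜ))).exists
  have ha := integrable_dil hφ ht0
  have hKa : ∀ p, K2 (dil t φ) p = b (t • p) := fun p => by rw [K2_dil φ ht0, hK]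
  have h1 : ∫ u, dil t φ u = 1 := by
    have := hKa 0
    rw [smul_zero, b.one_of_mem_closedBall (Metric.mem_closedBall_self zero_le_one)] at this
    simpa [K2] using this
  have hi := ha.integrable_convolution (ContinuousLinearMap.mul ℂ ℂ) hgi
  have e : K2 (dil t φ ⋆[ContinuousLinearMap.mul ℂ ℂ] g) = fun p => (b (t • p) : ℂ) * K2 g p :=
    funext fun p => by rw [K2_conv ha hgi, hKa]
  refine ⟨_, hi, ?_, ?_, ?_⟩
  · rw [e]
    exact (hb.comp (contDiff_const_smul t)).mul (contDiff_K2 hg hs)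
  · rw [e]
    exact (hbs.comp_smul ht0).mul_right
  · have h2 := norm_sub_conv_le ha h1 hgi
    have h3 : ∫ u, ‖dil t φ u‖ * md g u = ∫ u, ‖φ u‖ * md g (t • u) := by
      rw [← integral_scale (fun u => ‖φ u‖ * md g (t • u)) ht0]
      simp only [norm_dil, smul_inv_smul₀ ht0, smul_eq_mul, mul_assoc]
    refine (integral_mono (hc.sub hi).norm ((hc.sub hgi).norm.add (hgi.sub hi).norm)
      fun w => norm_sub_le_norm_sub_add_norm_sub _ (g w) _).trans ?_
    rw [integral_add' (hc.sub hgi).norm (hgi.sub hi).norm]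
    simp only [Pi.sub_apply]
    linarith

theorem K2_neg (c : ℝ × ℝ → ℂ) (p : ℝ × ℝ) : K2 (fun w => c (-w)) p = K2 c (-p) := by
  rw [K2, ← integral_neg_eq_self]
  simp [K2]

theorem integrable_K2 {c : ℝ × ℝ → ℂ} (hc : Integrable c) (p : ℝ × ℝ) :
    Integrable fun w => c w * ex (w.1 * p.1 + w.2 * p.2) :=
  hc.mul_bdd (c := 1) (Continuous.aestronglyMeasurable (by fun_prop))
    (Eventually.of_forall fun _ => (norm_ex _).le)

end Fou

/-- even densities with smooth compactly supported kernel are dense -/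
theorem exists_smooth_near {c : ℝ × ℝ → ℂ} (hc : Integrable c) (he : Ev c) {ε : ℝ} (hε : 0 < ε) :
    ∃ c', Integrable c' ∧ Ev c' ∧ ContDiff ℝ ∞ (K2 c') ∧ HasCompactSupport (K2 c') ∧
      ∫ w, ‖c w - c' w‖ ≤ ε := by
  obtain ⟨d, h1, h2, h3, h4⟩ := Fou.exists_smooth_near' hc hε
  have h1' : Integrable fun w => d (-w) := h1.comp_neg
  have e : K2 (fun w => 2⁻¹ * (d w + d (-w))) = fun p => 2⁻¹ * (K2 d p + K2 d (-p)) := by
    funext p
    rw [← Fou.K2_neg, K2, K2, K2, ← integral_add (Fou.integrable_K2 h1 p) (Fou.integrable_K2 h1' p),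
      ← integral_const_mul]
    simp only [mul_assoc, add_mul]
  refine ⟨fun w => 2⁻¹ * (d w + d (-w)), (h1.add h1').const_mul _,
    fun w => by simp only [neg_neg, add_comm], ?_, ?_, ?_⟩
  · rw [e]
    exact contDiff_const.mul (h2.add (h2.comp contDiff_neg))
  · rw [e]
    exact (h3.add (h3.comp_homeomorph (Homeomorph.neg _))).mul_left
  · have i1 := (hc.sub h1).norm
    have i2 := i1.comp_neg
    have e2 : ∫ w, ‖c (-w) - d (-w)‖ = ∫ w, ‖c w - d w‖ :=
      integral_neg_eq_self (fun w => ‖c w - d w‖) volume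
    refine (integral_mono (hc.sub ((h1.add h1').const_mul _)).norm ((i1.add i2).const_mul 2⁻¹)
      fun w => ?_).trans ?_
    · have e3 : c w - 2⁻¹ * (d w + d (-w)) = 2⁻¹ * ((c w - d w) + (c (-w) - d (-w))) := by
        rw [he w]; ring
      simp only [Pi.sub_apply, Pi.add_apply, e3, norm_mul, norm_inv, Complex.norm_ofNat]
      exact mul_le_mul_of_nonneg_left (norm_add_le _ _) (by norm_num)
    · rw [integral_const_mul, integral_add' i1 i2]
      simp only [Pi.sub_apply, e2]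
      linarith

end Crest.Agent.N111
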