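import Crest.Agent.N111.Lib.Fou

/-! # Row 111: the even Fourier algebra of the plane: products with functions of a line, Ditkin's
lemma (helper54). -/

set_option autoImplicit false

namespace Crest.Agent.N111

open MeasureTheory Topology Filter
open scoped ContDiff

/-- `k` is the kernel of an even density of norm at most `a` -/
def HA (k : ℝ × ℝ → ℂ) (a : ℝ) : Prop :=
  ∃ c, Integrable c ∧ Ev c ∧ K2 c = k ∧ ∫ w, ‖c w‖ ≤ a

theorem integrable_mul_ex {Ω : Type} [MeasurableSpace Ω] {m : Measure Ω} {c : Ω → ℂ}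
    (hc : Integrable c m) {θ : Ω → ℝ} (hθ : Measurable θ) :
    Integrable (fun w => c w * ex (θ w)) m :=
  hc.mul_bdd (c := 1) (measurable_ex.comp hθ).aestronglyMeasurable
    (Eventually.of_forall fun _ => (norm_ex _).le)

theorem K2_add {c c' : ℝ × ℝ → ℂ} (hc : Integrable c) (hc' : Integrable c') (p : ℝ × ℝ) :
    K2 (fun w => c w + c' w) p = K2 c p + K2 c' p := by
  simp only [K2, add_mul]
  exact integral_add (integrable_mul_ex hc (by fun_prop)) (integrable_mul_ex hc' (by fun_prop))

theorem K2_smul (z : ℂ) (c : ℝ × ℝ → ℂ) (p : ℝ × ℝ) : K2 (fun w => z * c w) p = z * K2 c p := by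
  simp only [K2, mul_assoc]
  exact integral_const_mul _ _

theorem K2_neg_of_ev {c : ℝ × ℝ → ℂ} (he : Ev c) (p : ℝ × ℝ) : K2 c (-p) = K2 c p := by
  rw [K2, ← integral_neg_eq_self]
  simp only [he _, K2, Prod.fst_neg, Prod.snd_neg, neg_mul_neg]

namespace HA

variable {k k' : ℝ × ℝ → ℂ} {a a' : ℝ}

theorem mono (h : HA k a) (ha : a ≤ a') : HA k a' :=
  let ⟨c, h1, h2, h3, h4⟩ := h; ⟨c, h1, h2, h3, h4.trans ha⟩

theorem nonneg (h : HA k a) : 0 ≤ a :=
  let ⟨_, _, _, _, h4⟩ := h; (integral_nonneg fun _ => norm_nonneg _).trans h4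

theorem congr (h : HA k a) (e : ∀ p, k p = k' p) : HA k' a := (funext e : k = k') ▸ h

theorem ev (h : HA k a) : Ev k := by
  obtain ⟨c, -, h2, rfl, -⟩ := h
  exact K2_neg_of_ev h2

theorem add (h : HA k a) (h' : HA k' a') : HA (fun p => k p + k' p) (a + a') := by
  obtain ⟨c, h1, h2, rfl, h4⟩ := h
  obtain ⟨c', h1', h2', rfl, h4'⟩ := h'
  refine ⟨fun w => c w + c' w, h1.add h1', fun w => by simp only [h2 w, h2' w],
    funext (K2_add h1 h1'), le_trans ?_ (add_le_add h4 h4')⟩
  rw [← integral_add h1.norm h1'.norm]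
  exact integral_mono (h1.add h1').norm (h1.norm.add h1'.norm) fun w => norm_add_le _ _

theorem smul (h : HA k a) (z : ℂ) : HA (fun p => z * k p) (‖z‖ * a) := by
  obtain ⟨c, h1, h2, rfl, h4⟩ := h
  refine ⟨fun w => z * c w, h1.const_mul z, fun w => by simp only [h2 w], funext (K2_smul z c), ?_⟩
  simp only [norm_mul, integral_const_mul]
  gcongr

theorem sub (h : HA k a) (h' : HA k' a') : HA (fun p => k p - k' p) (a + a') := by
  simpa [sub_eq_add_neg] using h.add (h'.smul (-1))

theorem dil (h : HA k a) {l : ℝ} (hl : l ≠ 0) : HA (fun p => k (l • p)) a := by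
  obtain ⟨c, h1, h2, rfl, h4⟩ := h
  exact ⟨N111.dil l c, integrable_dil h1 hl, fun w => by simp only [N111.dil, smul_neg, h2 _],
    funext (K2_dil c hl), (integral_norm_dil hl).trans_le h4⟩

theorem of_smooth (hk : ContDiff ℝ ∞ k) (hs : HasCompactSupport k) (he : Ev k) : ∃ a, HA k a :=
  let ⟨c, h1, _, h3, h4⟩ := exists_K2 hk hs; ⟨_, c, h1, h4 he, h3, le_rfl⟩

theorem tensor {c d : ℝ → ℂ} (hc : Integrable c) (hd : Integrable d) (ec : Ev c) (ed : Ev d) :
    HA (fun p => K1 c p.1 * K1 d p.2) ((∫ w, ‖c w‖) * ∫ w, ‖d w‖) := by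
  refine ⟨fun w => c w.1 * d w.2, hc.mul_prod hd, fun w => by
    simp only [Prod.fst_neg, Prod.snd_neg, ec _, ed _], funext fun p => ?_, le_of_eq ?_⟩
  · rw [K1, K1, ← integral_prod_mul, K2]
    refine integral_congr_ae (Eventually.of_forall fun w => ?_)
    simp only [ex_add]; ring
  · rw [← integral_prod_mul]
    simp only [norm_mul]; rfl

/-- pushing a density on `ℝ × ℝ²` along `(u, w) ↦ w + u (1, a)` -/
theorem push {H : ℝ × (ℝ × ℝ) → ℂ} (hH : Integrable H) (he : Ev H) (a : ℝ) :
    HA (fun p => ∫ z, H z * (ex (z.2.1 * p.1 + z.2.2 * p.2) * ex (z.1 * (p.1 + a * p.2))))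
      (∫ z, ‖H z‖) := by
  let T : ℝ × (ℝ × ℝ) → ℝ × (ℝ × ℝ) := fun z => (id z.1, z.2 - z.1 • ((1, a) : ℝ × ℝ))
  have hT : MeasurePreserving T volume volume :=
    (MeasurePreserving.id volume).skew_product (g := fun u w => w - u • ((1, a) : ℝ × ℝ))
      (by fun_prop) (Eventually.of_forall fun u => (measurePreserving_sub_right volume _).map_eq)
  have hc : ∀ {E : Type} [NormedAddCommGroup E] [NormedSpace ℝ E] {F : ℝ × (ℝ × ℝ) → E},
      Integrable F → ∫ w, ∫ u, F (T (u, w)) = ∫ z, F z := fun {E} _ _ {F} hF => by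
    rw [← integral_prod_symm (fun z => F (T z)) (hT.integrable_comp_of_integrable hF),
      ← Measure.volume_eq_prod, ← integral_map hT.measurable.aemeasurable
        (hT.map_eq.symm ▸ hF.aestronglyMeasurable), hT.map_eq]
  have hHT : Integrable (fun z => H (T z)) (volume.prod volume) :=
    hT.integrable_comp_of_integrable hH
  refine ⟨fun w => ∫ u, H (T (u, w)), hHT.integral_prod_right, fun w => ?_, funext fun p => ?_, ?_⟩
  · beta_reduce
    rw [← integral_neg_eq_self]
    refine integral_congr_ae (Eventually.of_forall fun u => ?_)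
    beta_reduce
    rw [← he]
    simp only [T, id, Prod.neg_mk, neg_neg, neg_smul, neg_add_rev, sub_eq_add_neg,
      add_comm]
  · have hF : Integrable fun z : ℝ × (ℝ × ℝ) =>
        H z * (ex (z.2.1 * p.1 + z.2.2 * p.2) * ex (z.1 * (p.1 + a * p.2))) := by
      simp only [← ex_add]
      exact integrable_mul_ex hH (by fun_prop)
    rw [← hc hF, K2]
    refine integral_congr_ae (Eventually.of_forall fun w => ?_)
    simp only [← integral_mul_const, ← ex_add]
    refine integral_congr_ae (Eventually.of_forall fun u => ?_)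
    simp only [T, id, Prod.fst_sub, Prod.snd_sub, Prod.smul_mk, smul_eq_mul]
    congr 2; ring
  · rw [← hc hH.norm]
    exact integral_mono hHT.integral_prod_right.norm hHT.norm.integral_prod_right
      fun w => norm_integral_le_integral_norm _

/-- multiplication by a function of `s + a y` -/
theorem mul_line (h : HA k a') {d : ℝ → ℂ} (hd : Integrable d) (ed : Ev d) (a : ℝ) :
    HA (fun p => k p * K1 d (p.1 + a * p.2)) (a' * ∫ u, ‖d u‖) := by
  obtain ⟨c, h1, h2, rfl, h4⟩ := h
  have := push (H := fun z => d z.1 * c z.2) (hd.mul_prod h1)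
    (fun z => by simp only [Prod.fst_neg, Prod.snd_neg, ed _, h2 _]) a
  refine (this.congr fun p => ?_).mono ?_
  · rw [K1, K2, mul_comm (∫ w : ℝ × ℝ, _), ← integral_prod_mul]
    refine integral_congr_ae (Eventually.of_forall fun z => ?_)
    simp only; ring
  · simp only [norm_mul]
    rw [Measure.volume_eq_prod, integral_prod_mul (fun u => ‖d u‖) fun w => ‖c w‖, mul_comm]
    gcongr

end HA

/-- dilation of a density on the line -/
noncomputable def dil1 (ε : ℝ) (d : ℝ → ℂ) : ℝ → ℂ := fun u => (ε : ℂ) * d (ε * u)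

theorem integrable_dil1 {d : ℝ → ℂ} (hd : Integrable d) {ε : ℝ} (hε : 0 < ε) :
    Integrable (dil1 ε d) := (hd.comp_mul_left' hε.ne').const_mul _

theorem ev_dil1 {d : ℝ → ℂ} (ed : Ev d) (ε : ℝ) : Ev (dil1 ε d) := fun u => by
  simp only [dil1, mul_neg, ed _]

theorem integral_norm_dil1 (d : ℝ → ℂ) {ε : ℝ} (hε : 0 < ε) :
    ∫ u, ‖dil1 ε d u‖ = ∫ u, ‖d u‖ := by
  simp only [dil1, norm_mul, Complex.norm_real, Real.norm_of_nonneg hε.le, integral_const_mul]
  rw [Measure.integral_comp_mul_left (fun u => ‖d u‖), abs_of_pos (inv_pos.2 hε), smul_eq_mul,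
    mul_inv_cancel_left₀ hε.ne']

theorem K1_dil1 (d : ℝ → ℂ) {ε : ℝ} (hε : 0 < ε) (s : ℝ) : K1 (dil1 ε d) s = K1 d (s / ε) := by
  have h : ∀ u, dil1 ε d u * ex (u * s) = ε * (fun v => d v * ex (v * (s / ε))) (ε * u) :=
    fun u => by
      simp only [dil1, mul_assoc]
      congr 3; field_simp
  simp only [K1, h, integral_const_mul]
  rw [Measure.integral_comp_mul_left (fun v => d v * ex (v * (s / ε))), abs_of_pos (inv_pos.2 hε),
    Complex.real_smul, ← mul_assoc, ← Complex.ofReal_mul, mul_inv_cancel₀ hε.ne']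
  simp

/-- `L¹` continuity of translations -/
theorem continuous_transl {d : ℝ → ℂ} (hd : Integrable d) :
    Continuous fun t : ℝ => ∫ u, ‖d u - d (t + u)‖ := by
  have : Fact ((1 : ENNReal) ≠ ⊤) := ⟨ENNReal.one_ne_top⟩
  have hm : MemLp d 1 := memLp_one_iff_integrable.2 hd
  have h3 : Continuous fun t : ℝ => DomAddAct.mk t +ᵥ hm.toLp d :=
    DomAddAct.continuous_mk.vadd continuous_const
  have h4 : Continuous fun t : ℝ => ‖hm.toLp d - (DomAddAct.mk t +ᵥ hm.toLp d)‖ := by fun_prop
  refine h4.congr fun t => ?_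
  rw [DomAddAct.mk_vadd_toLp, ← MemLp.toLp_sub, L1.norm_eq_integral_norm]
  refine integral_congr_ae ((MemLp.coeFn_toLp (hm.sub (hm.comp_measurePreserving
    (measurePreserving_vadd t volume)))).mono fun u hu => ?_)
  exact congrArg norm hu

theorem tendsto_transl {d : ℝ → ℂ} (hd : Integrable d) :
    Tendsto (fun t : ℝ => ∫ u, ‖d u - d (t + u)‖) (𝓝 0) (𝓝 0) := by
  simpa using (continuous_transl hd).tendsto 0

/-- **Ditkin's lemma** along the line `s + a y = 0` -/
theorem HA.ditkin {k : ℝ × ℝ → ℂ} {a' : ℝ} (h : HA k a') {d : ℝ → ℂ} (hd : Integrable d)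
    (ed : Ev d) (a : ℝ) {δ : ℝ} (hδ : 0 < δ) : ∀ᶠ ε in 𝓝[>] (0 : ℝ),
      HA (fun p => (k p - k (-(a * p.2), p.2)) * K1 d ((p.1 + a * p.2) / ε)) δ := by
  obtain ⟨c, h1, h2, rfl, -⟩ := h
  have hS : MeasurePreserving (fun z : ℝ × (ℝ × ℝ) => (z.2.1 + z.1, z.2)) volume volume := by
    have := (MeasurePreserving.id (volume : Measure (ℝ × ℝ))).skew_product
      (g := fun (w : ℝ × ℝ) (u : ℝ) => w.1 + u) (μc := volume) (μd := volume) (by fun_prop)
      (Eventually.of_forall fun w => (measurePreserving_add_left volume _).map_eq)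
    exact (Measure.measurePreserving_swap.comp this).comp Measure.measurePreserving_swap
  have hlim : Tendsto (fun ε : ℝ => ∫ w : ℝ × ℝ, ‖c w‖ * ∫ u, ‖d u - d (ε * w.1 + u)‖) (𝓝 0)
      (𝓝 (∫ w : ℝ × ℝ, ‖c w‖ * 0)) := by
    refine tendsto_integral_filter_of_dominated_convergence
      (fun w => ‖c w‖ * (2 * ∫ u, ‖d u‖)) (Eventually.of_forall fun ε => ?_)
      (Eventually.of_forall fun ε => Eventually.of_forall fun w => ?_) (h1.norm.mul_const _)
      (Eventually.of_forall fun w => ?_)
    · refine h1.norm.1.mul (Measurable.aestronglyMeasurable ?_)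
      exact (continuous_transl hd).measurable.comp (by fun_prop)
    · rw [Real.norm_of_nonneg (mul_nonneg (norm_nonneg _) (integral_nonneg fun _ => norm_nonneg _))]
      gcongr
      have h5 := hd.comp_add_left (ε * w.1)
      rw [two_mul]
      nth_rewrite 2 [← integral_add_left_eq_self (fun u => ‖d u‖) (ε * w.1)]
      rw [← integral_add hd.norm h5.norm]
      exact integral_mono (hd.sub h5).norm (hd.norm.add h5.norm) fun u => norm_sub_le _ _
    · refine Tendsto.const_mul _ ((tendsto_transl hd).comp ?_)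
      simpa using (continuous_mul_const w.1).tendsto (0 : ℝ)
  simp only [mul_zero, integral_zero] at hlim
  filter_upwards [self_mem_nhdsWithin,
    nhdsWithin_le_nhds (hlim.eventually (gt_mem_nhds hδ))] with ε hε hlt
  have hε : 0 < ε := hε
  have i1 : Integrable fun z : ℝ × (ℝ × ℝ) => dil1 ε d z.1 * c z.2 :=
    (integrable_dil1 hd hε).mul_prod h1
  have i2 : Integrable fun z : ℝ × (ℝ × ℝ) => dil1 ε d (z.2.1 + z.1) * c z.2 :=
    hS.integrable_comp_of_integrable i1
  have := HA.push (H := fun z => dil1 ε d z.1 * c z.2 - dil1 ε d (z.2.1 + z.1) * c z.2) (i1.sub i2)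
    (fun z => by simp only [Prod.fst_neg, Prod.snd_neg, ← neg_add, ev_dil1 ed ε _, h2 _]) a
  refine (this.congr fun p => ?_).mono (le_trans (le_of_eq ?_) hlt.le)
  · simp only [sub_mul, ← ex_add]
    rw [integral_sub (integrable_mul_ex i1 (by fun_prop)) (integrable_mul_ex i2 (by fun_prop)),
      ← K1_dil1 d hε, K1, K2, K2, mul_comm (∫ _, _), mul_comm (∫ w : ℝ × ℝ, _),
      ← integral_prod_mul, ← integral_prod_mul]
    congr 1
    · refine integral_congr_ae (Eventually.of_forall fun z => ?_)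
      simp only [ex_add]; ring
    · have i3 : Integrable fun z : ℝ × (ℝ × ℝ) => dil1 ε d z.1 * c z.2 *
          ex (z.1 * (p.1 + a * p.2) + (z.2.1 * -(a * p.2) + z.2.2 * p.2)) :=
        integrable_mul_ex i1 (by fun_prop)
      have e := integral_map hS.measurable.aemeasurable (hS.map_eq.symm ▸ i3.aestronglyMeasurable)
      rw [hS.map_eq] at e
      refine Eq.trans ?_ (e.symm.trans ?_)
      · refine integral_congr_ae (Eventually.of_forall fun z => ?_)
        simp only
        congr 2; ring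
      · refine integral_congr_ae (Eventually.of_forall fun z => ?_)
        simp only [ex_add]; ring
  · have i4 : Integrable (fun z : ℝ × (ℝ × ℝ) =>
        ‖dil1 ε d z.1 * c z.2 - dil1 ε d (z.2.1 + z.1) * c z.2‖) (volume.prod volume) :=
      (i1.sub i2).norm
    rw [Measure.volume_eq_prod, integral_prod_symm _ i4]
    refine integral_congr_ae (Eventually.of_forall fun w => ?_)
    simp only [← sub_mul, norm_mul, integral_mul_const]
    rw [mul_comm, ← integral_norm_dil1 (fun u => d u - d (ε * w.1 + u)) hε]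
    simp only [dil1, mul_sub, mul_add]

end Crest.Agent.N111
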