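import Crest.Agent.N111.Lib.Fou2A

/-! # Row 111: dilation invariant functionals on the even Fourier algebra (helper54). -/

set_option autoImplicit false

namespace Crest.Agent.N111

open MeasureTheory Topology Filter
open scoped ContDiff

theorem exists_bump : ∃ d : ℝ → ℂ, Integrable d ∧ Ev d ∧ ContDiff ℝ ∞ (K1 d) ∧
    (∀ x, |x| ≤ 1 → K1 d x = 1) ∧ ∀ x, 2 ≤ |x| → K1 d x = 0 := by
  let f : ContDiffBump (0 : ℝ) := ⟨1, 2, one_pos, one_lt_two⟩
  have hf : ContDiff ℝ ∞ fun x => ((f x : ℝ) : ℂ) := Complex.ofRealCLM.contDiff.comp f.contDiff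
  obtain ⟨d, h1, -, h3, h4⟩ := exists_K1 hf (f.hasCompactSupport.comp_left Complex.ofReal_zero)
  refine ⟨d, h1, h4 fun x => by simp only [f.neg], h3 ▸ hf, fun x hx => ?_, fun x hx => ?_⟩
  · rw [h3]; simp only
    rw [f.one_of_mem_closedBall (by simpa using hx), Complex.ofReal_one]
  · rw [h3]; simp only
    rw [f.zero_of_le_dist (by simpa using hx), Complex.ofReal_zero]

theorem exists_clm_L1 (Φ : (ℝ × ℝ → ℂ) → ℂ) (C : ℝ)
    (hae : ∀ f g, Integrable f → f =ᵐ[volume] g → Φ f = Φ g)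
    (hadd : ∀ f g, Integrable f → Integrable g → Φ (fun w => f w + g w) = Φ f + Φ g)
    (hsmul : ∀ (z : ℂ) f, Integrable f → Φ (fun w => z * f w) = z * Φ f)
    (hbd : ∀ f, Integrable f → ‖Φ f‖ ≤ C * ∫ w, ‖f w‖) :
    ∃ Λ : ((ℝ × ℝ) →₁[volume] ℂ) →L[ℂ] ℂ, ∀ f, Λ f = Φ f := by
  refine ⟨LinearMap.mkContinuous
    { toFun := fun f => Φ f
      map_add' := fun f g => ?_
      map_smul' := fun z f => ?_ } C fun f => ?_, fun f => rfl⟩
  · rw [← hadd _ _ (L1.integrable_coeFn f) (L1.integrable_coeFn g)]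
    exact hae _ _ (L1.integrable_coeFn _) (Lp.coeFn_add f g)
  · rw [RingHom.id_apply, smul_eq_mul, ← hsmul _ _ (L1.integrable_coeFn f)]
    exact hae _ _ (L1.integrable_coeFn _) (Lp.coeFn_smul z f)
  · rw [L1.norm_eq_integral_norm]
    exact hbd _ (L1.integrable_coeFn f)

theorem K2_congr_ae {f g : ℝ × ℝ → ℂ} (h : f =ᵐ[volume] g) : K2 f = K2 g :=
  funext fun _ => integral_congr_ae (h.mono fun w hw => by simp only [hw])

theorem norm_K2_le (f : ℝ × ℝ → ℂ) (p : ℝ × ℝ) : ‖K2 f p‖ ≤ ∫ w, ‖f w‖ := by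
  refine (norm_integral_le_integral_norm _).trans (le_of_eq ?_)
  simp only [norm_mul, norm_ex, mul_one]

theorem HA.evenPart {f : ℝ × ℝ → ℂ} (hf : Integrable f) :
    HA (fun p => 2⁻¹ * (K2 f p + K2 f (-p))) (∫ w, ‖f w‖) := by
  have hn : Integrable fun w => f (-w) := hf.comp_neg
  refine ⟨fun w => 2⁻¹ * (f w + f (-w)), (hf.add hn).const_mul _,
    fun w => by simp only [neg_neg, add_comm], funext fun p => ?_, ?_⟩
  · rw [K2_smul, K2_add hf hn]
    congr 2
    rw [K2, ← integral_neg_eq_self]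
    simp only [neg_neg, K2, Prod.fst_neg, Prod.snd_neg, neg_mul, mul_neg]
  · have : ∫ w, ‖f w + f (-w)‖ ≤ (∫ w, ‖f w‖) + ∫ w, ‖f (-w)‖ := by
      rw [← integral_add hf.norm hn.norm]
      exact integral_mono (hf.add hn).norm (hf.norm.add hn.norm) fun w => norm_add_le _ _
    rw [integral_neg_eq_self (fun w => ‖f w‖)] at this
    simp only [norm_mul, integral_const_mul, norm_inv, Complex.norm_ofNat]
    linarith

/-- a bounded, dilation invariant functional on even kernels killing the two lines -/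
structure KF (L : (ℝ × ℝ → ℂ) → ℂ) (C : ℝ) : Prop where
  add : ∀ {k k' a a'}, HA k a → HA k' a' → L (fun p => k p + k' p) = L k + L k'
  smul : ∀ {k a}, HA k a → ∀ z : ℂ, L (fun p => z * k p) = z * L k
  bd : ∀ {k a}, HA k a → ‖L k‖ ≤ C * a
  dil : ∀ {k a}, HA k a → ∀ l : ℝ, 0 < l → L (fun p => k (l • p)) = L k
  null : ∀ {k a}, HA k a → ∀ ε R : ℝ, 0 < ε →
    (∀ p : ℝ × ℝ, |p.1| < ε ∨ |p.1 + 2 * p.2| < ε ∨ R < |p.2| → k p = 0) → L k = 0

namespace KF

variable {L : (ℝ × ℝ → ℂ) → ℂ} {C : ℝ} {k k' : ℝ × ℝ → ℂ} {a a' : ℝ}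

theorem sub (H : KF L C) (h : HA k a) (h' : HA k' a') : L (fun p => k p - k' p) = L k - L k' := by
  have := H.add h (h'.smul (-1))
  rw [H.smul h'] at this
  simpa [sub_eq_add_neg] using this

/-- averaging over dilations -/
theorem avg (H : KF L C) (h : HA k a) (V : ℝ) :
    ∃ b, HA (fun p => ∫ v in (0 : ℝ)..V, k (Real.exp (-v) • p)) b ∧
      L (fun p => ∫ v in (0 : ℝ)..V, k (Real.exp (-v) • p)) = V * L k := by
  obtain ⟨Λ, hΛ⟩ := exists_clm_L1 (fun f => L fun p => 2⁻¹ * (K2 f p + K2 f (-p))) C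
    (fun f g _ hfg => by rw [K2_congr_ae hfg])
    (fun f g hf hg => by
      rw [← H.add (HA.evenPart hf) (HA.evenPart hg)]
      congr 1; funext p
      rw [K2_add hf hg, K2_add hf hg]; ring)
    (fun z f hf => by
      rw [← H.smul (HA.evenPart hf)]
      congr 1; funext p
      rw [K2_smul, K2_smul]; ring)
    (fun f hf => H.bd (HA.evenPart hf))
  have hE : ∀ p, ∃ E : ((ℝ × ℝ) →₁[volume] ℂ) →L[ℂ] ℂ, ∀ f, E f = K2 f p := fun p =>
    exists_clm_L1 (fun f => K2 f p) 1 (fun f g _ hfg => by rw [K2_congr_ae hfg])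
      (fun f g hf hg => K2_add hf hg p) (fun z f _ => K2_smul z f p)
      (fun f _ => by rw [one_mul]; exact norm_K2_le f p)
  have hk := h
  obtain ⟨c, h1, h2, rfl, -⟩ := h
  let F : ℝ → ((ℝ × ℝ) →₁[volume] ℂ) := fun v =>
    (integrable_dil h1 (Real.exp_pos (-v)).ne').toL1 _
  have hF : Continuous F := continuous_iff_continuousAt.2 fun v => by
    rw [ContinuousAt, tendsto_iff_norm_sub_tendsto_zero]
    have := (tendsto_dil h1 (Real.exp_pos (-v)).ne').comp
      (show Continuous fun v : ℝ => Real.exp (-v) by fun_prop).continuousAt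
    refine this.congr fun u => ?_
    simp only [F, Function.comp]
    rw [← Integrable.toL1_sub, L1.norm_of_fun_eq_integral_norm]
    rfl
  have hKF : ∀ v p, K2 (F v) p = K2 c (Real.exp (-v) • p) := fun v p => by
    rw [K2_congr_ae (Integrable.coeFn_toL1 _), K2_dil _ (Real.exp_pos _).ne']
  let G : (ℝ × ℝ) →₁[volume] ℂ := ∫ v in (0 : ℝ)..V, F v
  have hG : ∀ p, K2 G p = ∫ v in (0 : ℝ)..V, K2 c (Real.exp (-v) • p) := fun p => by
    obtain ⟨E, hE⟩ := hE p
    rw [← hE, ← E.intervalIntegral_comp_comm (hF.intervalIntegrable _ _)]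
    simp only [hE, hKF]
  have hev : ∀ p, 2⁻¹ * (K2 G p + K2 G (-p)) =
      ∫ v in (0 : ℝ)..V, K2 c (Real.exp (-v) • p) := fun p => by
    simp only [hG, smul_neg, K2_neg_of_ev h2]; ring
  refine ⟨_, (HA.evenPart (L1.integrable_coeFn _)).congr hev, ?_⟩
  rw [← funext hev, ← hΛ, ← Λ.intervalIntegral_comp_comm (hF.intervalIntegrable _ _)]
  have : ∀ v, Λ (F v) = L (K2 c) := fun v => by
    rw [hΛ, ← H.dil hk _ (Real.exp_pos (-v))]
    congr 1; funext p
    simp only [hKF, smul_neg, K2_neg_of_ev h2]; ring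
  simp [this]

theorem eq_zero_of_small {z : ℂ} {B : ℝ} (h : ∀ δ : ℝ, 0 < δ → ‖z‖ ≤ B * δ) : z = 0 := by
  have : Tendsto (fun δ : ℝ => B * δ) (𝓝[>] 0) (𝓝 (B * 0)) :=
    (tendsto_nhdsWithin_of_tendsto_nhds tendsto_id).const_mul B
  rw [mul_zero] at this
  exact norm_le_zero_iff.1 (ge_of_tendsto this (eventually_mem_nhdsWithin.mono h))

/-- **synthesis for the two lines** -/
theorem lines (H : KF L C) (h : HA k a) {R : ℝ} (hR : ∀ p : ℝ × ℝ, R < |p.2| → k p = 0)
    (h0 : ∀ y, k (0, y) = 0) (h2 : ∀ y, k (-(2 * y), y) = 0) : L k = 0 := by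
  obtain ⟨d, hd, ed, -, d1, -⟩ := exists_bump
  refine eq_zero_of_small (B := C + C + C * ∫ u, ‖d u‖) fun δ hδ => ?_
  obtain ⟨ε, ⟨e0, e2⟩, hε⟩ := (((h.ditkin hd ed 0 hδ).and (h.ditkin hd ed 2 hδ)).and
    self_mem_nhdsWithin).exists
  have hε : 0 < ε := hε
  simp only [zero_mul, neg_zero, h0, sub_zero, add_zero] at e0
  simp only [h2, sub_zero] at e2
  have e3 := e0.mul_line (integrable_dil1 hd hε) (ev_dil1 ed ε) 2
  simp only [K1_dil1 d hε, integral_norm_dil1 d hε] at e3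
  have e4 := H.null (((h.sub e0).sub e2).add e3) ε R hε fun p hp => by
    rcases hp with hp | hp | hp
    · rw [d1 (p.1 / ε) (by rw [abs_div, abs_of_pos hε, div_le_one hε]; exact hp.le)]; ring
    · rw [d1 ((p.1 + 2 * p.2) / ε) (by rw [abs_div, abs_of_pos hε, div_le_one hε]; exact hp.le)]
      ring
    · rw [hR p hp]; ring
  rw [H.add ((h.sub e0).sub e2) e3, H.sub (h.sub e0) e2, H.sub h e0] at e4
  have b0 := H.bd e0
  have b2 := H.bd e2
  have b3 := H.bd e3
  generalize L (fun p => k p * K1 d (p.1 / ε)) = x at e4 b0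
  generalize L (fun p => k p * K1 d ((p.1 + 2 * p.2) / ε)) = y at e4 b2
  generalize L (fun p => k p * K1 d (p.1 / ε) * K1 d ((p.1 + 2 * p.2) / ε)) = z at e4 b3
  rw [show L k = x + y - z by linear_combination e4]
  have := norm_sub_le (x + y) z
  have := norm_add_le x y
  linarith

/-- the primitive `∫_s^R g(σ) dσ/σ` -/
theorem exists_prim {g : ℝ → ℂ} (hg : ContDiff ℝ ∞ g) (he : Ev g) {ε R : ℝ} (hε : 0 < ε)
    (h0 : ∀ s, |s| < ε → g s = 0) (hR : ∀ s, R < |s| → g s = 0) :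
    ∃ κ : ℝ → ℂ, Integrable κ ∧ Ev κ ∧ (∀ s, R ≤ |s| → K1 κ s = 0) ∧
      ∀ s V, ∫ v in (0 : ℝ)..V, g (Real.exp (-v) * s) = K1 κ (Real.exp (-V) * s) - K1 κ s := by
  let γ : ℝ → ℂ := fun σ => g σ * ((σ⁻¹ : ℝ) : ℂ)
  have hγ : ContDiff ℝ ∞ γ := contDiff_iff_contDiffAt.2 fun σ => by
    rcases eq_or_ne σ 0 with rfl | hσ
    · refine (contDiffAt_const (c := (0 : ℂ))).congr_of_eventuallyEq ?_
      filter_upwards [Metric.ball_mem_nhds (0 : ℝ) hε] with x hx
      simp only [γ, h0 x (by simpa using hx), zero_mul]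
    · exact hg.contDiffAt.mul (Complex.ofRealCLM.contDiff.contDiffAt.comp σ (contDiffAt_inv ℝ hσ))
  have hi : ∀ x y, IntervalIntegrable γ volume x y := fun x y => hγ.continuous.intervalIntegrable x y
  let k : ℝ → ℂ := fun s => ∫ σ in s..|R|, γ σ
  have hk : ∀ s, HasDerivAt k (-γ s) s := fun s =>
    intervalIntegral.integral_hasDerivAt_left (hi _ _)
      (hγ.continuous.stronglyMeasurableAtFilter _ _) hγ.continuous.continuousAt
  have hks : ContDiff ℝ ∞ k := contDiff_infty_iff_deriv.2 ⟨fun s => (hk s).differentiableAt, by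
    rw [show deriv k = fun s => -γ s from funext fun s => (hk s).deriv]; exact hγ.neg⟩
  have hke : Ev k := fun s => by
    have h1 := intervalIntegral.integral_comp_neg (a := -s) (b := s) (f := γ)
    have h2 : ∀ σ, γ (-σ) = -γ σ := fun σ => by simp [γ, he σ]
    simp only [h2, intervalIntegral.integral_neg, neg_neg] at h1
    have h3 : ∫ σ in -s..s, γ σ = 0 := by linear_combination (-2⁻¹ : ℂ) * h1
    simp only [k]
    rw [← intervalIntegral.integral_add_adjacent_intervals (hi (-s) s) (hi s _), h3, zero_add]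
  have hk0 : ∀ s, R ≤ |s| → k s = 0 := fun s hs => by
    have : k |s| = 0 := by
      refine (intervalIntegral.integral_congr_ae (Eventually.of_forall fun σ hσ => ?_)).trans
        intervalIntegral.integral_zero
      have h1 : R < |σ| := by
        refine lt_of_le_of_lt (le_min hs (le_abs_self R)) (lt_of_lt_of_le hσ.1 (le_abs_self σ))
      simp only [γ, hR σ h1, zero_mul]
    rcases abs_choice s with h | h
    · rwa [h] at this
    · rwa [h, hke] at this
  obtain ⟨κ, h1, -, h3, h4⟩ := exists_K1 hks (HasCompactSupport.intro (isCompact_closedBall 0 R)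
    fun s hs => hk0 s (by simpa using (not_le.1 (mt Metric.mem_closedBall.2 hs)).le))
  refine ⟨κ, h1, h4 hke, h3 ▸ hk0, fun s V => ?_⟩
  have hd : ∀ v, HasDerivAt (fun v => k (Real.exp (-v) * s)) (g (Real.exp (-v) * s)) v := fun v => by
    have h5 : HasDerivAt (fun v => Real.exp (-v) * s) (-(Real.exp (-v) * s)) v := by
      simpa using (hasDerivAt_neg v).exp.mul_const s
    refine ((hk (Real.exp (-v) * s)).scomp v h5).congr_deriv (Eq.symm ?_)
    generalize Real.exp (-v) * s = σ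
    rcases eq_or_ne σ 0 with rfl | hσ
    · simp [h0 0 (by simpa using hε)]
    · have : (σ : ℂ) ≠ 0 := by exact_mod_cast hσ
      simp only [γ, Complex.real_smul]; push_cast; field_simp
  rw [intervalIntegral.integral_eq_sub_of_hasDerivAt (fun v _ => hd v)
    ((hg.continuous.comp (by fun_prop)).intervalIntegrable _ _), h3]
  simp

/-- smooth kernels vanishing near `s = 0` -/
theorem near (H : KF L C) (h : HA k a) (hs : ContDiff ℝ ∞ k) {R ε : ℝ} (hR0 : 0 < R) (hε : 0 < ε)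
    (hR : ∀ p : ℝ × ℝ, R < |p.2| → k p = 0) (h0 : ∀ p : ℝ × ℝ, |p.1| < ε → k p = 0) :
    L k = 0 := by
  obtain ⟨d, hd, ed, -, d1, d2⟩ := exists_bump
  obtain ⟨κ, hκ, eκ, κ0, hp⟩ := exists_prim (g := fun s => k (s, -(s / 2))) (ε := ε) (R := 2 * R)
    (hs.comp (by fun_prop)) (fun s => by beta_reduce; rw [← h.ev]; simp [neg_div]) hε (fun s hs => h0 _ hs)
    fun s hs => hR _ (by rw [abs_neg, abs_div, abs_two]; linarith)
  have key : ∀ V : ℝ, 0 ≤ V → V * ‖L k‖ ≤ C * ((∫ u, ‖κ u‖) * (∫ u, ‖d u‖) +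
      (∫ u, ‖κ u‖) * ∫ u, ‖d u‖) := fun V hV => by
    obtain ⟨b, hA, hL⟩ := H.avg h V
    have he := Real.exp_pos (-V)
    have hr : 0 < R / Real.exp (-V) := div_pos hR0 he
    have t1 := (HA.tensor hκ (integrable_dil1 hd hR0) eκ (ev_dil1 ed R)).dil he.ne'
    have t2 := HA.tensor hκ (integrable_dil1 hd hr) eκ (ev_dil1 ed _)
    simp only [K1_dil1 d hR0, integral_norm_dil1 d hR0, Prod.smul_fst, Prod.smul_snd,
      smul_eq_mul] at t1
    simp only [K1_dil1 d hr, integral_norm_dil1 d hr, div_div_eq_mul_div, mul_comm _ (Real.exp _)]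
      at t2
    have hle : ∀ v ∈ Set.uIcc 0 V, ∀ y : ℝ, |Real.exp (-V) * y| ≤ |Real.exp (-v) * y| :=
      fun v hv y => by
        rw [Set.uIcc_of_le hV] at hv
        rw [abs_mul, abs_mul, abs_of_pos he, abs_of_pos (Real.exp_pos _)]
        gcongr; exact hv.2
    have := H.lines (hA.sub (t1.sub t2)) (R := 2 * R / Real.exp (-V)) (fun p hp => ?_)
      (fun y => ?_) fun y => ?_
    · rw [H.sub hA (t1.sub t2), hL, sub_eq_zero] at this
      have hb := H.bd (t1.sub t2)
      rwa [← this, norm_mul, Complex.norm_real, Real.norm_of_nonneg hV] at hb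
    · have h1 : 2 * R < |Real.exp (-V) * p.2| := by
        rwa [abs_mul, abs_of_pos he, mul_comm (Real.exp _), ← div_lt_iff₀ he]
      rw [d2 _ (by rw [abs_div, abs_of_pos hR0, le_div_iff₀ hR0]; exact h1.le),
        intervalIntegral.integral_congr (g := fun _ => 0) fun v hv =>
          hR _ (by have := hle v hv p.2; simp only [Prod.smul_snd, smul_eq_mul]; linarith)]
      simp
    · rw [intervalIntegral.integral_congr (g := fun _ => 0) fun v _ => h0 _ (by simpa using hε)]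
      simp
    · have h1 := hp (-(2 * y)) V
      have h2 : ∀ v : ℝ, (Real.exp (-v) * -(2 * y), -(Real.exp (-v) * -(2 * y) / 2)) =
          Real.exp (-v) • ((-(2 * y), y) : ℝ × ℝ) := fun v => by
        simp only [Prod.smul_mk, smul_eq_mul]; congr 1; ring
      simp only [h2] at h1
      simp only [h1]
      rcases le_or_gt |Real.exp (-V) * y| R with h3 | h3
      · rw [d1 _ (by rwa [abs_div, abs_of_pos hR0, div_le_one hR0])]; ring
      · have h4 : 2 * R ≤ |Real.exp (-V) * -(2 * y)| := by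
          rw [show Real.exp (-V) * -(2 * y) = -(2 * (Real.exp (-V) * y)) by ring, abs_neg, abs_mul,
            abs_two]
          linarith
        have h5 := hle 0 Set.left_mem_uIcc (-(2 * y))
        rw [neg_zero, Real.exp_zero, one_mul] at h5
        rw [κ0 _ h4, κ0 _ (h4.trans h5)]; ring
  by_contra hne
  have hpos : 0 < ‖L k‖ := norm_pos_iff.2 hne
  generalize C * ((∫ u, ‖κ u‖) * (∫ u, ‖d u‖) + (∫ u, ‖κ u‖) * ∫ u, ‖d u‖) = B at key
  have := key ((|B| + 1) / ‖L k‖) (by positivity)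
  rw [div_mul_cancel₀ _ hpos.ne'] at this
  linarith [le_abs_self B]

/-- smooth kernels vanishing on `s = 0` -/
theorem axis (H : KF L C) (h : HA k a) (hs : ContDiff ℝ ∞ k) {R : ℝ} (hR0 : 0 < R)
    (hR : ∀ p : ℝ × ℝ, R < |p.2| → k p = 0) (h0 : ∀ y, k (0, y) = 0) : L k = 0 := by
  obtain ⟨d, hd, ed, ds, d1, -⟩ := exists_bump
  refine eq_zero_of_small (B := C) fun δ hδ => ?_
  obtain ⟨ε, e0, hε⟩ := ((h.ditkin hd ed 0 hδ).and self_mem_nhdsWithin).exists
  have hε : 0 < ε := hε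
  simp only [zero_mul, neg_zero, h0, sub_zero, add_zero] at e0
  have := H.near (h.sub e0) (hs.sub (hs.mul (ds.comp (by fun_prop)))) hR0 hε
    (fun p hp => by rw [hR p hp]; ring) fun p hp => by
      rw [d1 (p.1 / ε) (by rw [abs_div, abs_of_pos hε, div_le_one hε]; exact hp.le)]; ring
  rw [H.sub h e0, sub_eq_zero] at this
  exact this ▸ H.bd e0

end KF

end Crest.Agent.N111
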