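import Crest.Agent.N111.Lib.BM

/-! # Row 111: scalar lemmas for `Lib/Fou3` (averages, equicontinuity, characters). -/

set_option autoImplicit false
set_option linter.unusedVariables false

namespace Crest.Agent.N111

open MeasureTheory Topology Filter

/-- the average of `F` over `[n+1, 2(n+1)]` -/
noncomputable def avg (n : ℕ) (F : ℝ → ℂ) : ℂ :=
  ((n + 1 : ℝ) : ℂ)⁻¹ * ∫ u in (n + 1 : ℝ)..(2 * (n + 1)), F u

theorem norm_avg_le {F : ℝ → ℂ} {C : ℝ} (n : ℕ) (h : ∀ u, (n + 1 : ℝ) ≤ u → ‖F u‖ ≤ C) :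
    ‖avg n F‖ ≤ C := by
  have hn : (0 : ℝ) < n + 1 := by positivity
  have h1 : ‖∫ u in (n + 1 : ℝ)..(2 * (n + 1)), F u‖ ≤ C * |2 * ((n : ℝ) + 1) - (n + 1)| := by
    refine intervalIntegral.norm_integral_le_of_norm_le_const fun x hx => h x ?_
    rw [Set.uIoc_of_le (by linarith)] at hx
    exact hx.1.le
  rw [show 2 * ((n : ℝ) + 1) - (n + 1) = n + 1 by ring, abs_of_pos hn] at h1
  rw [avg, norm_mul, norm_inv, Complex.norm_real, Real.norm_of_nonneg hn.le,
    inv_mul_le_iff₀ hn]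
  linarith

theorem avg_const (n : ℕ) (a : ℂ) : avg n (fun _ => a) = a := by
  have hn : ((n + 1 : ℝ) : ℂ) ≠ 0 := by
    have : (0 : ℝ) < n + 1 := by positivity
    exact_mod_cast this.ne'
  rw [avg, intervalIntegral.integral_const,
    show 2 * ((n : ℝ) + 1) - (n + 1) = n + 1 by ring, Complex.real_smul, ← mul_assoc,
    inv_mul_cancel₀ hn, one_mul]

theorem avg_sub (n : ℕ) {F G : ℝ → ℂ} (hF : Continuous F) (hG : Continuous G) :
    avg n (fun u => F u - G u) = avg n F - avg n G := by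
  rw [avg, avg, avg, intervalIntegral.integral_sub (hF.intervalIntegrable _ _)
    (hG.intervalIntegrable _ _), mul_sub]

theorem tendsto_avg_shift {F : ℝ → ℂ} (hF : Continuous F) {C : ℝ} (h : ∀ u, ‖F u‖ ≤ C) (a : ℝ) :
    Tendsto (fun n => avg n (fun u => F (u + a)) - avg n F) atTop (𝓝 0) := by
  have hb : ∀ x : ℝ, ‖∫ u in x..(x + a), F u‖ ≤ C * |a| := fun x => by
    have := intervalIntegral.norm_integral_le_of_norm_le_const (a := x) (b := x + a) (f := F)
      (C := C) fun y _ => h y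
    simpa using this
  have key : ∀ n : ℕ, ‖avg n (fun u => F (u + a)) - avg n F‖ ≤ (2 * (C * |a|)) / (n + 1 : ℝ) := by
    intro n
    have hn : (0 : ℝ) < n + 1 := by positivity
    have hi : ∀ x y : ℝ, IntervalIntegrable F volume x y := fun x y => hF.intervalIntegrable _ _
    have e : (∫ u in (n + 1 : ℝ)..(2 * (n + 1)), F (u + a))
        - ∫ u in (n + 1 : ℝ)..(2 * (n + 1)), F u
        = (∫ u in (2 * (n + 1) : ℝ)..(2 * (n + 1) + a), F u)
          - ∫ u in (n + 1 : ℝ)..(n + 1 + a), F u := by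
      rw [intervalIntegral.integral_comp_add_right F a]
      exact intervalIntegral.integral_interval_sub_interval_comm' (hi _ _) (hi _ _) (hi _ _)
    rw [avg, avg, ← mul_sub, e, norm_mul, norm_inv, Complex.norm_real, Real.norm_of_nonneg hn.le,
      div_eq_inv_mul]
    refine mul_le_mul_of_nonneg_left ((norm_sub_le _ _).trans ?_) (by positivity)
    linarith [hb (2 * (n + 1)), hb (n + 1)]
  refine squeeze_zero_norm key ?_
  exact tendsto_const_nhds.div_atTop
    (tendsto_atTop_add_const_right _ _ tendsto_natCast_atTop_atTop)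

theorem tendsto_avg_of_tendsto {F : ℝ → ℂ} (hF : Continuous F) {a : ℂ}
    (h : Tendsto F atTop (𝓝 a)) : Tendsto (fun n => avg n F) atTop (𝓝 a) := by
  rw [Metric.tendsto_atTop] at h ⊢
  intro ε hε
  obtain ⟨R, hR⟩ := h (ε / 2) (half_pos hε)
  obtain ⟨N, hN⟩ := exists_nat_ge R
  refine ⟨N, fun n hn => ?_⟩
  have hn' : (N : ℝ) ≤ n := by exact_mod_cast hn
  have h1 : ‖avg n fun u => F u - a‖ ≤ ε / 2 :=
    norm_avg_le n fun u hu => by
      have := hR u (by linarith)
      rw [dist_eq_norm] at this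
      exact this.le
  rw [avg_sub n hF continuous_const, avg_const] at h1
  rw [dist_eq_norm]
  linarith

theorem frequently_lt_of_avg {F : ℝ → ℝ} (hF : Continuous F) (h0 : ∀ u, 0 ≤ F u)
    (h : Tendsto (fun n => avg n fun u => (F u : ℂ)) atTop (𝓝 0)) {ε : ℝ} (hε : 0 < ε) :
    ∃ᶠ u in atTop, F u < ε := by
  by_contra hc
  rw [not_frequently, eventually_atTop] at hc
  obtain ⟨R, hR⟩ := hc
  obtain ⟨N, hN⟩ := exists_nat_ge R
  rw [Metric.tendsto_atTop] at h
  obtain ⟨M, hM⟩ := h ε hε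
  have h1 := hM (max N M) (le_max_right _ _)
  set n := max N M
  have hn' : (N : ℝ) ≤ n := by exact_mod_cast le_max_left N M
  have hn : (0 : ℝ) < n + 1 := by positivity
  have h2 : ∫ u in (n + 1 : ℝ)..(2 * (n + 1)), ε ≤ ∫ u in (n + 1 : ℝ)..(2 * (n + 1)), F u :=
    intervalIntegral.integral_mono_on (by linarith) (continuous_const.intervalIntegrable _ _)
      (hF.intervalIntegrable _ _) fun x hx => not_lt.1 (hR x (by linarith [hx.1]))
  rw [intervalIntegral.integral_const, show 2 * ((n : ℝ) + 1) - (n + 1) = n + 1 by ring,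
    smul_eq_mul] at h2
  rw [dist_zero_right, avg, intervalIntegral.integral_ofReal, norm_mul, norm_inv,
    Complex.norm_real, Complex.norm_real, Real.norm_of_nonneg hn.le, inv_mul_lt_iff₀ hn,
    Real.norm_eq_abs] at h1
  linarith [le_abs_self (∫ u in (n + 1 : ℝ)..(2 * (n + 1)), F u)]

/-- interchange of an arbitrary limit with an integral, for equicontinuous families -/
theorem tendsto_integral_of_equicont {α : Type} {l : Filter α} {g : α → ℝ → ℂ} {c : ℝ → ℂ}
    (hc : Integrable c) {C : ℝ} (hb : ∀ n τ, ‖g n τ‖ ≤ C) (hg : Equicontinuous g) {G : ℝ → ℂ}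
    (h : ∀ τ, Tendsto (fun n => g n τ) l (𝓝 (G τ))) :
    Tendsto (fun n => ∫ τ, c τ * g n τ) l (𝓝 (∫ τ, c τ * G τ)) := by
  rcases l.eq_or_neBot with rfl | hl
  · exact tendsto_bot
  have hG : Continuous G := (tendsto_pi_nhds.2 h).continuous_of_equicontinuous hg
  have hGb : ∀ τ, ‖G τ‖ ≤ C := fun τ =>
    le_of_tendsto (h τ).norm (Eventually.of_forall fun n => hb n τ)
  have hC : 0 ≤ C := (norm_nonneg _).trans (hGb 0)
  have hU : ∀ R : ℝ, TendstoUniformlyOn g G l (Set.Icc (-R) R) := by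
    intro R
    have h1 := (EquicontinuousOn.tendsto_uniformOnFun_iff_pi (𝔖 := {S : Set ℝ | IsCompact S})
      (fun _ hK => hK) (Set.eq_univ_of_forall fun x => ⟨{x}, isCompact_singleton, rfl⟩)
      (fun S _ => hg.equicontinuousOn S) l G).2 (tendsto_pi_nhds.2 h)
    exact UniformOnFun.tendsto_iff_tendstoUniformlyOn.1 h1 _ isCompact_Icc
  -- the tail
  let b : ℕ → ℝ → ℝ := fun R τ => (Set.Icc (-(R : ℝ)) R)ᶜ.indicator (fun τ => ‖c τ‖) τ
  have hbi : ∀ R, Integrable (b R) := fun R => hc.norm.indicator measurableSet_Icc.compl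
  have hb0 : Tendsto (fun R => ∫ τ, b R τ) atTop (𝓝 0) := by
    have := tendsto_integral_of_dominated_convergence (F := b) (f := fun _ => 0) (μ := volume)
      (fun τ => ‖c τ‖) (fun R => (hbi R).aestronglyMeasurable) hc.norm
      (fun R => Eventually.of_forall fun τ => by
        simpa using norm_indicator_le_norm_self (s := (Set.Icc (-(R : ℝ)) R)ᶜ)
          (fun τ => ‖c τ‖) τ)
      (Eventually.of_forall fun τ => by
        refine tendsto_const_nhds.congr' ?_
        obtain ⟨N, hN⟩ := exists_nat_ge |τ|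
        filter_upwards [eventually_ge_atTop N] with R hR
        have hR' : (N : ℝ) ≤ R := by exact_mod_cast hR
        have : τ ∈ Set.Icc (-(R : ℝ)) R := abs_le.1 (hN.trans hR')
        simp [b, this])
    simpa using this
  have hint : ∀ {f : ℝ → ℂ}, Continuous f → (∀ τ, ‖f τ‖ ≤ C) → Integrable fun τ => c τ * f τ :=
    fun {f} hf hfb => hc.mul_bdd (c := C) hf.aestronglyMeasurable (Eventually.of_forall hfb)
  rw [Metric.tendsto_nhds]
  intro ε hε
  set A := ∫ τ, ‖c τ‖ with hA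
  have hA0 : 0 ≤ A := integral_nonneg fun _ => norm_nonneg _
  have h1 : Tendsto (fun R => 2 * C * ∫ τ, b R τ) atTop (𝓝 0) := by
    simpa using hb0.const_mul (2 * C)
  obtain ⟨R, hR⟩ := (h1.eventually (gt_mem_nhds (half_pos hε))).exists
  have hδ : 0 < ε / 2 / (A + 1) := by positivity
  filter_upwards [Metric.tendstoUniformlyOn_iff.1 (hU R) _ hδ] with n hn
  have hgn := hg.continuous n
  rw [dist_eq_norm, ← integral_sub (hint hgn (hb n)) (hint hG hGb)]
  have h2 : ‖∫ τ, (c τ * g n τ - c τ * G τ)‖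
      ≤ ∫ τ, (ε / 2 / (A + 1) * ‖c τ‖ + 2 * C * b R τ) := by
    refine norm_integral_le_of_norm_le ((hc.norm.const_mul _).add ((hbi R).const_mul _))
      (Eventually.of_forall fun τ => ?_)
    rw [← mul_sub, norm_mul]
    by_cases hτ : τ ∈ Set.Icc (-(R : ℝ)) R
    · have h3 := hn τ hτ
      rw [dist_comm, dist_eq_norm] at h3
      have : b R τ = 0 := by simp [b, hτ]
      rw [this, mul_zero, add_zero, mul_comm]
      exact mul_le_mul_of_nonneg_right h3.le (norm_nonneg _)
    · have : b R τ = ‖c τ‖ := by simp [b, hτ]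
      rw [this]
      have h3 : ‖g n τ - G τ‖ ≤ 2 * C := (norm_sub_le _ _).trans (by linarith [hb n τ, hGb τ])
      nlinarith [norm_nonneg (c τ), mul_nonneg hδ.le (norm_nonneg (c τ))]
  rw [integral_add (hc.norm.const_mul _) ((hbi R).const_mul _), integral_const_mul,
    integral_const_mul, ← hA] at h2
  have h4 : ε / 2 / (A + 1) * A ≤ ε / 2 := by
    rw [div_mul_eq_mul_div, div_le_iff₀ (by positivity)]
    nlinarith
  linarith

/-- the ping-pong sum -/
theorem sum_inv_one_add_sq_le (r : ℝ) (n : ℕ) :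
    ∑ k ∈ Finset.range n, 1 / (1 + (r + k) ^ 2) ≤ 5 := by
  let φ : ℝ → ℝ := fun x => x / (1 + |x|)
  have hφ : ∀ x, |φ x| ≤ 1 := fun x => by
    simp only [φ]
    rw [abs_div, abs_of_pos (by positivity : 0 < 1 + |x|), div_le_one (by positivity)]
    linarith
  have key : ∀ x : ℝ, 1 / (1 + x ^ 2) ≤ 5 / 2 * (φ (x + 1 / 2) - φ (x - 1 / 2)) := by
    intro x
    simp only [φ]
    have h1 : 0 < 1 + |x + 1 / 2| := by positivity
    have h2 : 0 < 1 + |x - 1 / 2| := by positivity
    rw [div_sub_div _ _ h1.ne' h2.ne', ← mul_div_assoc,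
      div_le_div_iff₀ (by positivity) (by positivity)]
    rcases le_total 0 (x - 1 / 2) with h | h
    · rw [abs_of_nonneg h, abs_of_nonneg (by linarith : 0 ≤ x + 1 / 2)]
      nlinarith [sq_nonneg (x - 1)]
    · rcases le_total 0 (x + 1 / 2) with h' | h'
      · rw [abs_of_nonpos h, abs_of_nonneg h']
        have : x ^ 2 ≤ 1 / 4 := by nlinarith
        nlinarith [sq_nonneg x]
      · rw [abs_of_nonpos h, abs_of_nonpos h']
        nlinarith [sq_nonneg (x + 1)]
  have h1 : ∑ k ∈ Finset.range n, 1 / (1 + (r + k) ^ 2)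
      ≤ ∑ k ∈ Finset.range n, (5 / 2 * φ (r + ((k + 1 : ℕ) : ℝ) - 1 / 2)
        - 5 / 2 * φ (r + k - 1 / 2)) := by
    refine Finset.sum_le_sum fun k _ => ?_
    have := key (r + k)
    rw [show r + ((k + 1 : ℕ) : ℝ) - 1 / 2 = r + k + 1 / 2 by push_cast; ring]
    linarith
  rw [Finset.sum_range_sub (fun k : ℕ => 5 / 2 * φ (r + k - 1 / 2))] at h1
  linarith [abs_le.1 (hφ (r + n - 1 / 2)), abs_le.1 (hφ (r + (0 : ℕ) - 1 / 2))]

theorem exists_char {χ : ℝ → ℂ} (hc : Continuous χ) (h : ∀ s t, χ (s + t) = χ s * χ t)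
    (hn : ∀ t, ‖χ t‖ = 1) : ∃ l : ℝ, ∀ t, χ t = ex (l * t) := by
  have h0 : χ 0 = 1 := by
    have h1 := h 0 0
    rw [add_zero] at h1
    have h2 : χ 0 ≠ 0 := fun h' => by simpa [h'] using hn 0
    exact (mul_eq_left₀ h2).1 h1.symm
  let F : ℝ → ℂ := fun x => ∫ t in (0 : ℝ)..x, χ t
  have hF : ∀ x, HasDerivAt F (χ x) x := fun x => (hc.integral_hasStrictDerivAt 0 x).hasDerivAt
  obtain ⟨δ, hδ⟩ : ∃ δ, F δ ≠ 0 := by
    by_contra hc'
    push Not at hc'
    have h1 : F = fun _ => 0 := funext hc'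
    have h2 := hF 0
    rw [h1, h0] at h2
    exact one_ne_zero (h2.unique (hasDerivAt_const _ _))
  have hχ : ∀ x, χ x = (F (x + δ) - F x) / F δ := by
    intro x
    rw [eq_div_iff hδ]
    simp only [F]
    rw [intervalIntegral.integral_interval_sub_left (hc.intervalIntegrable _ _)
      (hc.intervalIntegrable _ _), ← intervalIntegral.integral_const_mul]
    simp_rw [← h]
    rw [intervalIntegral.integral_comp_add_left χ x, add_zero]
  set c : ℂ := (χ δ - 1) / F δ
  have hd : ∀ x, HasDerivAt χ (c * χ x) x := by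
    intro x
    have h1 : HasDerivAt (fun x => (F (x + δ) - F x) / F δ) ((χ (x + δ) - χ x) / F δ) x :=
      (((hF (x + δ)).comp_add_const x δ).sub (hF x)).div_const _
    have h2 : (fun x => (F (x + δ) - F x) / F δ) = χ := funext fun x => (hχ x).symm
    rw [h2] at h1
    convert h1 using 1
    rw [h]; simp only [c]; ring
  have hd' : ∀ x : ℝ, HasDerivAt (fun x : ℝ => Complex.exp (-(c * x)) * χ x) 0 x := by
    intro x
    have h1 : HasDerivAt (fun x : ℝ => -(c * (x : ℂ))) (-(c * ((1 : ℝ) : ℂ))) x :=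
      (((hasDerivAt_id x).ofReal_comp).const_mul c).neg
    exact (h1.cexp.fun_mul (hd x)).congr_deriv (by push_cast; ring)
  have hk : ∀ x : ℝ, χ x = Complex.exp (c * x) := by
    intro x
    have h1 := is_const_of_deriv_eq_zero (fun x => (hd' x).differentiableAt)
      (fun x => (hd' x).deriv) x 0
    simp only [Complex.ofReal_zero, mul_zero, neg_zero, Complex.exp_zero, h0, mul_one] at h1
    rw [Complex.exp_neg, inv_mul_eq_one₀ (Complex.exp_ne_zero _)] at h1
    exact h1.symm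
  have hre : c.re = 0 := by
    have h1 := hn 1
    rw [hk, Complex.norm_exp] at h1
    simpa using h1
  refine ⟨c.im, fun t => ?_⟩
  rw [hk, ex]
  congr 1
  apply Complex.ext <;> simp [hre]

theorem eq_zero_of_ex_div {a : ℝ} (h : ∀ q : ℕ, ex (a / (q + 1)) = 1) : a = 0 := by
  obtain ⟨q, hq⟩ := exists_nat_ge |a|
  have hq1 : (0 : ℝ) < q + 1 := by positivity
  have h1 := h q
  rw [ex, Complex.exp_eq_one_iff] at h1
  obtain ⟨m, hm⟩ := h1
  have h2 : a / (q + 1) = m * (2 * Real.pi) := by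
    have := congrArg Complex.im hm
    rw [Complex.mul_im, Complex.ofReal_re, Complex.ofReal_im] at this
    simpa using this
  have h3 : |a / (q + 1)| < 1 := by
    rw [abs_div, abs_of_pos hq1, div_lt_one hq1]; linarith
  have h4 : m = 0 := by
    by_contra hm0
    have h5 : (1 : ℝ) ≤ |(m : ℝ)| := by exact_mod_cast Int.one_le_abs hm0
    rw [h2, abs_mul, abs_of_pos (by positivity : 0 < 2 * Real.pi)] at h3
    nlinarith [Real.pi_gt_three]
  rw [h4] at h2
  simpa [hq1.ne'] using h2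

theorem exists_bichar {χ : ℝ → ℝ → ℂ} (hc : Continuous fun p : ℝ × ℝ => χ p.1 p.2)
    (h₁ : ∀ s s' t, χ (s + s') t = χ s t * χ s' t) (h₂ : ∀ s t t', χ s (t + t') = χ s t * χ s t')
    (hn : ∀ s t, ‖χ s t‖ = 1) : ∃ θ : ℝ, ∀ s t, χ s t = ex (θ * s * t) := by
  have hl : ∀ s, ∃ l : ℝ, ∀ t, χ s t = ex (l * t) := fun s =>
    exists_char (hc.comp (continuous_const.prodMk continuous_id)) (h₂ s) (hn s)
  have hm : ∀ t, ∃ l : ℝ, ∀ s, χ s t = ex (l * s) := fun t =>
    exists_char (χ := fun s => χ s t) (hc.comp (continuous_id.prodMk continuous_const))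
      (fun s s' => h₁ s s' t) (fun s => hn s t)
  choose l hl using hl
  choose m hm using hm
  have hpow : ∀ (a : ℝ) (k : ℕ), ex (k * a) = ex a ^ k := fun a k => by
    rw [ex, ex, ← Complex.exp_nat_mul]; congr 1; push_cast; ring
  refine ⟨m 1, fun s t => ?_⟩
  have key : l s - m 1 * s = 0 := by
    refine eq_zero_of_ex_div fun q => ?_
    have hq : ((q : ℝ) + 1) ≠ 0 := by positivity
    have e1 : χ s (1 / (q + 1)) = χ (s / (q + 1)) (1 / (q + 1)) ^ (q + 1) := by
      rw [hm, hm, ← hpow]; congr 1; push_cast; field_simp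
    have e2 : χ (s / (q + 1)) 1 = χ (s / (q + 1)) (1 / (q + 1)) ^ (q + 1) := by
      rw [hl, hl, ← hpow]; congr 1; push_cast; field_simp
    have e3 : ex (l s * (1 / (q + 1))) = ex (m 1 * (s / (q + 1))) := by
      rw [← hl, e1, ← e2, hm]
    have e4 : (l s - m 1 * s) / (q + 1) = l s * (1 / (q + 1)) + -(m 1 * (s / (q + 1))) := by ring
    rw [e4, ex_add, e3, ← ex_add, add_neg_cancel, ex_zero]
  rw [hl, sub_eq_zero.1 key]

end Crest.Agent.N111
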