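import Crest.Agent.N111.Lib.POVM2
import Crest.Agent.N111.Lib.MClass
import Crest.Agent.N111.Stone.Stone

/-! # Row 111: existence of POVMs (Riesz-Markov, joint, Stone). -/

set_option autoImplicit false
set_option linter.unusedSectionVars false
set_option linter.unusedVariables false

namespace Crest.Agent.N111

open MeasureTheory Topology Filter
open scoped InnerProductSpace

variable {Y Z K : Type} [MeasurableSpace Y] [MeasurableSpace Z] [NormedAddCommGroup K]
  [InnerProductSpace ℂ K] [CompleteSpace K]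

namespace POVM

open scoped CompactlySupported in
lemma exists_riesz {Z : Type} [MetricSpace Z] [CompactSpace Z] [MeasurableSpace Z]
    [BorelSpace Z] (L : C(Z, ℂ) →ₗ[ℂ] ℂ)
    (hpos : ∀ f : C(Z, ℂ), (∀ z, 0 ≤ (f z).re ∧ (f z).im = 0) → 0 ≤ (L f).re ∧ (L f).im = 0) :
    ∃ ν : Measure Z, IsFiniteMeasure ν ∧ ∀ f : C(Z, ℂ), L f = ∫ z, f z ∂ν := by
  let c : C(Z, ℝ) → C(Z, ℂ) := fun u => ⟨fun z => (u z : ℂ), by fun_prop⟩
  have hp : ∀ u : C(Z, ℝ), (∀ z, 0 ≤ u z) → 0 ≤ (L (c u)).re ∧ (L (c u)).im = 0 := fun u hu =>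
    hpos _ fun z => ⟨hu z, Complex.ofReal_im _⟩
  have cs : ∀ u w : C(Z, ℝ), c (u - w) = c u - c w := fun u w => by ext z; simp [c]
  let Λ : C_c(Z, ℝ) →ₚ[ℝ] ℝ :=
    { toFun := fun u => (L (c u.toContinuousMap)).re
      map_add' := fun u w => by
        rw [← Complex.add_re, ← map_add]; congr 2; ext z; simp [c]
      map_smul' := fun a u => by
        rw [RingHom.id_apply, smul_eq_mul, ← Complex.re_ofReal_mul, ← smul_eq_mul, ← map_smul]
        congr 2; ext z; simp [c]
      monotone' := fun u w h => by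
        have := (hp (w.toContinuousMap - u.toContinuousMap) fun z => sub_nonneg.2 (h z)).1
        rw [cs, map_sub, Complex.sub_re] at this
        exact sub_nonneg.1 this }
  have hr : ∀ u : C(Z, ℝ), L (c u) = ∫ z, (u z : ℂ) ∂(RealRMK.rieszMeasure Λ) := fun u => by
    have h1 := RealRMK.integral_rieszMeasure Λ ⟨u, HasCompactSupport.of_compactSpace _⟩
    rw [integral_complex_ofReal]
    refine Complex.ext h1.symm ?_
    have h2 : u = (u + ContinuousMap.const Z ‖u‖) - ContinuousMap.const Z ‖u‖ := by abel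
    rw [Complex.ofReal_im, h2, cs, map_sub, Complex.sub_im, (hp _ fun z => ?_).2,
      (hp _ fun z => norm_nonneg u).2, sub_zero]
    have := u.norm_coe_le_norm z
    have := neg_abs_le (u z)
    rw [Real.norm_eq_abs] at *
    simp only [ContinuousMap.add_apply, ContinuousMap.const_apply]
    linarith
  refine ⟨RealRMK.rieszMeasure Λ, inferInstance, fun f => ?_⟩
  let u : C(Z, ℝ) := ⟨fun z => (f z).re, by fun_prop⟩
  let w : C(Z, ℝ) := ⟨fun z => (f z).im, by fun_prop⟩
  have e : f = c u + Complex.I • c w := by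
    ext z
    simp only [c, u, w, ContinuousMap.add_apply, ContinuousMap.smul_apply, ContinuousMap.coe_mk,
      smul_eq_mul]
    rw [mul_comm, Complex.re_add_im]
  conv_lhs => rw [e, map_add, map_smul, hr, hr, smul_eq_mul, ← integral_const_mul]
  refine (integral_add ((BM.of_cm (c u)).integrable _)
    (((BM.of_cm (c w)).const_mul Complex.I).integrable _)).symm.trans ?_
  exact integral_congr_ae (Eventually.of_forall fun z => (DFunLike.congr_fun e z).symm)

/-- Riesz-Markov -/
theorem exists_of_pos {Z : Type} [MetricSpace Z] [CompactSpace Z] [MeasurableSpace Z]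
    [BorelSpace Z] (Λ : C(Z, ℂ) →ₗ[ℂ] (K →L[ℂ] K))
    (hpos : ∀ (f : C(Z, ℂ)) (η : K), (∀ z, 0 ≤ (f z).re ∧ (f z).im = 0) → 0 ≤ (⟪η, Λ f η⟫_ℂ).re ∧
      (⟪η, Λ f η⟫_ℂ).im = 0) (h1 : Λ 1 = 1) :
    ∃ P : POVM Z K, ∀ f : C(Z, ℂ), P.E f = Λ f := by
  choose ν hfin hν using fun η : K => exists_riesz
    (((innerSL ℂ η).comp (ContinuousLinearMap.apply ℂ K η)).toLinearMap.comp Λ)
    fun f hf => hpos f η hf
  replace hν : ∀ η (f : C(Z, ℂ)), ⟪η, Λ f η⟫_ℂ = ∫ z, f z ∂ν η := hν
  have hm : ∀ η, (ν η).real Set.univ = ‖η‖ ^ 2 := fun η => by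
    have := hν η 1
    rw [h1, one_apply_eq_self, inner_self_eq_norm_sq_to_K] at this
    simp only [ContinuousMap.one_apply, integral_const, Complex.real_smul, mul_one] at this
    exact Complex.ofReal_injective (by rw [← this]; simp)
  have hp : MClass fun f : Z → ℂ => ∃ T : K →L[ℂ] K, ∀ η, ⟪η, T η⟫_ℂ = ∫ z, f z ∂ν η :=
    { add := by
        rintro f g hf hg ⟨S, hS⟩ ⟨T, hT⟩
        exact ⟨S + T, fun η => by
          rw [_root_.add_apply, inner_add_right, hS, hT,
            integral_add (hf.integrable _) (hg.integrable _)]⟩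
      smul := by
        rintro c f hf ⟨S, hS⟩
        exact ⟨c • S, fun η => by
          rw [_root_.smul_apply, inner_smul_right, hS, integral_const_mul]⟩
      lim := fun f g C hf hC hl hT => by
        choose T hT using hT
        have hb : ∀ n, ‖T n‖ ≤ 4 * max C 0 := fun n =>
          norm_le_of_inner (le_max_right _ _) fun η => by
            rw [hT, ← hm]
            exact norm_integral_le_of_norm_le_const
              (Eventually.of_forall fun z => (hC n z).trans (le_max_left _ _))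
        obtain ⟨S, -, hS⟩ := exists_wtends (Ultrafilter.of atTop) (Eventually.of_forall hb)
        refine ⟨S, fun η => tendsto_nhds_unique (hS η η) ?_⟩
        simp only [hT]
        exact (tendsto_integral_of_dominated_convergence (fun _ => C)
          (fun n => (hf n).aestronglyMeasurable) (integrable_const _)
          (fun n => Eventually.of_forall (hC n)) (Eventually.of_forall hl)).mono_left
          (Ultrafilter.of_le _) }
  have key : ∀ f : Z → ℂ, ∃ T : K →L[ℂ] K, BM f → ∀ η, ⟪η, T η⟫_ℂ = ∫ z, f z ∂ν η := fun f => by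
    by_cases hf : BM f
    · exact (hp.of_cm (fun f => ⟨Λ f, fun η => hν η f⟩) hf).imp fun T hT _ => hT
    · exact ⟨0, fun h => (hf h).elim⟩
  choose E hE using key
  have hc : ∀ f : C(Z, ℂ), E f = Λ f := fun f =>
    op_ext fun η => by rw [hE f (BM.of_cm f), hν]
  exact ⟨⟨E, ν, hfin, hE, (hc 1).trans h1⟩, hc⟩

theorem isPVM_of_cont [PseudoMetricSpace Y] [BorelSpace Y] (P : POVM Y K)
    (h : ∀ f g, Continuous f → BM f → Continuous g → BM g →
      P.E (fun y => f y * g y) = P.E f * P.E g) : P.IsPVM := by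
  have h1 : ∀ f, Continuous f → BM f → ∀ g, BM g →
      P.E (fun y => f y * g y) = P.E f * P.E g * 1 := fun f hf hb =>
    (P.isPoly1.comp measurable_id hb).ext_cont (P.isPoly1.mul (P.E f) 1) fun g hg hg' => by
      rw [mul_one]; exact h f g hf hb hg hg'
  intro f g hf hg
  have := (P.isPoly1.comp measurable_id hg).ext_cont (P.isPoly1.mul 1 (P.E g))
    (fun f hf hb => by
      rw [one_mul, ← mul_one (_ * _), ← h1 f hf hb g hg]; simp only [id, mul_comm]) f hf
  simpa only [id, one_mul, mul_comm (g _)] using this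

section rep

variable {X : Type} [MetricSpace X] [CompactSpace X] [MeasurableSpace X] [BorelSpace X]

/-- the PVM of a representation of `C(X)` -/
theorem exists_of_rep (Θ : MOI.Rep X (K →L[ℂ] K)) :
    ∃ P : POVM X K, P.IsPVM ∧ ∀ f : C(X, ℂ), P.E f = Θ f := by
  obtain ⟨P, hP⟩ := exists_of_pos (Θ.toAlgHom.toLinearMap) (fun f η hf => by
    let g : C(X, ℂ) := ⟨fun z => ((√(f z).re : ℝ) : ℂ), by fun_prop⟩
    have e : f = star g * g := by
      ext z
      change f z = star ((√(f z).re : ℝ) : ℂ) * ((√(f z).re : ℝ) : ℂ)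
      rw [Complex.star_def, Complex.conj_ofReal, ← Complex.ofReal_mul, Real.mul_self_sqrt (hf z).1]
      exact Complex.ext rfl (hf z).2
    have e2 : ⟪η, Θ f η⟫_ℂ = ((‖Θ g η‖ ^ 2 : ℝ) : ℂ) := by
      rw [e, map_mul, map_star, mul_apply_eq_comp, ContinuousLinearMap.star_eq_adjoint,
        ContinuousLinearMap.adjoint_inner_right, inner_self_eq_norm_sq_to_K]
      norm_cast
    change 0 ≤ (⟪η, Θ f η⟫_ℂ).re ∧ (⟪η, Θ f η⟫_ℂ).im = 0
    rw [e2]
    exact ⟨sq_nonneg _, Complex.ofReal_im _⟩) (map_one Θ)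
  replace hP : ∀ f : C(X, ℂ), P.E f = Θ f := hP
  exact ⟨P, P.isPVM_of_cont fun f g hf _ hg _ => (hP (⟨f, hf⟩ * ⟨g, hg⟩)).trans
    ((map_mul Θ _ _).trans (congrArg₂ (· * ·) (hP ⟨f, hf⟩).symm (hP ⟨g, hg⟩).symm)), hP⟩

/-- the representation of `C(X)` of a PVM -/
noncomputable def IsPVM.rep {P : POVM X K} (hP : P.IsPVM) : MOI.Rep X (K →L[ℂ] K) where
  toFun f := P.E f
  map_one' := P.E_one
  map_mul' f g := hP f g (BM.of_cm f) (BM.of_cm g)
  map_zero' := P.E_zero
  map_add' f g := P.E_add (BM.of_cm f) (BM.of_cm g)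
  commutes' c := (P.E_const c).trans (Algebra.algebraMap_eq_smul_one c).symm
  map_star' f := (P.E_star (BM.of_cm f)).symm

/-- a marginal is determined by the continuous functions -/
theorem E_comp_of_cont {W : Type} [MeasurableSpace W] (J : POVM W K) (P : POVM X K) {φ : W → X}
    (hφ : Measurable φ) (h : ∀ f : C(X, ℂ), J.E (fun z => f (φ z)) = P.E f) (f : X → ℂ)
    (hf : BM f) : J.E (fun z => f (φ z)) = P.E f :=
  (J.map φ hφ).isPoly1.ext_cont P.isPoly1 (fun f hf _ => h ⟨f, hf⟩) f hf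

end rep

lemma subsingleton_of_isEmpty [IsEmpty Y] (P : POVM Y K) : Subsingleton (K →L[ℂ] K) :=
  subsingleton_of_zero_eq_one (by
    rw [← P.E_zero, ← P.E_one]; congr 1; exact Subsingleton.elim _ _)

/-- the trivial POVM on the zero space -/
noncomputable def triv (Y K : Type) [MeasurableSpace Y] [NormedAddCommGroup K]
    [InnerProductSpace ℂ K] [Subsingleton (K →L[ℂ] K)] : POVM Y K where
  E _ := 0
  ν _ := 0
  fin _ := inferInstance
  inner_E _ _ _ := by simp
  E_one := Subsingleton.elim _ _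

lemma exists_retract (Y : Type) [MeasurableSpace Y] [StandardBorelSpace Y] [Nonempty Y] :
    ∃ (e : Y → unitInterval) (r : unitInterval → Y), Measurable e ∧ Measurable r ∧
      ∀ y, r (e y) = y :=
  have h := measurableEmbedding_sigmoid_comp_embeddingReal Y
  ⟨_, h.invFun, h.measurable, h.measurable_invFun, h.leftInverse_invFun⟩

/-- the joint PVM of two commuting PVMs -/
theorem exists_joint [StandardBorelSpace Y] [StandardBorelSpace Z] {P : POVM Y K} {Q : POVM Z K}
    (hP : P.IsPVM) (hQ : Q.IsPVM) (h : ∀ f g, BM f → BM g → Commute (P.E f) (Q.E g)) :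
    ∃ J : POVM (Y × Z) K, J.IsPVM ∧
      ∀ f g, BM f → BM g → J.E (fun z => f z.1 * g z.2) = P.E f * Q.E g := by
  rcases subsingleton_or_nontrivial (K →L[ℂ] K) with _ | hn
  · exact ⟨triv _ K, fun _ _ _ _ => Subsingleton.elim _ _, fun _ _ _ _ => Subsingleton.elim _ _⟩
  have : Nonempty Y := not_isEmpty_iff.1 fun _ => not_subsingleton _ P.subsingleton_of_isEmpty
  have : Nonempty Z := not_isEmpty_iff.1 fun _ => not_subsingleton _ Q.subsingleton_of_isEmpty
  obtain ⟨e, r, he, hr, hre⟩ := exists_retract Y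
  obtain ⟨e', r', he', hr', hre'⟩ := exists_retract Z
  have hc : ∀ f g, Commute ((hP.map e he).rep f) ((hQ.map e' he').rep g) := fun f g =>
    h _ _ ((BM.of_cm f).comp he) ((BM.of_cm g).comp he')
  obtain ⟨J, hJ, hE⟩ := exists_of_rep (MOI.Rep.joint _ _ hc)
  have h1 := J.E_comp_of_cont (P.map e he) measurable_fst fun f =>
    (hE (f.comp .fst)).trans (MOI.Rep.joint_fst _ _ hc f)
  have h2 := J.E_comp_of_cont (Q.map e' he') measurable_snd fun f =>
    (hE (f.comp .snd)).trans (MOI.Rep.joint_snd _ _ hc f)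
  refine ⟨J.map (Prod.map r r') (hr.prodMap hr'), hJ.map _ _, fun f g hf hg => ?_⟩
  refine (hJ _ _ ((hf.comp hr).comp measurable_fst) ((hg.comp hr').comp measurable_snd)).trans ?_
  rw [h1 _ (hf.comp hr), h2 _ (hg.comp hr')]
  simp only [map_E, hre, hre']

theorem IsPVM.E_prod {P : POVM Y K} (hP : P.IsPVM) {n : ℕ} (f : Fin n → Y → ℂ)
    (hf : ∀ i, BM (f i)) : P.E (fun y => ∏ i, f i y) = (List.ofFn fun i => P.E (f i)).prod := by
  induction n with
  | zero => simpa using P.E_one
  | succ n ih =>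
    simp only [Fin.prod_univ_succ, List.ofFn_succ, List.prod_cons]
    rw [hP _ _ (hf 0) (BM.prod _ fun i _ => hf i.succ), ih _ fun i => hf i.succ]

theorem exists_joint_fin [StandardBorelSpace Y] {n : ℕ} {P : Fin n → POVM Y K}
    (hP : ∀ i, (P i).IsPVM) (h : ∀ i k f g, BM f → BM g → Commute ((P i).E f) ((P k).E g)) :
    ∃ J : POVM (Fin n → Y) K, J.IsPVM ∧
      ∀ f : Fin n → Y → ℂ, (∀ i, BM (f i)) → J.E (fun z => ∏ i, f i (z i)) = word P f := by
  rcases subsingleton_or_nontrivial (K →L[ℂ] K) with _ | hn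
  · exact ⟨triv _ K, fun _ _ _ _ => Subsingleton.elim _ _, fun _ _ => Subsingleton.elim _ _⟩
  choose e r he hr hre using fun i : Fin n => @exists_retract Y _ _
    (not_isEmpty_iff.1 fun _ => not_subsingleton _ (P i).subsingleton_of_isEmpty)
  obtain ⟨Θ, hΘ⟩ := MOI.exists_joint (fun i => ((hP i).map (e i) (he i)).rep) fun i k f g =>
    h i k _ _ ((BM.of_cm f).comp (he i)) ((BM.of_cm g).comp (he k))
  obtain ⟨J, hJ, hE⟩ := exists_of_rep Θ
  have h1 := fun i => J.E_comp_of_cont ((P i).map (e i) (he i)) (measurable_pi_apply i) fun f =>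
    (hE (f.comp (MOI.ev i))).trans (DFunLike.congr_fun (hΘ i) f)
  refine ⟨J.map (fun z i => r i (z i)) (measurable_pi_lambda _ fun i =>
    (hr i).comp (measurable_pi_apply i)), hJ.map _ _, fun f hf => ?_⟩
  refine (hJ.E_prod (fun i z => f i (r i (z i))) fun i =>
    ((hf i).comp (hr i)).comp (measurable_pi_apply i)).trans ?_
  rw [word]
  congr 2
  funext i
  rw [h1 i _ ((hf i).comp (hr i))]
  simp only [map_E, hre]

/-- the PVM of a non-degenerate representation of `C_b(ℝ)` -/
theorem exists_of_brep {θ : BRep ℝ K} (h : θ.Nondeg) :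
    ∃ P : POVM ℝ K, P.IsPVM ∧ ∀ F : BoundedContinuousFunction ℝ ℂ, P.E F = θ F := by
  let r : C(ℝ, Metric.closedBall (0 : ℂ) ‖rsv‖) :=
    ⟨fun x => ⟨rsv x, mem_closedBall_zero_iff.2 (rsv.norm_coe_le_norm x)⟩, by fun_prop⟩
  let i : C(Metric.closedBall (0 : ℂ) ‖rsv‖, ℂ) := (ContinuousMap.id ℂ).restrict _
  have hp : ContinuousOn (fun z : Metric.closedBall (0 : ℂ) ‖rsv‖ => rinv z) {y | i y ≠ 0} :=
    continuousOn_rinv.comp continuous_subtype_val.continuousOn fun _ h => h
  have hm : Measurable fun z : Metric.closedBall (0 : ℂ) ‖rsv‖ => rinv z :=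
    (Complex.continuous_im.measurable.div Complex.continuous_normSq.measurable).comp
      measurable_subtype_coe
  obtain ⟨J, hJ, hE⟩ := exists_of_rep (θ.toRep r)
  refine ⟨J.map _ hm, hJ.map _ _, fun F => mul_cancel_denseRange (h.denseRange rsv_ne) ?_⟩
  have h1 : J.E i = θ rsv := hE i
  rw [← map_mul, ← h1, map_E, ← hJ _ _ ((BM.of_bcf F).comp hm) (BM.of_cm i)]
  refine (hE (BRep.hat i hp F)).trans ?_
  rw [BRep.toRep_apply]
  congr 1
  ext x
  change F (rinv (rsv x)) * rsv x = F x * rsv x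
  rw [rinv_rsv]

/-- Stone's theorem -/
theorem stone (v : ℝ → K →L[ℂ] K) (h0 : v 0 = 1) (hadd : ∀ s t, v (s + t) = v s * v t)
    (hn : ∀ t η, ‖v t η‖ = ‖η‖) (hc : ∀ η, Continuous fun t => v t η) :
    ∃ P : POVM ℝ K, P.IsPVM ∧ ∀ t : ℝ, P.E (fun l => ex (t * l)) = v t := by
  have hu : OneParam v := ⟨h0, hadd, hn, hc⟩
  obtain ⟨P, hP, hE⟩ := exists_of_brep hu.nondeg
  exact ⟨P, hP, fun t => (hE (ech t)).trans (hu.θ_ech t)⟩

end POVM

end Crest.Agent.N111
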