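import Crest.Agent.N111.Lib.POVM2
import Crest.Agent.N111.Lib.MClass

/-! # Row 111: polymeasures, supports, strong integrals, and the well-definedness of multiple
operator integrals (API; fill the proofs IN PLACE). -/

set_option autoImplicit false
set_option linter.unusedSectionVars false
set_option linter.unusedVariables false

namespace Crest.Agent.N111

open MeasureTheory Topology Filter
open scoped InnerProductSpace

variable {Y K κ : Type} [MeasurableSpace Y] [NormedAddCommGroup K] [InnerProductSpace ℂ K]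
  [CompleteSpace K] [Fintype κ] [DecidableEq κ]

/-! ### strong integrals -/
section sInt
variable {Ω : Type} [TopologicalSpace Ω] [SecondCountableTopology Ω] [MeasurableSpace Ω]
  [OpensMeasurableSpace Ω] {m : Measure Ω} {c : Ω → ℂ} {F : Ω → K →L[ℂ] K}

theorem SCont.mul {F F' : Ω → K →L[ℂ] K} (h : SCont F) (h' : SCont F') :
    SCont fun ω => F ω * F' ω := by
  obtain ⟨C, hC⟩ := h.2
  obtain ⟨C', hC'⟩ := h'.2
  refine ⟨fun η => continuous_iff_continuousAt.2 fun ω₀ => ?_, max C 0 * C', fun ω => ?_⟩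
  · have h1 : Tendsto (fun ω => F ω (F' ω η - F' ω₀ η)) (𝓝 ω₀) (𝓝 0) := by
      have h2 : Tendsto (fun ω => C * ‖F' ω η - F' ω₀ η‖) (𝓝 ω₀) (𝓝 0) := by
        simpa using (tendsto_iff_norm_sub_tendsto_zero.1 ((h'.1 η).tendsto ω₀)).const_mul C
      refine squeeze_zero_norm (fun ω => ?_) h2
      exact ((F ω).le_opNorm _).trans (mul_le_mul_of_nonneg_right (hC ω) (norm_nonneg _))
    have h3 := h1.add ((h.1 (F' ω₀ η)).tendsto ω₀)
    simpa [ContinuousAt] using h3
  · exact (norm_mul_le _ _).trans (mul_le_mul ((hC ω).trans (le_max_left _ _)) (hC' ω)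
      (norm_nonneg _) (le_max_right _ _))
theorem SCont.const (T : K →L[ℂ] K) : SCont fun _ : Ω => T := ⟨fun _ => continuous_const, ‖T‖, fun _ => le_rfl⟩
theorem SCont.integrable (hF : SCont F) (hc : Integrable c m) (η : K) :
    Integrable (fun ω => c ω • F ω η) m := by
  obtain ⟨C, hC⟩ := hF.2
  refine Integrable.mono' (hc.norm.mul_const (C * ‖η‖))
    (hc.aestronglyMeasurable.smul (hF.1 η).aestronglyMeasurable) (Eventually.of_forall fun ω => ?_)
  rw [norm_smul]
  exact mul_le_mul_of_nonneg_left (((F ω).le_opNorm _).trans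
    (mul_le_mul_of_nonneg_right (hC ω) (norm_nonneg _))) (norm_nonneg _)
theorem sInt_apply (hc : Integrable c m) (hF : SCont F) (η : K) :
    sInt m c F η = ∫ ω, c ω • F ω η ∂m := by
  have hex : ∃ T : K →L[ℂ] K, ∀ η, T η = ∫ ω, c ω • F ω η ∂m := by
    obtain ⟨C, hC⟩ := hF.2
    let L : K →ₗ[ℂ] K :=
      { toFun := fun η => ∫ ω, c ω • F ω η ∂m
        map_add' := fun x y => by
          rw [← integral_add (hF.integrable hc x) (hF.integrable hc y)]
          simp [smul_add]
        map_smul' := fun a x => by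
          rw [RingHom.id_apply, ← integral_smul]
          simp [smul_comm a] }
    refine ⟨L.mkContinuous ((∫ ω, ‖c ω‖ ∂m) * C) fun η => ?_, fun η => rfl⟩
    refine (norm_integral_le_of_norm_le (hc.norm.mul_const (C * ‖η‖))
      (Eventually.of_forall fun ω => ?_)).trans (le_of_eq ?_)
    · rw [norm_smul]
      exact mul_le_mul_of_nonneg_left (((F ω).le_opNorm _).trans
        (mul_le_mul_of_nonneg_right (hC ω) (norm_nonneg _))) (norm_nonneg _)
    · rw [integral_mul_const, mul_assoc]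
  rw [sInt, dif_pos hex]
  exact hex.choose_spec η
theorem inner_sInt (hc : Integrable c m) (hF : SCont F) (ζ η : K) :
    ⟪ζ, sInt m c F η⟫_ℂ = ∫ ω, c ω * ⟪ζ, F ω η⟫_ℂ ∂m := by
  rw [sInt_apply hc hF, ← integral_inner (hF.integrable hc η)]
  simp [inner_smul_right]
theorem norm_sInt_le (hc : Integrable c m) (hF : SCont F) {C : ℝ} (hC : 0 ≤ C)
    (h : ∀ ω, ‖F ω‖ ≤ C) : ‖sInt m c F‖ ≤ (∫ ω, ‖c ω‖ ∂m) * C := by
  refine ContinuousLinearMap.opNorm_le_bound _
    (mul_nonneg (integral_nonneg fun ω => norm_nonneg _) hC) fun η => ?_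
  rw [sInt_apply hc hF]
  refine (norm_integral_le_of_norm_le (hc.norm.mul_const (C * ‖η‖))
    (Eventually.of_forall fun ω => ?_)).trans (le_of_eq ?_)
  · rw [norm_smul]
    exact mul_le_mul_of_nonneg_left (((F ω).le_opNorm _).trans
      (mul_le_mul_of_nonneg_right (h ω) (norm_nonneg _))) (norm_nonneg _)
  · rw [integral_mul_const, mul_assoc]
theorem norm_sInt_le' (hc : Integrable c m) (hF : SCont F) {b : Ω → ℝ}
    (hb : Integrable (fun ω => ‖c ω‖ * b ω) m) (h : ∀ ω, ‖F ω‖ ≤ b ω) :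
    ‖sInt m c F‖ ≤ ∫ ω, ‖c ω‖ * b ω ∂m := by
  refine ContinuousLinearMap.opNorm_le_bound _
    (integral_nonneg fun ω => mul_nonneg (norm_nonneg _) ((norm_nonneg _).trans (h ω))) fun η => ?_
  rw [sInt_apply hc hF]
  refine (norm_integral_le_of_norm_le (hb.mul_const ‖η‖)
    (Eventually.of_forall fun ω => ?_)).trans (le_of_eq ?_)
  · rw [norm_smul, mul_assoc]
    exact mul_le_mul_of_nonneg_left (((F ω).le_opNorm _).trans
      (mul_le_mul_of_nonneg_right (h ω) (norm_nonneg _))) (norm_nonneg _)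
  · rw [integral_mul_const]
theorem mul_sInt (hc : Integrable c m) (hF : SCont F) (S : K →L[ℂ] K) :
    S * sInt m c F = sInt m c fun ω => S * F ω := by
  ext η
  rw [sInt_apply hc ((SCont.const S).mul hF)]
  change S (sInt m c F η) = _
  rw [sInt_apply hc hF, ← S.integral_comp_comm (hF.integrable hc η)]
  simp
theorem sInt_mul (hc : Integrable c m) (hF : SCont F) (S : K →L[ℂ] K) :
    sInt m c F * S = sInt m c fun ω => F ω * S := by
  ext η
  rw [sInt_apply hc (hF.mul (SCont.const S))]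
  change sInt m c F (S η) = _
  rw [sInt_apply hc hF]
  simp
theorem sInt_sub (hc : Integrable c m) {F' : Ω → K →L[ℂ] K} (hF : SCont F) (hF' : SCont F') :
    sInt m c (fun ω => F ω - F' ω) = sInt m c F - sInt m c F' := by
  have hs : SCont fun ω => F ω - F' ω := by
    obtain ⟨C, hC⟩ := hF.2
    obtain ⟨C', hC'⟩ := hF'.2
    exact ⟨fun η => (hF.1 η).sub (hF'.1 η), C + C', fun ω =>
      (norm_sub_le _ _).trans (add_le_add (hC ω) (hC' ω))⟩
  ext η
  rw [sub_apply, sInt_apply hc hs, sInt_apply hc hF, sInt_apply hc hF',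
    ← integral_sub (hF.integrable hc η) (hF'.integrable hc η)]
  simp [smul_sub]
theorem sInt_add_left {c' : Ω → ℂ} (hc : Integrable c m) (hc' : Integrable c' m) (hF : SCont F) :
    sInt m (fun ω => c ω + c' ω) F = sInt m c F + sInt m c' F := by
  ext η
  rw [add_apply, sInt_apply (c := fun ω => c ω + c' ω) (hc.add hc') hF,
    sInt_apply hc hF, sInt_apply hc' hF, ← integral_add (hF.integrable hc η) (hF.integrable hc' η)]
  simp [add_smul]
theorem sInt_smul_left (z : ℂ) (hc : Integrable c m) (hF : SCont F) :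
    sInt m (fun ω => z * c ω) F = z • sInt m c F := by
  ext η
  rw [smul_apply, sInt_apply (hc.const_mul z) hF, sInt_apply hc hF,
    ← integral_smul]
  simp [mul_smul]
theorem sInt_const (hc : Integrable c m) (T : K →L[ℂ] K) :
    sInt m c (fun _ => T) = (∫ ω, c ω ∂m) • T := by
  ext η
  rw [sInt_apply hc (SCont.const T), integral_smul_const]
  rfl
theorem commute_sInt (hc : Integrable c m) (hF : SCont F) {S : K →L[ℂ] K}
    (h : ∀ ω, Commute S (F ω)) : Commute S (sInt m c F) := by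
  rw [Commute, SemiconjBy, mul_sInt hc hF, sInt_mul hc hF]
  congr 1
  funext ω
  exact h ω

theorem Py.sCont_add {F F' : Ω → K →L[ℂ] K} (hF : SCont F) (hF' : SCont F') :
    SCont fun ω => F ω + F' ω := by
  obtain ⟨C, hC⟩ := hF.2
  obtain ⟨C', hC'⟩ := hF'.2
  exact ⟨fun η => (hF.1 η).add (hF'.1 η), C + C', fun ω =>
    (norm_add_le _ _).trans (add_le_add (hC ω) (hC' ω))⟩

theorem Py.sCont_smul (z : ℂ) (hF : SCont F) : SCont fun ω => z • F ω := by
  obtain ⟨C, hC⟩ := hF.2
  exact ⟨fun η => (hF.1 η).const_smul z, ‖z‖ * C, fun ω => by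
    rw [norm_smul]; exact mul_le_mul_of_nonneg_left (hC ω) (norm_nonneg _)⟩

theorem Py.sInt_add (hc : Integrable c m) {F' : Ω → K →L[ℂ] K} (hF : SCont F) (hF' : SCont F') :
    sInt m c (fun ω => F ω + F' ω) = sInt m c F + sInt m c F' := by
  ext η
  rw [add_apply, sInt_apply hc (Py.sCont_add hF hF'), sInt_apply hc hF,
    sInt_apply hc hF', ← integral_add (hF.integrable hc η) (hF'.integrable hc η)]
  simp [smul_add]

theorem Py.sInt_smul (hc : Integrable c m) (hF : SCont F) (z : ℂ) :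
    sInt m c (fun ω => z • F ω) = z • sInt m c F := by
  ext η
  rw [smul_apply, sInt_apply hc (Py.sCont_smul z hF), sInt_apply hc hF,
    ← integral_smul]
  simp [smul_comm z]

end sInt

/-! ### polymeasures -/

@[simp] theorem word_two (P Q : POVM Y K) (f : Fin 2 → Y → ℂ) :
    word ![P, Q] f = P.E (f 0) * Q.E (f 1) := by simp [word, List.ofFn_succ]
@[simp] theorem word_three (P Q R : POVM Y K) (f : Fin 3 → Y → ℂ) :
    word ![P, Q, R] f = P.E (f 0) * Q.E (f 1) * R.E (f 2) := by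
  simp [word, List.ofFn_succ, mul_assoc]
@[simp] theorem word_four (P Q R S : POVM Y K) (f : Fin 4 → Y → ℂ) :
    word ![P, Q, R, S] f = P.E (f 0) * Q.E (f 1) * R.E (f 2) * S.E (f 3) := by
  simp [word, List.ofFn_succ, mul_assoc]
@[simp] theorem word_five (P Q R S T : POVM Y K) (f : Fin 5 → Y → ℂ) :
    word ![P, Q, R, S, T] f = P.E (f 0) * Q.E (f 1) * R.E (f 2) * S.E (f 3) * T.E (f 4) := by
  simp [word, List.ofFn_succ, mul_assoc]

namespace Py

/-- the bounded measurable functions as a submodule -/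
def BMs (Y : Type) [MeasurableSpace Y] : Submodule ℂ (Y → ℂ) where
  carrier := {f | BM f}
  add_mem' hf hg := BM.add hf hg
  zero_mem' := BM.const 0
  smul_mem' c _ hf := BM.const_mul c hf

theorem coe_update (f : κ → BMs Y) (i : κ) (g : BMs Y) :
    (fun k => ((Function.update f i g k : BMs Y) : Y → ℂ))
      = Function.update (fun k => (f k : Y → ℂ)) i g := by
  funext k
  rcases eq_or_ne k i with rfl | h
  · simp
  · simp [h]

/-- a polymeasure as a multilinear map -/
noncomputable def ml {κ : Type} [Fintype κ] [d₀ : DecidableEq κ] {W : (κ → Y → ℂ) → K →L[ℂ] K}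
    (h : IsPoly W) :
    MultilinearMap ℂ (fun _ : κ => BMs Y) (K →L[ℂ] K) where
  toFun f := W fun k => f k
  map_update_add' := by
    intro d f i g g'
    obtain rfl : d = d₀ := Subsingleton.elim _ _
    simp only [coe_update]
    exact h.add _ i g g' (fun k => (f k).2) g.2 g'.2
  map_update_smul' := by
    intro d f i c g
    obtain rfl : d = d₀ := Subsingleton.elim _ _
    simp only [coe_update]
    exact h.smul _ i c g (fun k => (f k).2) g.2

theorem smul_univ {W : (κ → Y → ℂ) → K →L[ℂ] K} (h : IsPoly W) {f : κ → Y → ℂ}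
    (hf : ∀ k, BM (f k)) (a : κ → ℂ) : W (fun k y => a k * f k y) = (∏ k, a k) • W f :=
  (ml h).map_smul_univ a fun k => ⟨f k, hf k⟩

theorem bound_pi {f : κ → Y → ℂ} (hf : ∀ k, BM (f k)) : ∃ C, 0 ≤ C ∧ ∀ k y, ‖f k y‖ ≤ C := by
  choose C hC0 hC using fun k => (hf k).exists_nonneg
  exact ⟨∑ k, C k, Finset.sum_nonneg fun k _ => hC0 k, fun k y =>
    (hC k y).trans (Finset.single_le_sum (fun k _ => hC0 k) (Finset.mem_univ k))⟩

theorem norm_le {W : (κ → Y → ℂ) → K →L[ℂ] K} (h : IsPoly W) :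
    ∃ C : ℝ, 0 ≤ C ∧ ∀ (f : κ → Y → ℂ) (b : κ → ℝ),
    (∀ k, Measurable (f k)) → (∀ k, 0 ≤ b k) → (∀ k y, ‖f k y‖ ≤ b k) →
    ‖W f‖ ≤ C * ∏ k, b k := by
  obtain ⟨C, hC⟩ := h.bdd
  refine ⟨max C 0, le_max_right _ _, fun f b hm hb hf => ?_⟩
  have h1 : ∀ k y, ‖f k y / (b k : ℂ)‖ ≤ 1 := fun k y => by
    rw [norm_div, Complex.norm_real, Real.norm_of_nonneg (hb k)]
    exact div_le_one_of_le₀ (hf k y) (hb k)
  have h2 : f = fun k y => (b k : ℂ) * (f k y / (b k : ℂ)) := by
    funext k y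
    rcases eq_or_ne (b k) 0 with h0 | h0
    · have := hf k y
      rw [h0] at this
      simp [h0, norm_le_zero_iff.1 this]
    · field_simp [Complex.ofReal_ne_zero.2 h0]
  have hm' : ∀ k, Measurable fun y => f k y / (b k : ℂ) := fun k => (hm k).div_const _
  rw [h2, smul_univ h (fun k => ⟨hm' k, 1, h1 k⟩), norm_smul, mul_comm, norm_prod]
  refine mul_le_mul ((hC _ hm' h1).trans (le_max_left _ _)) (le_of_eq ?_)
    (Finset.prod_nonneg fun k _ => norm_nonneg _) (le_max_right _ _)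
  exact Finset.prod_congr rfl fun k _ => by rw [Complex.norm_real, Real.norm_of_nonneg (hb k)]

theorem tendsto_mul {A B : ℕ → K →L[ℂ] K} {A₀ B₀ : K →L[ℂ] K} {C : ℝ} (hC : ∀ n, ‖A n‖ ≤ C)
    (hA : ∀ η, Tendsto (fun n => A n η) atTop (𝓝 (A₀ η)))
    (hB : ∀ η, Tendsto (fun n => B n η) atTop (𝓝 (B₀ η))) (η : K) :
    Tendsto (fun n => (A n * B n) η) atTop (𝓝 ((A₀ * B₀) η)) := by
  have h1 : Tendsto (fun n => A n (B n η - B₀ η)) atTop (𝓝 0) := by
    have h2 : Tendsto (fun n => C * ‖B n η - B₀ η‖) atTop (𝓝 0) := by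
      simpa using (tendsto_iff_norm_sub_tendsto_zero.1 (hB η)).const_mul C
    refine squeeze_zero_norm (fun n => ?_) h2
    exact ((A n).le_opNorm _).trans (mul_le_mul_of_nonneg_right (hC n) (norm_nonneg _))
  simpa using h1.add (hA (B₀ η))

theorem isPoly_const {κ : Type} [Fintype κ] [DecidableEq κ] [IsEmpty κ] (T : K →L[ℂ] K) :
    IsPoly fun _ : κ → Y → ℂ => T where
  add _ i := isEmptyElim i
  smul _ i := isEmptyElim i
  bdd := ⟨‖T‖, fun _ _ _ => le_rfl⟩
  lim _ _ _ _ _ _ _ := tendsto_const_nhds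

theorem isPoly_cons {n : ℕ} (P : POVM Y K) {W : (Fin n → Y → ℂ) → K →L[ℂ] K} (h : IsPoly W) :
    IsPoly fun f : Fin (n + 1) → Y → ℂ => P.E (f 0) * W (Fin.tail f) where
  add f i g g' hf hg hg' := by
    refine Fin.cases ?_ (fun j => ?_) i
    · simp only [Fin.tail_update_zero, Function.update_self]
      rw [P.E_add hg hg', add_mul]
    · simp only [Fin.tail_update_succ, Function.update_of_ne (Fin.succ_ne_zero j).symm]
      rw [h.add (Fin.tail f) j g g' (fun k => hf k.succ) hg hg', mul_add]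
  smul f i c g hf hg := by
    refine Fin.cases ?_ (fun j => ?_) i
    · simp only [Fin.tail_update_zero, Function.update_self]
      rw [P.E_smul c hg, smul_mul_assoc]
    · simp only [Fin.tail_update_succ, Function.update_of_ne (Fin.succ_ne_zero j).symm]
      rw [h.smul (Fin.tail f) j c g (fun k => hf k.succ) hg, mul_smul_comm]
  bdd := by
    obtain ⟨C, hC⟩ := h.bdd
    refine ⟨1 * C, fun f hm hf => (norm_mul_le _ _).trans (mul_le_mul
      (P.norm_E_le (hm 0) zero_le_one (hf 0)) (hC _ (fun k => hm k.succ) fun k => hf k.succ)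
      (norm_nonneg _) zero_le_one)⟩
  lim f g C hm hC hl η :=
    tendsto_mul (C := max C 0)
      (fun n => P.norm_E_le (hm n 0) (le_max_right _ _) fun y => (hC n 0 y).trans (le_max_left _ _))
      (P.tendsto_E (fun n => hm n 0) (fun n => hC n 0) (hl 0))
      (h.lim (fun n => Fin.tail (f n)) (Fin.tail g) C (fun n k => hm n k.succ)
        (fun n k => hC n k.succ) fun k => hl k.succ) η

theorem mul {W : (κ → Y → ℂ) → K →L[ℂ] K} (h : IsPoly W) (S T : K →L[ℂ] K) :
    IsPoly fun f => S * W f * T where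
  add f i g g' hf hg hg' := by rw [h.add f i g g' hf hg hg', mul_add, add_mul]
  smul f i c g hf hg := by rw [h.smul f i c g hf hg, mul_smul_comm, smul_mul_assoc]
  bdd := by
    obtain ⟨C, hC⟩ := h.bdd
    exact ⟨‖S‖ * C * ‖T‖, fun f hm hf => (norm_mul_le _ _).trans (mul_le_mul_of_nonneg_right
      ((norm_mul_le _ _).trans (mul_le_mul_of_nonneg_left (hC f hm hf) (norm_nonneg _)))
      (norm_nonneg _))⟩
  lim f g C hm hC hl η := (S.continuous.tendsto _).comp (h.lim f g C hm hC hl (T η))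

theorem update_mul {Z : Type} (φ : κ → Y → Z) (u : κ → Y → ℂ) (f : κ → Z → ℂ) (i : κ)
    (g : Z → ℂ) : (fun k y => u k y * Function.update f i g k (φ k y))
      = Function.update (fun k y => u k y * f k (φ k y)) i fun y => u i y * g (φ i y) := by
  funext k
  rcases eq_or_ne k i with rfl | h
  · simp
  · simp [h]

end Py

theorem isPoly_word {n : ℕ} (P : Fin n → POVM Y K) : IsPoly (word P) := by
  induction n with
  | zero => exact Py.isPoly_const (Y := Y) (κ := Fin 0) (1 : K →L[ℂ] K)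
  | succ n ih =>
    have e : word P = fun f => (P 0).E (f 0) * word (Fin.tail P) (Fin.tail f) := by
      funext f
      simp [word, List.ofFn_succ, Fin.tail]
    rw [e]
    exact Py.isPoly_cons (P 0) (ih (Fin.tail P))
/-- two slots with a fixed operator in the middle -/
theorem isPoly_two (P Q : POVM Y K) (T : K →L[ℂ] K) :
    IsPoly fun f : Fin 2 → Y → ℂ => P.E (f 0) * T * Q.E (f 1) := by
  have := Py.isPoly_cons P (Py.mul (isPoly_word ![Q]) T 1)
  simpa [word, Fin.tail, mul_assoc] using this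
theorem isPoly_three (P Q R : POVM Y K) (S T : K →L[ℂ] K) :
    IsPoly fun f : Fin 3 → Y → ℂ => P.E (f 0) * S * Q.E (f 1) * T * R.E (f 2) := by
  have := Py.isPoly_cons P (Py.mul (isPoly_two Q R T) S 1)
  simpa [Fin.tail, mul_assoc] using this

variable {W W' : (κ → Y → ℂ) → K →L[ℂ] K}

theorem IsPoly.mul (h : IsPoly W) (S T : K →L[ℂ] K) : IsPoly fun f => S * W f * T := Py.mul h S T
theorem IsPoly.sub (h : IsPoly W) (h' : IsPoly W') : IsPoly fun f => W f - W' f := by
  refine ⟨fun f i g g' hf hg hg' => ?_, fun f i c g hf hg => ?_, ?_, fun f g C hm hC hl η => ?_⟩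
  · rw [h.add f i g g' hf hg hg', h'.add f i g g' hf hg hg']; abel
  · rw [h.smul f i c g hf hg, h'.smul f i c g hf hg, smul_sub]
  · obtain ⟨C, hC⟩ := h.bdd
    obtain ⟨C', hC'⟩ := h'.bdd
    exact ⟨C + C', fun f hm hf => (norm_sub_le _ _).trans (add_le_add (hC f hm hf) (hC' f hm hf))⟩
  · exact (h.lim f g C hm hC hl η).sub (h'.lim f g C hm hC hl η)
/-- multiply every slot by a fixed function and change variables -/
theorem IsPoly.comp {Z : Type} [MeasurableSpace Z] (h : IsPoly W) {φ : κ → Y → Z}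
    (hφ : ∀ k, Measurable (φ k)) {u : κ → Y → ℂ} (hu : ∀ k, BM (u k)) :
    IsPoly fun f : κ → Z → ℂ => W fun k y => u k y * f k (φ k y) := by
  obtain ⟨B, hB0, hB⟩ := Py.bound_pi hu
  refine ⟨fun f i g g' hf hg hg' => ?_, fun f i c g hf hg => ?_, ?_, fun f g C hm hC hl η => ?_⟩
  · simp only [Py.update_mul, mul_add]
    exact h.add _ i _ _ (fun k => (hu k).mul ((hf k).comp (hφ k))) ((hu i).mul (hg.comp (hφ i)))
      ((hu i).mul (hg'.comp (hφ i)))
  · simp only [Py.update_mul, mul_left_comm _ c]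
    exact h.smul _ i c _ (fun k => (hu k).mul ((hf k).comp (hφ k))) ((hu i).mul (hg.comp (hφ i)))
  · obtain ⟨C, -, hC⟩ := Py.norm_le h
    refine ⟨C * ∏ _k : κ, B, fun f hm hf => hC _ _ (fun k => (hu k).1.mul ((hm k).comp (hφ k)))
      (fun _ => hB0) fun k y => ?_⟩
    rw [norm_mul]
    exact (mul_le_of_le_one_right (norm_nonneg _) (hf k _)).trans (hB k y)
  · refine h.lim (fun n k y => u k y * f n k (φ k y)) _ (B * C)
      (fun n k => (hu k).1.mul ((hm n k).comp (hφ k))) (fun n k y => ?_)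
      (fun k y => (hl k _).const_mul _) η
    rw [norm_mul]
    exact mul_le_mul (hB k y) (hC n k _) (norm_nonneg _) hB0
theorem IsPoly.norm_le (h : IsPoly W) : ∃ C : ℝ, 0 ≤ C ∧ ∀ (f : κ → Y → ℂ) (b : κ → ℝ),
    (∀ k, Measurable (f k)) → (∀ k, 0 ≤ b k) → (∀ k y, ‖f k y‖ ≤ b k) →
    ‖W f‖ ≤ C * ∏ k, b k := Py.norm_le h
theorem IsPoly.isPoly1 (h : IsPoly W) {f : κ → Y → ℂ} (hf : ∀ k, BM (f k)) (i : κ) :
    IsPoly1 fun g => W (Function.update f i g) := by
  obtain ⟨B, hB0, hB⟩ := Py.bound_pi hf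
  refine ⟨fun g g' hg hg' => h.add f i g g' hf hg hg', fun c g hg => h.smul f i c g hf hg,
    fun g g₀ C hm hC hl η => h.lim (fun n => Function.update f i (g n)) _ (max B C)
      (fun n k => ?_) (fun n k y => ?_) (fun k y => ?_) η⟩
  · exact (BM.update hf i ⟨hm n, C, hC n⟩ k).1
  · rcases eq_or_ne k i with rfl | hk
    · simpa using Or.inr (hC n y)
    · simpa [hk] using Or.inl (hB k y)
  · rcases eq_or_ne k i with rfl | hk
    · simpa using hl y
    · simp [hk]
theorem IsPoly.map_sum (h : IsPoly W) {α : Type} [DecidableEq α] (s : κ → Finset α)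
    {f : κ → α → Y → ℂ} (hf : ∀ k a, BM (f k a)) :
    W (fun k y => ∑ a ∈ s k, f k a y) = ∑ r ∈ Fintype.piFinset s, W fun k => f k (r k) := by
  have := (Py.ml h).map_sum_finset (fun k a => (⟨f k a, hf k a⟩ : Py.BMs Y)) s
  refine Eq.trans ?_ this
  change W _ = W _
  congr 1
  funext k y
  simp
theorem IsPoly.sCont {Ω : Type} [TopologicalSpace Ω] [FirstCountableTopology Ω] (h : IsPoly W)
    {φ : Ω → κ → Y → ℂ} (hm : ∀ ω k, Measurable (φ ω k)) {C : ℝ} (hb : ∀ ω k y, ‖φ ω k y‖ ≤ C)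
    (hc : ∀ k y, Continuous fun ω => φ ω k y) : SCont fun ω => W (φ ω) := by
  obtain ⟨B, -, hB⟩ := h.norm_le
  refine ⟨fun η => continuous_iff_seqContinuous.2 fun x p hx => ?_, B * ∏ _k : κ, max C 0,
    fun ω => hB _ _ (hm ω) (fun _ => le_max_right _ _) fun k y =>
      (hb ω k y).trans (le_max_left _ _)⟩
  exact h.lim (fun n => φ (x n)) (φ p) C (fun n => hm _) (fun n => hb _)
    (fun k y => ((hc k y).tendsto p).comp hx) η
/-- the multiplier operator defined by a representation maps polymeasures to polymeasures -/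
theorem IsPoly.mulOp {Ω : Type} [TopologicalSpace Ω] [SecondCountableTopology Ω]
    [MeasurableSpace Ω] [OpensMeasurableSpace Ω] (h : IsPoly W) {m : Measure Ω} {c : Ω → ℂ}
    (hc : Integrable c m) {φ : Ω → κ → Y → ℂ} (hm : ∀ ω k, Measurable (φ ω k))
    (hb : ∀ ω k y, ‖φ ω k y‖ ≤ 1) (hcont : ∀ k y, Continuous fun ω => φ ω k y) :
    IsPoly fun f => sInt m c fun ω => W fun k y => φ ω k y * f k y := by
  have hφ : ∀ ω k, BM (φ ω k) := fun ω k => ⟨hm ω k, 1, hb ω k⟩
  have hle : ∀ {f : κ → Y → ℂ} {C : ℝ}, (∀ k y, ‖f k y‖ ≤ C) → ∀ ω k y,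
      ‖φ ω k y * f k y‖ ≤ C := fun hC ω k y => by
    rw [norm_mul]
    exact (mul_le_of_le_one_left (norm_nonneg _) (hb ω k y)).trans (hC k y)
  have hs : ∀ {f : κ → Y → ℂ}, (∀ k, BM (f k)) →
      SCont fun ω => W fun k y => φ ω k y * f k y := fun hf => by
    obtain ⟨C, -, hC⟩ := Py.bound_pi hf
    exact h.sCont (fun ω k => (hm ω k).mul (hf k).1) (hle hC) fun k y => (hcont k y).mul_const _
  obtain ⟨B, hB0, hB⟩ := h.norm_le
  refine ⟨fun f i g g' hf hg hg' => ?_, fun f i a g hf hg => ?_, ?_, fun f g C hf hC hl η => ?_⟩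
  · rw [← Py.sInt_add hc (hs (BM.update hf i hg)) (hs (BM.update hf i hg'))]
    congr 1
    funext ω
    exact (h.comp (φ := fun _ y => y) (fun _ => measurable_id) (hφ ω)).add f i g g' hf hg hg'
  · rw [← Py.sInt_smul hc (hs (BM.update hf i hg))]
    congr 1
    funext ω
    exact (h.comp (φ := fun _ y => y) (fun _ => measurable_id) (hφ ω)).smul f i a g hf hg
  · refine ⟨(∫ ω, ‖c ω‖ ∂m) * (B * ∏ _k : κ, (1 : ℝ)), fun f hf h1 =>
      norm_sInt_le hc (hs fun k => ⟨hf k, 1, h1 k⟩) (by positivity) fun ω => ?_⟩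
    exact hB _ _ (fun k => (hm ω k).mul (hf k)) (fun _ => zero_le_one) (hle h1 ω)
  · have hfn : ∀ n k, BM (f n k) := fun n k => ⟨hf n k, C, hC n k⟩
    have hg : ∀ k, BM (g k) := fun k => BM.of_tendsto (fun n => hf n k) (fun n => hC n k) (hl k)
    simp only [sInt_apply hc (hs (hfn _)), sInt_apply hc (hs hg)]
    refine tendsto_integral_of_dominated_convergence
      (fun ω => ‖c ω‖ * ((B * ∏ _k : κ, max C 0) * ‖η‖))
      (fun n => ((hs (hfn n)).integrable hc η).aestronglyMeasurable) (hc.norm.mul_const _)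
      (fun n => Eventually.of_forall fun ω => ?_) (Eventually.of_forall fun ω => ?_)
    · rw [norm_smul]
      refine mul_le_mul_of_nonneg_left ((ContinuousLinearMap.le_opNorm _ _).trans
        (mul_le_mul_of_nonneg_right ?_ (norm_nonneg _))) (norm_nonneg _)
      exact hB _ _ (fun k => (hm ω k).mul (hf n k)) (fun _ => le_max_right _ _)
        fun k y => (hle (hC n) ω k y).trans (le_max_left _ _)
    · exact ((h.comp (φ := fun _ y => y) (fun _ => measurable_id) (hφ ω)).lim f g C hf hC hl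
        η).const_smul _

theorem NullOn.mono {O O' : κ → Set Y} (h : NullOn W O) (hO : ∀ k, O' k ⊆ O k) : NullOn W O' :=
  fun f hf h0 => h f hf fun k y hy => h0 k y fun hy' => hy (hO k hy')
/-- for PVM words it is enough to test the indicators -/
theorem nullOn_word_iff {n : ℕ} {P : Fin n → POVM Y K} (hP : ∀ i, (P i).IsPVM)
    {O : Fin n → Set Y} (hO : ∀ i, MeasurableSet (O i)) (hn : n ≤ 2) :
    NullOn (word P) O ↔ word P (fun i => ic (O i)) = 0 := by
  refine ⟨fun h => h _ (fun i => BM.ic (hO i)) fun k y hy => ic_of_notMem hy, fun h f hf h0 => ?_⟩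
  have e : ∀ i, (fun y => f i y * ic (O i) y) = f i := fun i => by
    funext y
    by_cases hy : y ∈ O i
    · simp [hy]
    · simp [h0 i y hy]
  have e1 : ∀ i, (P i).E (f i) = (P i).E (f i) * (P i).E (ic (O i)) := fun i => by
    rw [← hP i _ _ (hf i) (BM.ic (hO i)), e]
  have e2 : ∀ i, (P i).E (f i) = (P i).E (ic (O i)) * (P i).E (f i) := fun i => by
    rw [← hP i _ _ (BM.ic (hO i)) (hf i)]
    simp only [mul_comm (ic (O i) _), e]
  obtain rfl | rfl | rfl : n = 0 ∨ n = 1 ∨ n = 2 := by omega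
  · simpa [word] using h
  · simp only [word, List.ofFn_succ, List.ofFn_zero, List.prod_cons, List.prod_nil, mul_one] at h ⊢
    rw [e1, h, mul_zero]
  · simp only [word, List.ofFn_succ, List.ofFn_zero, List.prod_cons, List.prod_nil, mul_one] at h ⊢
    rw [e1 0, e2 (Fin.succ 0), mul_assoc, ← mul_assoc ((P 0).E (ic (O 0))), h, zero_mul, mul_zero]

end Crest.Agent.N111
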